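import Vale.Agent.Lib.P322B.Defs

/-!
Basic calculus for `y`, `phi`, `hh`, `kap`, `EE`.
-/

namespace Vale.Agent.Lib.P322B

open Vale.Agent.Lib.P322 Real

lemma one_add_pos_of_abs {u : ℝ} (hu : |u| < 1) : 0 < 1 + u := by
  have := (abs_lt.mp hu).1; linarith

lemma one_sub_pos_of_abs {u : ℝ} (hu : |u| < 1) : 0 < 1 - u := by
  have := (abs_lt.mp hu).2; linarith

lemma one_sub_sq_pos_of_abs {u : ℝ} (hu : |u| < 1) : 0 < 1 - u ^ 2 := by
  have h1 := one_add_pos_of_abs hu
  have h2 := one_sub_pos_of_abs hu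
  have : 1 - u ^ 2 = (1 + u) * (1 - u) := by ring
  rw [this]; positivity

lemma hasDerivAt_y {u : ℝ} (hu : |u| < 1) : HasDerivAt y (1 / (1 - u ^ 2)) u := by
  have h1 := one_add_pos_of_abs hu
  have h2 := one_sub_pos_of_abs hu
  have d1 : HasDerivAt (fun v : ℝ => log (1 + v)) (1 / (1 + u)) u := by
    have := ((hasDerivAt_id u).const_add 1).log (by simpa using h1.ne')
    simpa using this
  have d2 : HasDerivAt (fun v : ℝ => log (1 - v)) (-1 / (1 - u)) u := by
    have := ((hasDerivAt_id u).const_sub 1).log (by simpa using h2.ne')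
    simpa using this
  have := (d1.sub d2).div_const 2
  have h3 : 1 - u ^ 2 = (1 + u) * (1 - u) := by ring
  refine HasDerivAt.congr_deriv (f := y) this ?_
  rw [h3]; field_simp; ring

lemma hasDerivAt_phi {u : ℝ} (hu : |u| < 1) : HasDerivAt phi (y u) u := by
  have h1 := one_add_pos_of_abs hu
  have h2 := one_sub_pos_of_abs hu
  have d1 : HasDerivAt (fun v : ℝ => log (1 + v)) (1 / (1 + u)) u := by
    have := ((hasDerivAt_id u).const_add 1).log (by simpa using h1.ne')
    simpa using this
  have d2 : HasDerivAt (fun v : ℝ => log (1 - v)) (-1 / (1 - u)) u := by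
    have := ((hasDerivAt_id u).const_sub 1).log (by simpa using h2.ne')
    simpa using this
  have e1 : HasDerivAt (fun v : ℝ => 1 + v) 1 u := by
    simpa using (hasDerivAt_id u).const_add 1
  have e2 : HasDerivAt (fun v : ℝ => 1 - v) (-1) u := by
    simpa using (hasDerivAt_id u).const_sub 1
  have := ((e1.mul d1).add (e2.mul d2)).div_const 2
  refine HasDerivAt.congr_deriv (f := phi) this ?_
  unfold y
  field_simp
  ring

lemma hasDerivAt_hh {u : ℝ} (hu : |u| < 1) : HasDerivAt hh (- y u) u := by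
  have := (hasDerivAt_phi hu).const_sub (log 2)
  exact this

/-- The closed form of `phi` on `(-1,1)`. -/
lemma phi_eq {u : ℝ} (hu : |u| < 1) : phi u = u * y u + log (1 - u ^ 2) / 2 := by
  have h1 := one_add_pos_of_abs hu
  have h2 := one_sub_pos_of_abs hu
  have h3 : 1 - u ^ 2 = (1 + u) * (1 - u) := by ring
  rw [h3, log_mul h1.ne' h2.ne']
  unfold phi y
  ring

lemma hasDerivAt_kap {u : ℝ} (hu : |u| < 1) :
    HasDerivAt kap (u * (1 / (1 - u ^ 2)) - y u) u := by
  have d := ((hasDerivAt_id u).mul (hasDerivAt_y hu)).sub ((hasDerivAt_phi hu).const_mul 2)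
  refine HasDerivAt.congr_deriv (f := kap) d ?_
  simp only [id]
  ring

lemma y_zero : y 0 = 0 := by simp [y]

lemma y_neg (u : ℝ) : y (-u) = - y u := by
  unfold y
  rw [show (1 + -u) = 1 - u by ring, show (1 - -u) = 1 + u by ring]
  ring

lemma hh_neg (u : ℝ) : hh (-u) = hh u := by
  unfold hh; rw [phi_neg]

lemma hh_zero : hh 0 = log 2 := by
  unfold hh; rw [phi_zero]; ring

lemma kap_zero : kap 0 = 0 := by
  unfold kap; rw [phi_zero, y_zero]; ring

lemma continuous_hh : Continuous hh := continuous_const.sub continuous_phi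

/-- `u ≤ y u` on `[0,1)`. -/
lemma le_y {u : ℝ} (h0 : 0 ≤ u) (h1 : u < 1) : u ≤ y u := by
  have hm : MonotoneOn (fun v => y v - v) (Set.Ico 0 1) := by
    apply monotoneOn_of_deriv_nonneg (convex_Ico 0 1)
    · intro v hv
      have hv' : |v| < 1 := by rw [abs_lt]; constructor <;> linarith [hv.1, hv.2]
      exact ((hasDerivAt_y hv').sub (hasDerivAt_id v)).continuousAt.continuousWithinAt
    · intro v hv
      rw [interior_Ico] at hv
      have hv' : |v| < 1 := by rw [abs_lt]; constructor <;> linarith [hv.1, hv.2]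
      exact ((hasDerivAt_y hv').sub (hasDerivAt_id v)).differentiableAt.differentiableWithinAt
    · intro v hv
      rw [interior_Ico] at hv
      have hv' : |v| < 1 := by rw [abs_lt]; constructor <;> linarith [hv.1, hv.2]
      have d := (hasDerivAt_y hv').sub (hasDerivAt_id v)
      have e : deriv (fun v => y v - v) v = 1 / (1 - v ^ 2) - 1 := d.deriv
      rw [e]
      have h3 := one_sub_sq_pos_of_abs hv'
      have h4 : 1 - v ^ 2 ≤ 1 := by nlinarith [sq_nonneg v]
      have : 1 ≤ 1 / (1 - v ^ 2) := by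
        rw [le_div_iff₀ h3]; linarith
      linarith
  have := hm (Set.left_mem_Ico.mpr (by norm_num)) ⟨h0, h1⟩ h0
  simp only [y_zero] at this
  linarith

/-- `y u ≤ u / (1 - u^2)` on `[0,1)`. -/
lemma y_le {u : ℝ} (h0 : 0 ≤ u) (h1 : u < 1) : y u ≤ u / (1 - u ^ 2) := by
  have hu : |u| < 1 := by rw [abs_lt]; constructor <;> linarith
  have hm : MonotoneOn (fun v => v / (1 - v ^ 2) - y v) (Set.Ico 0 1) := by
    have key : ∀ v ∈ Set.Ico (0:ℝ) 1, HasDerivAt (fun v => v / (1 - v ^ 2) - y v)
        ((1 + v ^ 2) / (1 - v ^ 2) ^ 2 - 1 / (1 - v ^ 2)) v := by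
      intro v hv
      have hv' : |v| < 1 := by rw [abs_lt]; constructor <;> linarith [hv.1, hv.2]
      have h3 := one_sub_sq_pos_of_abs hv'
      have d1 : HasDerivAt (fun v : ℝ => 1 - v ^ 2) (-(2 * v)) v := by
        have := ((hasDerivAt_id v).pow 2).const_sub 1
        simpa using this
      have d2 := (hasDerivAt_id v).div d1 h3.ne'
      have d3 := d2.sub (hasDerivAt_y hv')
      refine HasDerivAt.congr_deriv d3 ?_
      simp only [id]
      field_simp
      ring
    apply monotoneOn_of_deriv_nonneg (convex_Ico 0 1)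
    · intro v hv
      exact (key v hv).continuousAt.continuousWithinAt
    · intro v hv
      rw [interior_Ico] at hv
      exact (key v ⟨hv.1.le, hv.2⟩).differentiableAt.differentiableWithinAt
    · intro v hv
      rw [interior_Ico] at hv
      rw [(key v ⟨hv.1.le, hv.2⟩).deriv]
      have hv' : |v| < 1 := by rw [abs_lt]; constructor <;> linarith [hv.1, hv.2]
      have h3 := one_sub_sq_pos_of_abs hv'
      have : (1 + v ^ 2) / (1 - v ^ 2) ^ 2 - 1 / (1 - v ^ 2) = 2 * v ^ 2 / (1 - v ^ 2) ^ 2 := by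
        field_simp
        ring
      rw [this]
      positivity
  have := hm (Set.left_mem_Ico.mpr (by norm_num)) ⟨h0, h1⟩ h0
  simp only [y_zero] at this
  norm_num at this
  linarith

lemma y_pos {u : ℝ} (h0 : 0 < u) (h1 : u < 1) : 0 < y u := lt_of_lt_of_le h0 (le_y h0.le h1)

end Vale.Agent.Lib.P322B
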