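import Vale.Agent.Lib.P322B.E2

/-!
The two-variable inequality in the coordinates `(t, W)`, `W = (1 - τ^2) / (1 - t^2 τ^2)`.
-/

namespace Vale.Agent.Lib.P322B

open Vale.Agent.Lib.P322 Real Set Filter Topology

/-- `θ = 1 - t^2 W`. -/
noncomputable def thw (t W : ℝ) : ℝ := 1 - t ^ 2 * W
/-- `a = x^2`. -/
noncomputable def aw (t W : ℝ) : ℝ := t ^ 2 * W ^ 2
/-- `b = d^2`. -/
noncomputable def bw (t W : ℝ) : ℝ := (1 - W) * thw t W
/-- `T = τ^2`. -/
noncomputable def Tw (t W : ℝ) : ℝ := (1 - W) / thw t W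
/-- `Z`. -/
noncomputable def Zw (t W : ℝ) : ℝ := (1 - W) * thw t W / (W * (1 + t) ^ 2)
/-- `V`. -/
noncomputable def Vw (t W : ℝ) : ℝ :=
  (1 + cc) * bw t W - 2 * cc * aw t W * bw t W - cc * (1 - aw t W) ^ 2
/-- `om x`. -/
noncomputable def omw (t W : ℝ) : ℝ := (1 - aw t W) * (1 - cc * aw t W)
/-- `W-bar`. -/
noncomputable def WBw (t W : ℝ) : ℝ :=
  1 - (1 + cc) * (aw t W + bw t W) +
    cc * (aw t W ^ 2 + 6 * aw t W * bw t W + bw t W ^ 2)
/-- `D-tilde`. -/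
noncomputable def Dw (t W : ℝ) : ℝ := log (1 + Zw t W) - (1 - t) ^ 2 / t * y (t * Tw t W)
/-- First bound. -/
noncomputable def M1w (t W : ℝ) : ℝ :=
  1 / 2 * log (thw t W / (W * (1 - t ^ 2))) + 2 / 3 * log ((1 - aw t W) / thw t W)
/-- Second bound. -/
noncomputable def M2w (t W : ℝ) : ℝ := 2 / 3 * log (omw t W / WBw t W)

/-- The statement of the two-variable inequality in the coordinates `(t, W)`. -/
def E24W : Prop :=
  ∀ t W : ℝ, 0 < t → t < 1 → 0 < W → W < 1 →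
    0 < Vw t W → Vw t W * M1w t W ≤ Dw t W ∨ Vw t W * M2w t W ≤ Dw t W

/-- `Dw` is nonnegative, stated in the coordinates `(t, W)`. -/
def E24D : Prop := ∀ t W : ℝ, 0 < t → t < 1 → 0 < W → W < 1 → 0 ≤ Dw t W

theorem E24Stmt_of_W (hD : E24D) (hV : E24W) : E24Stmt := by
  intro τ t hτ0 hτ1 ht0 ht1
  have ht := abs_lt_one_of_Ico ht0.le ht1
  have hτ := abs_lt_one_of_Ico hτ0.le hτ1
  have h0 := den_pos ht hτ
  have hs := one_sub_sq_pos_of_abs ht
  have hT := one_sub_sq_pos_of_abs hτ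
  set D := 1 - (t * τ) ^ 2 with hDdef
  set W := (1 - τ ^ 2) / D with hW
  have hWpos : 0 < W := by positivity
  have hD' : D = 1 - t ^ 2 * τ ^ 2 := by rw [hDdef]; ring
  have ht2 : t ^ 2 < 1 := by linarith
  have hτ2 : 0 < τ ^ 2 := by positivity
  have hW1 : W < 1 := by
    rw [hW, div_lt_one h0, hD']
    nlinarith
  have e1 : thw t W = th τ t := by
    unfold thw th
    rw [← hDdef, hW]
    field_simp
    rw [hD']
    ring
  have hθ := th_pos ht hτ
  have e2 : xx τ t = t * W := by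
    unfold xx
    rw [← hDdef, hW]
    ring
  have e3 : aw t W = xx τ t ^ 2 := by
    unfold aw
    rw [e2]; ring
  have e4 : 1 - W = τ ^ 2 * th τ t := by
    unfold th
    rw [← hDdef, hW]
    field_simp
    rw [hD']
    ring
  have e5 : bw t W = (τ * th τ t) ^ 2 := by
    unfold bw
    rw [e1, e4]; ring
  have e6 : Tw t W = τ ^ 2 := by
    unfold Tw
    rw [e1, e4]
    field_simp
  have hV1 : Vw t W = VV (xx τ t) (τ * th τ t) := by
    unfold Vw
    rw [VV_eq, e3, e5]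
  have hom1 : omw t W = om (xx τ t) := by
    unfold omw om
    rw [e3]
  have hW1' : WBw t W = WW (xx τ t) (τ * th τ t) := by
    unfold WBw
    rw [WW_eq, e3, e5]
    ring
  have hw := abs_mul_sq_lt ht hτ
  have hw1 := one_add_pos_of_abs hw
  have hw2 := one_sub_pos_of_abs hw
  have hZ : 1 + Zw t W = (1 - t * τ ^ 2) ^ 2 / ((1 - τ ^ 2) * D) := by
    unfold Zw
    rw [e1, e4]
    unfold th
    rw [← hDdef, hW]
    have h1t : 0 < 1 + t := by linarith
    field_simp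
    rw [hD']
    ring
  have hDt : Dt τ t = Dw t W := by
    unfold Dt Dw Lam
    rw [hZ, e6, ← hDdef, log_div (by positivity) (by positivity),
      log_mul hT.ne' h0.ne', log_pow]
    have e7 : log (1 - (t * τ ^ 2) ^ 2) = log (1 + t * τ ^ 2) + log (1 - t * τ ^ 2) := by
      rw [← log_mul hw1.ne' hw2.ne']
      congr 1
      ring
    have e8 : y (t * τ ^ 2) = (log (1 + t * τ ^ 2) - log (1 - t * τ ^ 2)) / 2 := rfl
    rw [e7, e8]
    generalize log (1 + t * τ ^ 2) = A1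
    generalize log (1 - t * τ ^ 2) = A2
    push_cast
    field_simp
    ring
  have hM1 : M1w t W = - (1 / 2) * log (1 - τ ^ 2) + 2 / 3 * log ((1 - xx τ t ^ 2) / th τ t) := by
    unfold M1w
    rw [e1, e3]
    have e9 : th τ t / (W * (1 - t ^ 2)) = 1 / (1 - τ ^ 2) := by
      unfold th
      rw [← hDdef, hW]
      field_simp
    rw [e9, log_div one_ne_zero hT.ne', log_one]
    ring
  have hM2 : M2w t W = 2 / 3 * log (om (xx τ t) / WW (xx τ t) (τ * th τ t)) := by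
    unfold M2w
    rw [hom1, hW1']
  refine ⟨?_, ?_⟩
  · rw [hDt]; exact hD t W ht0 ht1 hWpos hW1
  · intro hVpos
    rw [← hV1] at hVpos ⊢
    rw [hDt, ← hM1, ← hM2]
    exact hV t W ht0 ht1 hWpos hW1 hVpos

/-- Elementary facts in the coordinates `(t, W)`. -/
structure TWfacts (t W : ℝ) : Prop where
  r1 : t ^ 2 < 1
  θpos : 0 < thw t W
  θ1 : 1 - W ≤ thw t W
  θle : thw t W < 1
  Tpos : 0 < Tw t W
  Tlt : Tw t W < 1
  wlt : t * Tw t W < t
  upos : 0 < 1 - t ^ 2 * Tw t W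
  tθ : 1 - W = Tw t W * thw t W
  θu : 1 - t ^ 2 = thw t W * (1 - t ^ 2 * Tw t W)
  Wθ : W * (1 - t ^ 2) = thw t W * (1 - Tw t W)

lemma TW_facts {t W : ℝ} (ht0 : 0 < t) (ht1 : t < 1) (hW0 : 0 < W) (hW1 : W < 1) :
    TWfacts t W := by
  have hr : t ^ 2 < 1 := by nlinarith
  have hr0 : 0 < t ^ 2 := by positivity
  have hθ : 0 < thw t W := by
    unfold thw; nlinarith
  have hθ1 : 1 - W ≤ thw t W := by
    unfold thw; nlinarith [mul_nonneg (sub_nonneg.mpr hr.le) hW0.le]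
  have hθle : thw t W < 1 := by
    unfold thw; nlinarith
  have hW : 0 < 1 - W := by linarith
  have hT0 : 0 < Tw t W := by
    unfold Tw; positivity
  have hT1 : Tw t W < 1 := by
    unfold Tw
    rw [div_lt_one hθ]
    unfold thw
    nlinarith
  have e1 : 1 - W = Tw t W * thw t W := by
    unfold Tw; field_simp
  have hu : 0 < 1 - t ^ 2 * Tw t W := by nlinarith
  have e2 : 1 - t ^ 2 = thw t W * (1 - t ^ 2 * Tw t W) := by
    have e3 : thw t W * (1 - t ^ 2 * Tw t W) = thw t W - t ^ 2 * (Tw t W * thw t W) := by ring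
    rw [e3, ← e1]
    unfold thw
    ring
  have e4 : W * (1 - t ^ 2) = thw t W * (1 - Tw t W) := by
    have e5 : thw t W * (1 - Tw t W) = thw t W - Tw t W * thw t W := by ring
    rw [e5, ← e1]
    unfold thw
    ring
  exact ⟨hr, hθ, hθ1, hθle, hT0, hT1, by nlinarith, hu, e1, e2, e4⟩

/-- The formula for `Z` in terms of `t` and `T`. -/
lemma Zw_eq {t W : ℝ} (ht0 : 0 < t) (ht1 : t < 1) (hW0 : 0 < W) (hW1 : W < 1) :
    Zw t W = Tw t W * (1 - t) ^ 2 / ((1 - Tw t W) * (1 - t ^ 2 * Tw t W)) := by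
  obtain ⟨hr, hθ, -, -, hT0, hT1, -, hu, e1, e2, e4⟩ := TW_facts ht0 ht1 hW0 hW1
  unfold Zw
  have h1t : 0 < 1 + t := by linarith
  have h1s : 0 < 1 - t := by linarith
  have hT' : 0 < 1 - Tw t W := by linarith
  rw [e1]
  set T := Tw t W
  set θ := thw t W
  have e5 : W = θ * (1 - T) / (1 - t ^ 2) := by
    rw [eq_div_iff (by linarith)]
    linarith
  rw [e5]
  have e6 : θ = (1 - t ^ 2) / (1 - t ^ 2 * T) := by
    rw [eq_div_iff hu.ne']; linarith
  have hr' : 0 < 1 - t ^ 2 := by linarith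
  rw [e6]
  have e7 : 1 - t ^ 2 = (1 - t) * (1 + t) := by ring
  rw [e7]
  rw [e7] at hr'
  field_simp

/-- `1 + Z` as a square. -/
lemma one_add_Zw {t W : ℝ} (ht0 : 0 < t) (ht1 : t < 1) (hW0 : 0 < W) (hW1 : W < 1) :
    1 + Zw t W = (1 - t * Tw t W) ^ 2 / ((1 - Tw t W) * (1 - t ^ 2 * Tw t W)) := by
  obtain ⟨hr, hθ, -, -, hT0, hT1, -, hu, -, -, -⟩ := TW_facts ht0 ht1 hW0 hW1
  rw [Zw_eq ht0 ht1 hW0 hW1]
  have hT' : 0 < 1 - Tw t W := by linarith
  set T := Tw t W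
  have hB : (1 - T) * (1 - t ^ 2 * T) ≠ 0 := by positivity
  rw [one_add_div hB]
  congr 1
  ring

/-- The subtracted term, bounded above. -/
lemma S_le {t W : ℝ} (ht0 : 0 < t) (ht1 : t < 1) (hW0 : 0 < W) (hW1 : W < 1) :
    (1 - t) ^ 2 / t * y (t * Tw t W) ≤
      Tw t W * (1 - t) ^ 2 / (1 - (t * Tw t W) ^ 2) := by
  obtain ⟨hr, hθ, -, -, hT0, hT1, hw, hu, -, -, -⟩ := TW_facts ht0 ht1 hW0 hW1
  set T := Tw t W
  have hw1 : t * T < 1 := hw.trans ht1
  have hw0 : 0 ≤ t * T := by positivity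
  have h1 := y_le hw0 hw1
  have hpos : 0 < 1 - (t * T) ^ 2 := by nlinarith
  have h2 : 0 ≤ (1 - t) ^ 2 / t := by positivity
  have h3 := mul_le_mul_of_nonneg_left h1 h2
  refine h3.trans (le_of_eq ?_)
  field_simp

/-- (A1): nonnegativity of `Dw`. -/
theorem E24D_holds : E24D := by
  intro t W ht0 ht1 hW0 hW1
  obtain ⟨hr, hθ, -, -, hT0, hT1, hw, hu, -, -, -⟩ := TW_facts ht0 ht1 hW0 hW1
  have hS := S_le ht0 ht1 hW0 hW1
  have hZ := one_add_Zw ht0 ht1 hW0 hW1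
  unfold Dw
  set T := Tw t W
  have hw1 : t * T < 1 := hw.trans ht1
  have hw0 : 0 ≤ t * T := by positivity
  have hT' : 0 < 1 - T := by linarith
  have hw' : 0 < 1 - t * T := by linarith
  have hpos : 0 < 1 - (t * T) ^ 2 := by nlinarith
  have hZpos : 0 < 1 + Zw t W := by
    rw [hZ]; positivity
  have h1 := one_sub_inv_le_log_of_pos hZpos
  rw [hZ] at h1 ⊢
  have h2 : T * (1 - t) ^ 2 / (1 - (t * T) ^ 2) ≤
      1 - ((1 - t * T) ^ 2 / ((1 - T) * (1 - t ^ 2 * T)))⁻¹ := by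
    rw [inv_div]
    have e : 1 - (1 - T) * (1 - t ^ 2 * T) / (1 - t * T) ^ 2 = T * (1 - t) ^ 2 / (1 - t * T) ^ 2 := by
      have hB : (1 - t * T) ^ 2 ≠ 0 := by positivity
      rw [one_sub_div hB]
      congr 1
      ring
    rw [e]
    apply div_le_div_of_nonneg_left (by positivity) (by positivity)
    nlinarith [mul_nonneg hw0 hw'.le]
  linarith

end Vale.Agent.Lib.P322B
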