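import Vale.Agent.Lib.P322B.JBar
import Vale.Agent.Lib.P322.Main

/-!
From the tangent form of the Bellman inequality to the main inequality for all Boolean functions.
-/

namespace Vale.Agent.Lib.P322B

open Vale.Agent.Lib.P322 Real

/-! ### Bounds for `y` -/

lemma y_lower {t : ℝ} (h0 : 0 ≤ t) (h1 : t < 1) :
    t + t ^ 3 / 3 + t ^ 5 / 5 + t ^ 7 / 7 ≤ y t := by
  have hab : |t| < 1 := by rw [abs_of_nonneg h0]; exact h1
  have hs := Real.hasSum_log_sub_log_of_abs_lt_one hab
  have hnn : ∀ k ∉ Finset.range 4, 0 ≤ (2 : ℝ) * (1 / (2 * (k : ℝ) + 1)) * t ^ (2 * k + 1) := by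
    intro k _
    positivity
  have := sum_le_hasSum (Finset.range 4) hnn hs
  simp only [Finset.sum_range_succ, Finset.sum_range_zero] at this
  unfold y
  norm_num at this
  linarith

lemma y_upper {t : ℝ} (h0 : 0 ≤ t) (h1 : t < 1) :
    y t ≤ t + t ^ 3 / 3 + t ^ 5 / 5 + t ^ 7 / (7 * (1 - t ^ 2)) := by
  have hT : 0 < 1 - t ^ 2 := by nlinarith
  set D : ℝ → ℝ := fun s => s + s ^ 3 / 3 + s ^ 5 / 5 + s ^ 7 / (7 * (1 - t ^ 2)) - y s with hD
  have hd : ∀ s ∈ Set.Icc 0 t, HasDerivAt D
      (1 + s ^ 2 + s ^ 4 + s ^ 6 / (1 - t ^ 2) - 1 / (1 - s ^ 2)) s := by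
    intro s hs
    have hs1 : |s| < 1 := by
      rw [abs_of_nonneg hs.1]; exact lt_of_le_of_lt hs.2 h1
    have h3 : HasDerivAt (fun u : ℝ => u ^ 3) (3 * s ^ 2) s := by simpa using hasDerivAt_pow 3 s
    have h5 : HasDerivAt (fun u : ℝ => u ^ 5) (5 * s ^ 4) s := by simpa using hasDerivAt_pow 5 s
    have h7 : HasDerivAt (fun u : ℝ => u ^ 7) (7 * s ^ 6) s := by simpa using hasDerivAt_pow 7 s
    have tot := ((((hasDerivAt_id' s).add (h3.div_const 3)).add (h5.div_const 5)).add
      (h7.div_const (7 * (1 - t ^ 2)))).sub (hasDerivAt_y hs1)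
    refine HasDerivAt.congr_deriv (f := D) tot ?_
    field_simp
  have hmono : MonotoneOn D (Set.Icc 0 t) := by
    apply monotoneOn_of_deriv_nonneg (convex_Icc 0 t)
    · intro s hs
      exact (hd s hs).continuousAt.continuousWithinAt
    · intro s hs
      rw [interior_Icc] at hs
      exact (hd s ⟨hs.1.le, hs.2.le⟩).differentiableAt.differentiableWithinAt
    · intro s hs
      rw [interior_Icc] at hs
      rw [(hd s ⟨hs.1.le, hs.2.le⟩).deriv]
      have hs2 : s ^ 2 ≤ t ^ 2 := by nlinarith [hs.1, hs.2]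
      have hS : 0 < 1 - s ^ 2 := by nlinarith
      have e : 1 + s ^ 2 + s ^ 4 + s ^ 6 / (1 - t ^ 2) - 1 / (1 - s ^ 2)
          = s ^ 6 * (t ^ 2 - s ^ 2) / ((1 - t ^ 2) * (1 - s ^ 2)) := by
        field_simp
        ring
      rw [e]
      have : 0 ≤ t ^ 2 - s ^ 2 := by linarith
      positivity
  have := hmono ⟨le_refl 0, h0⟩ ⟨h0, le_refl t⟩ h0
  simp only [hD] at this
  have hy0 : y 0 = 0 := y_zero
  rw [hy0] at this
  norm_num at this
  linarith

/-- `y` at a ratio. -/
lemma y_ratio {a b : ℝ} (ha : 0 < a) (hb : 0 < b) : y ((a - b) / (a + b)) = (log a - log b) / 2 := by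
  unfold y
  have e1 : 1 + (a - b) / (a + b) = 2 * a / (a + b) := by field_simp; ring
  have e2 : 1 - (a - b) / (a + b) = 2 * b / (a + b) := by field_simp; ring
  rw [e1, e2, Real.log_div (by positivity) (by positivity), Real.log_div (by positivity) (by positivity),
    Real.log_mul (by norm_num) ha.ne', Real.log_mul (by norm_num) hb.ne']
  ring

/-! ### The numerical input at the start of the flow -/

/-- The numerical input. -/
lemma numeric_start :
    (log 2 - 9 / 20) * (1 - 2 * ((4 / 25) * y (4 / 25)) * Jb (4 / 25)) ≤ phi (4 / 25) := by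
  have hL1 := Real.log_two_gt_d9
  have hL2 := Real.log_two_lt_d9
  -- the relevant values of `y`
  set x := y (4 / 25) with hx
  set w := y (1 / 9) with hw
  set z := y (2 / 27) with hz
  set t := y (8 / 617) with ht
  have hx1 : (16138 / 100000 : ℝ) ≤ x := by
    have := y_lower (t := 4 / 25) (by norm_num) (by norm_num)
    norm_num at this
    rw [hx]
    linarith
  have hx2 : x ≤ 16138670 / 100000000 := by
    have := y_upper (t := 4 / 25) (by norm_num) (by norm_num)
    norm_num at this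
    rw [hx]
    linarith
  have hw2 : w ≤ 11157178 / 100000000 := by
    have := y_upper (t := 1 / 9) (by norm_num) (by norm_num)
    norm_num at this
    rw [hw]
    linarith
  have hz2 : z ≤ 7421001 / 100000000 := by
    have := y_upper (t := 2 / 27) (by norm_num) (by norm_num)
    norm_num at this
    rw [hz]
    linarith
  have ht2 : t ≤ 12966692 / 1000000000 := by
    have := y_upper (t := 8 / 617) (by norm_num) (by norm_num)
    norm_num at this
    rw [ht]
    linarith
  -- logarithms in terms of these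
  have e4 : log 4 = 2 * log 2 := by
    rw [show (4 : ℝ) = 2 ^ 2 by norm_num, Real.log_pow]; norm_num
  have ew : w = (log 5 - log 4) / 2 := by
    rw [hw, ← y_ratio (by norm_num) (by norm_num)]; norm_num
  have ez : z = (log 29 - log 25) / 2 := by
    rw [hz, ← y_ratio (by norm_num) (by norm_num)]; norm_num
  have e25 : log 25 = 2 * log 5 := by
    rw [show (25 : ℝ) = 5 ^ 2 by norm_num, Real.log_pow]; norm_num
  have ls : log (4 / 25) = - 2 * log 2 - 4 * w := by
    rw [Real.log_div (by norm_num) (by norm_num), e25, ew, e4]; ring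
  have l1s : log (1 + 4 / 25) = 2 * z := by
    rw [ez, show (1 + 4 / 25 : ℝ) = 29 / 25 by norm_num, Real.log_div (by norm_num) (by norm_num)]
    ring
  have l1q : log (1 - (4 / 25 : ℝ) ^ 2) = - 2 * t := by
    have : t = (log 625 - log 609) / 2 := by
      rw [ht, ← y_ratio (by norm_num) (by norm_num)]; norm_num
    rw [this, show (1 - (4 / 25 : ℝ) ^ 2) = 609 / 625 by norm_num,
      Real.log_div (by norm_num) (by norm_num)]
    ring
  have hphi : phi (4 / 25) = (4 / 25) * x - t := by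
    have hab : |(4 / 25 : ℝ)| < 1 := by rw [abs_of_pos (by norm_num)]; norm_num
    rw [phi_eq hab, l1q]
    ring
  have hJ : Jb (4 / 25) = -109 / 90 + 259 / 720 * log 2 + 5 / (6 * (4 / 25) ^ 2)
      + 1 / 3 * (- 2 * log 2 - 4 * w) + 67 / 180 * (4 / 25) ^ 2 + (4 / 25) ^ 4 / 180
      + Rb (4 / 25) * x - 259 / 720 * (2 * z) := by
    unfold Jb
    rw [ls, l1s]
  have hR : Rb (4 / 25) = -731174277113 / 9375000000 := by
    unfold Rb
    norm_num
  have hJlo : (18348 / 1000 : ℝ) ≤ Jb (4 / 25) := by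
    rw [hJ, hR]
    norm_num
    linarith
  set P := 2 * ((4 / 25) * x) * Jb (4 / 25) with hP
  have hPlo : (9475 / 10000 : ℝ) ≤ P := by
    have h1 : (16138 / 100000 : ℝ) * (18348 / 1000) ≤ x * Jb (4 / 25) :=
      mul_le_mul hx1 hJlo (by norm_num) (by linarith)
    have h2 : P = 2 * (4 / 25) * (x * Jb (4 / 25)) := by rw [hP]; ring
    rw [h2]
    norm_num at h1 ⊢
    linarith
  have hη : (0 : ℝ) ≤ log 2 - 9 / 20 := by
    norm_num at hL1 ⊢
    linarith
  calc (log 2 - 9 / 20) * (1 - P)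
      ≤ (log 2 - 9 / 20) * (1 - 9475 / 10000) :=
        mul_le_mul_of_nonneg_left (by linarith) hη
    _ ≤ (6931471808 / 10000000000 - 9 / 20) * (1 - 9475 / 10000) :=
        mul_le_mul_of_nonneg_right (by linarith) (by norm_num)
    _ ≤ phi (4 / 25) := by
        rw [hphi]
        norm_num
        linarith

/-! ### Positivity of `kappa` and `E` -/

lemma EE_nonneg_open {t : ℝ} (h0 : 0 < t) (h1 : t < 1) : 0 ≤ EE t := by
  rw [EE_of_ne h0.ne']
  have hy := y_pos h0 h1
  have hab : |t| < 1 := by rw [abs_of_pos h0]; exact h1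
  have hS := one_sub_sq_pos_of_abs hab
  have hle := y_le h0.le h1
  rw [le_div_iff₀ hS] at hle
  have : 1 ≤ t / ((1 - t ^ 2) * y t) := by
    rw [le_div_iff₀ (by positivity)]
    linarith
  linarith

lemma kap_nonneg_ico {t : ℝ} (h0 : 0 ≤ t) (h1 : t < 1) : 0 ≤ kap t := by
  have hd : ∀ s ∈ Set.Ico (0 : ℝ) 1, HasDerivAt kap (s * (1 / (1 - s ^ 2)) - y s) s := by
    intro s hs
    exact hasDerivAt_kap (by rw [abs_of_nonneg hs.1]; exact hs.2)
  have hmono : MonotoneOn kap (Set.Ico 0 1) := by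
    apply monotoneOn_of_deriv_nonneg (convex_Ico 0 1)
    · intro s hs
      exact (hd s hs).continuousAt.continuousWithinAt
    · intro s hs
      rw [interior_Ico] at hs
      exact (hd s ⟨hs.1.le, hs.2⟩).differentiableAt.differentiableWithinAt
    · intro s hs
      rw [interior_Ico] at hs
      rw [(hd s ⟨hs.1.le, hs.2⟩).deriv]
      have hle := y_le hs.1.le hs.2
      have : s * (1 / (1 - s ^ 2)) = s / (1 - s ^ 2) := by ring
      rw [this]
      linarith
  have := hmono ⟨le_refl 0, by norm_num⟩ ⟨h0, h1⟩ h0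
  rwa [kap_zero] at this

lemma phi_mono {s t : ℝ} (h0 : 0 ≤ s) (hst : s ≤ t) (h1 : t < 1) : phi s ≤ phi t := by
  have hd : ∀ u ∈ Set.Ico (0 : ℝ) 1, HasDerivAt phi (y u) u := by
    intro u hu
    exact hasDerivAt_phi (by rw [abs_of_nonneg hu.1]; exact hu.2)
  have hmono : MonotoneOn phi (Set.Ico 0 1) := by
    apply monotoneOn_of_deriv_nonneg (convex_Ico 0 1)
    · intro u hu
      exact (hd u hu).continuousAt.continuousWithinAt
    · intro u hu
      rw [interior_Ico] at hu
      exact (hd u ⟨hu.1.le, hu.2⟩).differentiableAt.differentiableWithinAt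
    · intro u hu
      rw [interior_Ico] at hu
      rw [(hd u ⟨hu.1.le, hu.2⟩).deriv]
      exact (y_pos hu.1 hu.2).le
  exact hmono ⟨h0, hst.trans_lt h1⟩ ⟨h0.trans hst, h1⟩ hst

/-! ### Propagating the numerical input along the flow -/

/-- The function `phi - eta (1 - 2 B Jb)` stays nonnegative as long as `phi ≤ eta`. -/
lemma start_propagates {η r : ℝ} (hη0 : 0 ≤ η) (hr : 4 / 25 ≤ r) (hr1 : r < 1) (hphi : phi r ≤ η)
    (hst : η * (1 - 2 * ((4 / 25) * y (4 / 25)) * Jb (4 / 25)) ≤ phi (4 / 25)) :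
    η * (1 - 2 * (r * y r) * Jb r) ≤ phi r := by
  have hpos : ∀ t : ℝ, 4 / 25 ≤ t → (0 : ℝ) < t := fun t ht => by linarith
  set Th : ℝ → ℝ := fun t => (phi t - η) / (t * y t) + 2 * η * Jb t with hTh
  have hBpos : ∀ t : ℝ, 0 < t → t < 1 → 0 < t * y t := fun t h0 h1 => mul_pos h0 (y_pos h0 h1)
  have hd : ∀ t ∈ Set.Icc (4 / 25 : ℝ) r, ∃ d, HasDerivAt Th d t ∧ 0 ≤ d := by
    intro t ht
    have h0 : 0 < t := hpos t ht.1
    have h1 : t < 1 := ht.2.trans_lt hr1
    have hab : |t| < 1 := by rw [abs_of_pos h0]; exact h1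
    have hy := y_pos h0 h1
    have hq := ((hasDerivAt_phi hab).sub_const η).div (hasDerivAt_B h0 h1) (hBpos t h0 h1).ne'
    have hJ := (hasDerivAt_Jb h0 h1).const_mul (2 * η)
    have tot := hq.add hJ
    refine ⟨_, tot, ?_⟩
    have hge := Jb_deriv_ge h0 h1
    have hκ := kap_nonneg_ico h0.le h1
    have hE := EE_nonneg_open h0 h1
    have hφ : phi t ≤ η := (phi_mono h0.le ht.2 hr1).trans hphi
    have e1 : (y t * (t * y t) - (phi t - η) * ((2 + EE t) * y t)) / (t * y t) ^ 2
        = (t * y t - (phi t - η) * (2 + EE t)) / (t ^ 2 * y t) := by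
      field_simp
    rw [e1]
    have e2 : (t * y t - (phi t - η) * (2 + EE t)) / (t ^ 2 * y t) - 2 * η * (1 / (t ^ 2 * y t))
        = (kap t + EE t * (η - phi t)) / (t ^ 2 * y t) := by
      unfold kap
      field_simp
      ring
    have e3 : 0 ≤ (kap t + EE t * (η - phi t)) / (t ^ 2 * y t) := by
      have : 0 ≤ EE t * (η - phi t) := mul_nonneg hE (by linarith)
      positivity
    have e4 : - (2 * η * (1 / (t ^ 2 * y t)))
        ≤ 2 * η * (- (2 * LamJ t / t ^ 3 - LamJ t ^ 2 * y t / t ^ 4)) := by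
      have : 2 * η * (- (1 / (t ^ 2 * y t)))
          ≤ 2 * η * (- (2 * LamJ t / t ^ 3 - LamJ t ^ 2 * y t / t ^ 4)) :=
        mul_le_mul_of_nonneg_left hge (by positivity)
      linarith
    linarith
  have hmono : MonotoneOn Th (Set.Icc (4 / 25) r) := by
    apply monotoneOn_of_deriv_nonneg (convex_Icc _ _)
    · intro t ht
      obtain ⟨d, h, -⟩ := hd t ht
      exact h.continuousAt.continuousWithinAt
    · intro t ht
      rw [interior_Icc] at ht
      obtain ⟨d, h, -⟩ := hd t ⟨ht.1.le, ht.2.le⟩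
      exact h.differentiableAt.differentiableWithinAt
    · intro t ht
      rw [interior_Icc] at ht
      obtain ⟨d, h, h2⟩ := hd t ⟨ht.1.le, ht.2.le⟩
      rw [h.deriv]
      exact h2
  have hle := hmono ⟨le_refl _, hr⟩ ⟨hr, le_refl _⟩ hr
  simp only [hTh] at hle
  have hB0 := hBpos (4 / 25) (by norm_num) (by norm_num)
  have hB1 := hBpos r (hpos r hr) hr1
  have hs0 : 0 ≤ (phi (4 / 25) - η) / ((4 / 25) * y (4 / 25)) + 2 * η * Jb (4 / 25) := by
    have e : (phi (4 / 25) - η) / ((4 / 25) * y (4 / 25)) + 2 * η * Jb (4 / 25)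
        = (phi (4 / 25) - η * (1 - 2 * ((4 / 25) * y (4 / 25)) * Jb (4 / 25)))
          / ((4 / 25) * y (4 / 25)) := by
      have hy0 : y (4 / 25) ≠ 0 := (y_pos (by norm_num) (by norm_num)).ne'
      field_simp
      ring
    rw [e]
    apply div_nonneg (by linarith) hB0.le
  have hs1 := hs0.trans hle
  have e : (phi r - η) / (r * y r) + 2 * η * Jb r
      = (phi r - η * (1 - 2 * (r * y r) * Jb r)) / (r * y r) := by
    have hy0 : y r ≠ 0 := (y_pos (hpos r hr) hr1).ne'
    have hr0 : r ≠ 0 := (hpos r hr).ne'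
    field_simp
    ring
  rw [e] at hs1
  have := (div_nonneg_iff.mp hs1)
  rcases this with h | h
  · linarith [h.1]
  · linarith [h.2]

/-! ### Assembly -/

lemma T_neg_rho {n : ℕ} (ρ : ℝ) (g : Cube n → ℝ) (z : Cube n) :
    T (-ρ) g z = T ρ g (flipBits z) := by
  unfold T
  apply Finset.sum_congr rfl
  intro x _
  congr 1
  unfold krn
  apply Finset.prod_congr rfl
  intro i _
  simp only [flipBits, sgn_not]
  ring

lemma T_zero_eq_avg {n : ℕ} (g : Cube n → ℝ) (z : Cube n) : T 0 g z = avg g := by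
  unfold T avg krn
  simp only [zero_mul, add_zero, Finset.prod_const, Finset.card_univ, Fintype.card_fin]
  rw [← Finset.mul_sum]
  have h : ((1 : ℝ) / 2) ^ n = 1 / 2 ^ n := by rw [div_pow, one_pow]
  rw [h]
  ring

lemma avg_phi_eq {n : ℕ} (u : Cube n → ℝ) :
    avg (fun z => phi (u z)) = log 2 - avg (fun z => hh (u z)) := by
  have e : (fun z => hh (u z)) = fun z => log 2 - phi (u z) := rfl
  rw [e, avg_sub, avg_const]
  ring

/-- The main inequality on the positive range of correlations beyond the start of the flow. -/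
theorem ck_pos {wf : ℝ → ℝ} (hT : TangentIneq wf)
    (hw1 : ∀ m : ℝ, |m| < 1 → 1 - wf m ≤ 20 / 9 * phi m)
    (hw2 : ∀ m : ℝ, |m| < 1 → log 2 * wf m ≤ hh m)
    {n : ℕ} {f : Cube n → ℝ} (hf : IsBool f) {ρ : ℝ} (h1 : 4 / 25 ≤ ρ) (h2 : ρ < 1) :
    avg (fun z => phi (T ρ f z)) - phi (avg f) ≤ phi ρ := by
  have hρ0 : 0 < ρ := by linarith
  have habsρ : |ρ| ≤ 1 := by rw [abs_of_pos hρ0]; exact h2.le
  have hφρ : 0 ≤ phi ρ := phi_nonneg habsρ
  have hL := Real.log_two_gt_d9
  by_cases hc : (∃ x₁, f x₁ = 1) ∧ (∃ x₂, f x₂ = -1)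
  · obtain ⟨⟨x₁, hx₁⟩, ⟨x₂, hx₂⟩⟩ := hc
    have hm : |avg f| < 1 := by
      have := abs_T_lt hf hx₁ hx₂ (ρ := 0) (by norm_num) x₁
      rwa [T_zero_eq_avg] at this
    set m := avg f with hmdef
    set w := wf m with hwdef
    have hw1' := hw1 m hm
    have hw2' := hw2 m hm
    have hmφ : phi m = log 2 - hh m := by unfold hh; ring
    have hφm : 0 ≤ phi m := phi_nonneg hm.le
    have hw_le : 0 ≤ 1 - w := by
      have h3 : log 2 * w ≤ log 2 := by
        have : hh m ≤ log 2 := by unfold hh; linarith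
        linarith
      have hLpos : 0 < log 2 := by norm_num at hL; linarith
      have h4 : w ≤ 1 := by
        by_contra hcon
        push Not at hcon
        nlinarith
      linarith
    set e := hh m - log 2 * w with hedef
    have he0 : 0 ≤ e := by rw [hedef]; linarith
    set η := log 2 - 9 / 20 with hηdef
    have hη0 : 0 ≤ η := by
      rw [hηdef]; norm_num at hL ⊢; linarith
    have he1 : e ≤ η * (1 - w) := by
      rw [hedef, hηdef]
      have : hh m = log 2 - phi m := rfl
      rw [this]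
      nlinarith
    set H := avg (fun z => hh (T ρ f z)) with hHdef
    rw [avg_phi_eq, ← hHdef, hmφ]
    by_cases hcase : η ≤ phi ρ
    · -- Theorem B suffices
      have hB := flow_cube (Jb := fun _ => 0) (a := ρ) hT hf hx₁ hx₂ he0 hρ0
        continuousOn_const rfl (fun r hr => ?_) ρ ⟨le_refl _, h2⟩
      · simp only [mul_zero, add_zero] at hB
        have : hh ρ = log 2 - phi ρ := rfl
        rw [this] at hB
        have h5 : η * (1 - w) ≤ phi ρ * (1 - w) := mul_le_mul_of_nonneg_right hcase hw_le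
        nlinarith
      · refine ⟨0, hasDerivAt_const _ _, ?_⟩
        have hr0 : 0 < r := hρ0.trans hr.1
        have := y_pos hr0 hr.2
        have h6 : 0 ≤ 1 / (r ^ 2 * y r) := by positivity
        linarith
    · -- the refined bound
      push Not at hcase
      have hB := flow_cube (Jb := Jb) (a := 4 / 25) hT hf hx₁ hx₂ he0 (by norm_num)
        (continuousOn_Jb (by norm_num)) Jb_one (fun r hr => ?_) ρ ⟨h1, h2⟩
      · have hprop := start_propagates hη0 h1 h2 hcase.le numeric_start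
        have : hh ρ = log 2 - phi ρ := rfl
        rw [this] at hB
        set Q := 1 - 2 * (ρ * y ρ) * Jb ρ with hQ
        have h7 : e * Q ≤ (1 - w) * phi ρ := by
          rcases le_total Q 0 with hQ0 | hQ0
          · have h8 : e * Q ≤ 0 := mul_nonpos_of_nonneg_of_nonpos he0 hQ0
            have h9 : 0 ≤ (1 - w) * phi ρ := mul_nonneg hw_le hφρ
            linarith
          · have h8 : e * Q ≤ (η * (1 - w)) * Q := mul_le_mul_of_nonneg_right he1 hQ0
            have h9 : (1 - w) * (η * Q) ≤ (1 - w) * phi ρ := mul_le_mul_of_nonneg_left hprop hw_le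
            nlinarith
        have h10 : e * Q = e - 2 * e * (ρ * y ρ) * Jb ρ := by rw [hQ]; ring
        nlinarith
      · exact ⟨_, hasDerivAt_Jb (by linarith [hr.1]) hr.2, Jb_deriv_ge (by linarith [hr.1]) hr.2⟩
  · -- constant function
    have hconst : (∀ x, f x = 1) ∨ (∀ x, f x = -1) := by
      by_contra hcon
      push Not at hcon
      apply hc
      obtain ⟨⟨a, ha⟩, ⟨b, hb⟩⟩ := hcon
      exact ⟨⟨b, (hf b).resolve_right hb⟩, ⟨a, (hf a).resolve_left ha⟩⟩
    rcases hconst with h | h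
    · have e1 : f = fun _ => 1 := funext h
      rw [e1]
      simp only [T_const, avg_const, sub_self]
      exact hφρ
    · have e1 : f = fun _ => -1 := funext h
      rw [e1]
      simp only [T_const, avg_const, sub_self]
      exact hφρ

/-- Reduction of the main inequality to large positive correlations. -/
theorem ck_of_range {n : ℕ} {f : Cube n → ℝ} (hf : IsBool f)
    (hr : ∀ r : ℝ, 4 / 25 ≤ r → r < 1 → avg (fun z => phi (T r f z)) - phi (avg f) ≤ phi r)
    {ρ : ℝ} (hρ : |ρ| ≤ 1) :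
    avg (fun z => phi (T ρ f z)) - phi (avg f) ≤ phi ρ := by
  have key : ∀ r : ℝ, 0 ≤ r → r ≤ 1 → avg (fun z => phi (T r f z)) - phi (avg f) ≤ phi r := by
    intro r h0 h1
    rcases lt_or_ge r (4 / 25) with h | h
    · exact conj_avg hf (by rw [abs_of_nonneg h0]; exact h.le)
    · rcases lt_or_eq_of_le h1 with h2 | h2
      · exact hr r h h2
      · subst h2
        have e : (fun z => phi (T 1 f z)) = fun _ => log 2 := by
          funext z
          rw [T_one]
          rcases hf z with h3 | h3 <;> rw [h3]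
          · exact phi_one
          · exact phi_neg_one
        rw [e, avg_const, phi_one]
        have := phi_nonneg (abs_avg_le_one hf.abs_le)
        linarith
  rcases le_total 0 ρ with h0 | h0
  · exact key ρ h0 ((abs_le.mp hρ).2)
  · have h := key (-ρ) (by linarith) (by linarith [(abs_le.mp hρ).1])
    rw [phi_neg] at h
    have e : avg (fun z => phi (T ρ f z)) = avg (fun z => phi (T (-ρ) f z)) := by
      have e2 : (fun z => phi (T (-ρ) f z)) = fun z => (fun u => phi (T ρ f u)) (flipBits z) := by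
        funext z
        rw [T_neg_rho]
      rw [e2]
      exact (avg_flip (fun u => phi (T ρ f u))).symm
    rw [e]
    exact h

/-- The main inequality for all correlations. -/
theorem ck_all {wf : ℝ → ℝ} (hT : TangentIneq wf)
    (hw1 : ∀ m : ℝ, |m| < 1 → 1 - wf m ≤ 20 / 9 * phi m)
    (hw2 : ∀ m : ℝ, |m| < 1 → log 2 * wf m ≤ hh m)
    {n : ℕ} {f : Cube n → ℝ} (hf : IsBool f) {ρ : ℝ} (hρ : |ρ| ≤ 1) :
    avg (fun z => phi (T ρ f z)) - phi (avg f) ≤ phi ρ :=
  ck_of_range hf (fun _ h1 h2 => ck_pos hT hw1 hw2 hf h1 h2) hρ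

/-- The main inequality, stated for the mutual information. -/
theorem ck_mutualInfo {wf : ℝ → ℝ} (hT : TangentIneq wf)
    (hw1 : ∀ m : ℝ, |m| < 1 → 1 - wf m ≤ 20 / 9 * phi m)
    (hw2 : ∀ m : ℝ, |m| < 1 → log 2 * wf m ≤ hh m)
    {n : ℕ} (f : Cube n → Bool) {ε : ℝ} (h0 : 0 ≤ ε) (h1 : ε ≤ 1) :
    mutualInfoBits ε f ≤ 1 - binEntropy ε / log 2 := by
  apply mutualInfo_le_of_avg h0 h1
  apply ck_all hT hw1 hw2 (isBool_sf f)
  rw [abs_le]
  constructor <;> linarith

/-- The lower bound on the average entropy that needs no numerical input. -/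
theorem entropy_lower {wf : ℝ → ℝ} (hT : TangentIneq wf) {n : ℕ} {f : Cube n → ℝ} (hf : IsBool f)
    {x₁ x₂ : Cube n} (hx₁ : f x₁ = 1) (hx₂ : f x₂ = -1)
    (he : 0 ≤ hh (avg f) - log 2 * wf (avg f)) {ρ : ℝ} (h0 : 0 < ρ) (h1 : ρ < 1) :
    wf (avg f) * hh ρ ≤ avg (fun z => hh (T ρ f z)) := by
  have hB := flow_cube (Jb := fun _ => 0) (a := ρ) hT hf hx₁ hx₂ he h0
    continuousOn_const rfl (fun r hr => ?_) ρ ⟨le_refl _, h1⟩
  · simpa using hB
  · refine ⟨0, hasDerivAt_const _ _, ?_⟩
    have hr0 : 0 < r := h0.trans hr.1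
    have := y_pos hr0 hr.2
    have h6 : 0 ≤ 1 / (r ^ 2 * y r) := by positivity
    linarith

/-- The balanced case of the main inequality. -/
theorem ck_balanced {wf : ℝ → ℝ} (hT : TangentIneq wf) (hw0 : wf 0 = 1) {n : ℕ} {f : Cube n → ℝ}
    (hf : IsBool f) (hb : avg f = 0) {ρ : ℝ} (hρ : |ρ| ≤ 1) :
    avg (fun z => phi (T ρ f z)) - phi (avg f) ≤ phi ρ := by
  apply ck_of_range hf _ hρ
  intro r h1 h2
  have hr0 : 0 < r := by linarith
  -- a balanced function takes both values
  have hx : (∃ x₁, f x₁ = 1) ∧ (∃ x₂, f x₂ = -1) := by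
    by_contra hc
    have hconst : (∀ x, f x = 1) ∨ (∀ x, f x = -1) := by
      by_contra hcon
      push Not at hcon
      apply hc
      obtain ⟨⟨a, ha⟩, ⟨b, hb'⟩⟩ := hcon
      exact ⟨⟨b, (hf b).resolve_right hb'⟩, ⟨a, (hf a).resolve_left ha⟩⟩
    rcases hconst with h | h
    · have e1 : f = fun _ => 1 := funext h
      rw [e1, avg_const] at hb
      norm_num at hb
    · have e1 : f = fun _ => -1 := funext h
      rw [e1, avg_const] at hb
      norm_num at hb
  obtain ⟨⟨x₁, hx₁⟩, ⟨x₂, hx₂⟩⟩ := hx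
  have he : 0 ≤ hh (avg f) - log 2 * wf (avg f) := by
    rw [hb, hw0, hh_zero]; simp
  have hB := entropy_lower hT hf hx₁ hx₂ he hr0 h2
  rw [hb, hw0, one_mul] at hB
  rw [avg_phi_eq, hb, phi_zero]
  have : hh r = log 2 - phi r := rfl
  rw [this] at hB
  linarith

end Vale.Agent.Lib.P322B
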