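import Vale.Agent.Lib.P322B.Core
import Vale.Agent.Lib.P322B.E24W
import Vale.Agent.Lib.P322B.Final

/-!
The full main inequality from the two-variable numerical inequality `E24Stmt`.
-/

namespace Vale.Agent.Lib.P322B

open Vale.Agent.Lib.P322 Real

lemma avg_pos_of_pos {n : ℕ} {g : Cube n → ℝ} (h : ∀ x, 0 < g x) : 0 < avg g := by
  unfold avg
  apply div_pos _ (by positivity)
  exact Finset.sum_pos (fun x _ => h x) Finset.univ_nonempty

/-- The Bellman inequality gives its tangent form. -/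
theorem tangent_of_bellman (h : BellmanIneq) : TangentIneq om := by
  intro n u hu τ h0 h1
  have hB := h n u hu
  have hm : |avg u| < 1 := abs_avg_lt hu
  have hom : 0 < om (avg u) := om_pos hm
  have hH : 0 < avg (fun x => hh (u x)) := avg_pos_of_pos (fun x => hh_pos' (hu x))
  have ht := KK_ge_tangent h0.le h1 (w := avg (fun x => hh (u x)) / om (avg u)) (by positivity)
  unfold Gam at hB
  have h2 := mul_le_mul_of_nonneg_left ht hom.le
  have e : om (avg u) * (kap τ - EE τ * (avg (fun x => hh (u x)) / om (avg u) - hh τ))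
      = PiR τ * om (avg u) - EE τ * avg (fun x => hh (u x)) := by
    unfold PiR
    field_simp
    ring
  rw [e] at h2
  linarith

lemma om_hw1 {m : ℝ} (hm : |m| < 1) : 1 - om m ≤ 20 / 9 * phi m := by
  have h := phi_ge hm.le
  have hm2 : m ^ 2 < 1 := by
    have := one_sub_sq_pos_of_abs hm
    linarith
  unfold om cc
  nlinarith [sq_nonneg (m ^ 2), sq_nonneg m, pow_nonneg (sq_nonneg m) 2]

lemma om_hw2 {m : ℝ} (hm : |m| < 1) : log 2 * om m ≤ hh m := by
  have hL : 0 < log 2 := Real.log_pos (by norm_num)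
  have h4 : log 2 * (1 - |m| ^ 2) ≤ hh |m| := F4 (abs_nonneg m) hm
  have e1 : hh |m| = hh m := by
    unfold hh
    rw [phi_abs]
  have e2 : |m| ^ 2 = m ^ 2 := sq_abs m
  rw [e1, e2] at h4
  have hm2 : 0 ≤ 1 - m ^ 2 := (one_sub_sq_pos_of_abs hm).le
  have h5 : om m ≤ 1 - m ^ 2 := by
    unfold om cc
    nlinarith [sq_nonneg m]
  nlinarith

/-- The full main inequality, from the Bellman inequality. -/
theorem ck_of_bellman (h : BellmanIneq) {n : ℕ} (f : Cube n → Bool) {ε : ℝ} (h0 : 0 ≤ ε)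
    (h1 : ε ≤ 1) : mutualInfoBits ε f ≤ 1 - binEntropy ε / log 2 :=
  ck_mutualInfo (tangent_of_bellman h) (fun _ hm => om_hw1 hm) (fun _ hm => om_hw2 hm) f h0 h1

/-- The full main inequality, from the two-variable numerical inequality. -/
theorem ck_of_E24 (h : E24Stmt) {n : ℕ} (f : Cube n → Bool) {ε : ℝ} (h0 : 0 ≤ ε)
    (h1 : ε ≤ 1) : mutualInfoBits ε f ≤ 1 - binEntropy ε / log 2 :=
  ck_of_bellman (bellman_of_E24 h) f h0 h1

/-- The full main inequality, from the two-variable numerical inequality in the coordinates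
`(t, W)`. -/
theorem ck_of_W (h : E24W) {n : ℕ} (f : Cube n → Bool) {ε : ℝ} (h0 : 0 ≤ ε)
    (h1 : ε ≤ 1) : mutualInfoBits ε f ≤ 1 - binEntropy ε / log 2 :=
  ck_of_E24 (E24Stmt_of_W E24D_holds h) f h0 h1

end Vale.Agent.Lib.P322B
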