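import Vale.Agent.Lib.P322B.E2

/-!
The two-point core inequality from the curve inequality and the ray monotonicity.
-/

namespace Vale.Agent.Lib.P322B

open Vale.Agent.Lib.P322 Real Set Filter Topology

/-- `z K(H / z)` has `H`-derivative `-Et(H/z)`. -/
lemma hasDerivAt_persp_H {z H : ℝ} (hz : 0 < z) (hH : 0 < H) :
    HasDerivAt (fun v => z * KK (v / z)) (- Et (H / z)) H := by
  have d1 : HasDerivAt (fun v : ℝ => v / z) (1 / z) H := by
    simpa using (hasDerivAt_id' H).div_const z
  have d2 : HasDerivAt (fun v => KK (v / z)) (- Et (H / z) * (1 / z)) H :=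
    HasDerivAt.comp (h₂ := KK) H (hasDerivAt_KK (by positivity)) d1
  refine (d2.const_mul z).congr_deriv ?_
  field_simp

/-- `LHS` is decreasing in `H`. -/
lemma LHS_anti {x d H₁ H₂ : ℝ} (hp : |x + d| < 1) (hq : |x - d| < 1) (hsum : x ^ 2 + d ^ 2 ≤ 1)
    (hx : |x| < 1) (h1 : 0 < H₁) (h12 : H₁ ≤ H₂) : LHS x d H₂ ≤ LHS x d H₁ := by
  have hom := om_pos hx
  have hW := WW_pos hp hq
  have hle := WW_le_om hsum
  have key : ∀ H ∈ Ioi (0:ℝ), HasDerivAt (fun v => LHS x d v) (- Et (H / om x) - - Et (H / WW x d)) H := by
    intro H hH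
    have d1 := hasDerivAt_persp_H hom hH
    have d2 := hasDerivAt_persp_H hW hH
    exact (d1.const_add (Jsd x d)).sub d2
  have hm : AntitoneOn (fun v => LHS x d v) (Ioi 0) := by
    apply antitoneOn_of_deriv_nonpos (convex_Ioi 0)
    · intro v hv
      exact (key v hv).continuousAt.continuousWithinAt
    · intro v hv
      rw [interior_Ioi] at hv
      exact (key v hv).differentiableAt.differentiableWithinAt
    · intro v hv
      rw [interior_Ioi] at hv
      rw [(key v hv).deriv]
      have hv' : (0:ℝ) < v := hv
      have h3 : v / om x ≤ v / WW x d := div_le_div_of_nonneg_left hv'.le hW hle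
      have := Et_anti (by positivity) h3
      linarith
  exact hm h1 (lt_of_lt_of_le h1 h12) h12

/-- The core inequality. -/
theorem core_of_E24 (h24 : E24Stmt) : CoreStmt := by
  intro x d H Ej hx hd hlt hH h1 h2
  have hxabs : |x| = x := abs_of_nonneg hx
  have hlt' : |x| + d < 1 := by rw [hxabs]; exact hlt
  have hp := abs_add_lt_of hd.le hlt'
  have hq := abs_sub_lt_of hd.le hlt'
  have hx1 : |x| < 1 := by linarith
  have hsum : x ^ 2 + d ^ 2 ≤ 1 := by
    have := one_sub_sum_pos hd.le hlt'
    linarith
  obtain ⟨t', s, ht', hs, e1, e2⟩ := exists_coords hp hq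
  have hs0 : 0 < s := by
    have h3 : y (x - d) < y (x + d) := (y_lt_iff hq hp).mpr (by linarith)
    rw [e1, e2, y_add ht' hs, y_sub' ht' hs] at h3
    exact (y_pos_iff hs).mp (by linarith)
  have hs1 : s < 1 := (abs_lt.mp hs).2
  have hθ' := th_pos ht' hs
  have e3 : x = xx s t' := by
    have h3 := xx_add ht' hs
    have h4 := xx_sub ht' hs
    linarith
  have e4 : d = s * th s t' := by
    have h3 := xx_add ht' hs
    have h4 := xx_sub ht' hs
    linarith
  have ht'0 : 0 ≤ t' := by
    by_contra hneg
    have hneg' : t' < 0 := not_le.mp hneg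
    have h3 : xx s t' < 0 := by
      unfold xx
      have h5 := den_pos ht' hs
      have h6 := one_sub_sq_pos_of_abs hs
      apply div_neg_of_neg_of_pos _ h5
      exact mul_neg_of_neg_of_pos hneg' h6
    linarith
  have ht'1 : t' < 1 := (abs_lt.mp ht').2
  have hh0s := hh_pos hs0.le hs1
  by_cases hcase : th s t' * hh s ≤ H
  · -- case `H` large
    have h3 := LHS_anti hp hq hsum hx1 (by positivity) hcase
    have h4 := E2 h24 hs0 hs1 ht'0 ht'1
    rw [← e3, ← e4] at h4
    have h5 : jj (x + d) (x - d) = th s t' * (s * y s) := by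
      rw [e1, e2]; exact jj_coords ht' hs
    linarith
  · -- case `H` small
    have hcase' : H < th s t' * hh s := not_le.mp hcase
    -- the parameter `τ`
    have hIVT : (0:ℝ) ∈ (fun v => hh v * d - v * H) '' Icc s 1 := by
      apply intermediate_value_Icc' hs1.le
      · exact (continuous_hh.mul continuous_const |>.sub (continuous_id.mul continuous_const)).continuousOn
      · constructor
        · simp only [hh_one]; linarith
        · rw [e4]
          have : 0 < s * (th s t' * hh s - H) := mul_pos hs0 (by linarith)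
          nlinarith
    obtain ⟨τ, hτmem, hτe⟩ := hIVT
    simp only at hτe
    have hτs : s < τ := by
      rcases hτmem.1.eq_or_lt with h | h
      · subst h
        exfalso
        rw [e4] at hτe
        have : 0 < s * (th s t' * hh s - H) := mul_pos hs0 (by linarith)
        nlinarith
      · exact h
    have hτ1 : τ < 1 := by
      rcases hτmem.2.eq_or_lt with h | h
      · subst h
        rw [hh_one] at hτe
        linarith
      · exact h
    have hτ0 : 0 < τ := hs0.trans hτs
    have hτ := abs_lt_one_of_Ico hτ0.le hτ1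
    have hh0 := hh_pos hτ0.le hτ1
    set l := d / τ with hl
    have hl0 : 0 < l := by positivity
    have hdl : d = l * τ := by rw [hl]; field_simp
    have hHl : H = l * hh τ := by
      rw [hl]
      field_simp
      linarith
    -- the parameter `t`
    have hxIVT : x ∈ (xx τ) '' Icc 0 1 := by
      apply intermediate_value_Icc (by norm_num : (0:ℝ) ≤ 1)
      · apply ContinuousOn.div
        · fun_prop
        · fun_prop
        · intro v hv
          have hv1 : v ≤ 1 := hv.2
          have hv0 : 0 ≤ v := hv.1
          have h6 : (v * τ) ^ 2 < 1 := by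
            have : v * τ < 1 := by nlinarith
            nlinarith [mul_nonneg hv0 hτ0.le]
          linarith
      · rw [xx_zero]
        have h6 := one_sub_sq_pos_of_abs hτ
        have e6 : xx τ 1 = 1 := by
          unfold xx
          rw [one_mul, one_mul]
          exact div_self h6.ne'
        rw [e6]
        exact ⟨hx, by linarith⟩
    obtain ⟨t, htmem, hte⟩ := hxIVT
    have ht1 : t < 1 := by
      rcases htmem.2.eq_or_lt with h | h
      · subst h
        exfalso
        have h6 := one_sub_sq_pos_of_abs hτ
        have e6 : xx τ 1 = 1 := by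
          unfold xx
          rw [one_mul, one_mul]
          exact div_self h6.ne'
        rw [e6] at hte
        linarith
      · exact h
    have ht0 : 0 ≤ t := htmem.1
    have ht := abs_lt_one_of_Ico ht0 ht1
    have hθ := th_pos ht hτ
    -- `l ≤ θ`
    have hlθ : l ≤ th τ t := by
      by_contra hc
      have hc' : th τ t < l := not_le.mp hc
      have h6 : τ * th τ t < d := by
        rw [hdl]; nlinarith
      have h7 : x + τ * th τ t < x + d := by linarith
      have h8 : x - d < x - τ * th τ t := by linarith
      have h9 := (y_lt_iff (by rw [← hte]; exact abs_xx_add ht hτ) hp).mpr h7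
      have h10 := (y_lt_iff hq (by rw [← hte]; exact abs_xx_sub ht hτ)).mpr h8
      rw [← hte] at h9 h10
      rw [xx_add ht hτ, y_add ht hτ, hte, e1, y_add ht' hs] at h9
      rw [xx_sub ht hτ, y_sub' ht hτ, hte, e2, y_sub' ht' hs] at h10
      have h11 := (y_lt_iff hs hτ).mpr hτs
      linarith
    -- monotonicity along the ray
    have hray : |x| + th τ t * τ < 1 := by
      rw [hxabs, mul_comm, ← hte, xx_add ht hτ]
      exact (abs_lt.mp (abs_tadd ht hτ)).2
    have hmono := Tr_mono (x := x) hτ0 hh0 hl0 hlθ hray
    have hE2 := E2 h24 hτ0 hτ1 ht0 ht1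
    rw [hte] at hE2
    have hWθ : 0 < WW x (th τ t * τ) := by
      rw [mul_comm, ← hte]
      exact WW_pos (abs_xx_add ht hτ) (abs_xx_sub ht hτ)
    have hom := om_pos hx1
    have hT1 := Tr_eq (τ := τ) (h₀ := hh τ) hθ hom hWθ
    rw [mul_comm (th τ t) τ] at hT1
    have hT2 : Tr x τ (hh τ) (th τ t) ≤ τ * y τ := by
      have h6 : th τ t * Tr x τ (hh τ) (th τ t) ≤ th τ t * (τ * y τ) := by
        rw [show (th τ t * Tr x τ (hh τ) (th τ t)) = LHS x (τ * th τ t) (th τ t * hh τ) by
          rw [mul_comm τ (th τ t)]
          rw [mul_comm τ (th τ t)] at hT1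
          exact hT1]
        exact hE2
      exact le_of_mul_le_mul_left h6 hθ
    have hWl : 0 < WW x (l * τ) := by
      rw [← hdl]; exact WW_pos hp hq
    have hT3 := Tr_eq (τ := τ) (h₀ := hh τ) hl0 hom hWl
    rw [← hdl, ← hHl] at hT3
    have h20 := h2 τ hτ0 hτ1
    have h21 : ell τ * d - sig τ * H = l * (τ * y τ) := by
      rw [hdl, hHl]
      have := ell_mul hτ0
      calc ell τ * (l * τ) - sig τ * (l * hh τ) = l * (ell τ * τ - sig τ * hh τ) := by ring
        _ = l * (τ * y τ) := by rw [this]; ring
    rw [h21] at h20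
    rw [← hT3]
    have : l * Tr x τ (hh τ) l ≤ l * (τ * y τ) :=
      mul_le_mul_of_nonneg_left (hmono.trans hT2) hl0.le
    linarith

/-- The Bellman inequality from the two-variable inequality. -/
theorem bellman_of_E24 (h24 : E24Stmt) : BellmanIneq := bellman_of_core (core_of_E24 h24)

end Vale.Agent.Lib.P322B
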