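import Vale.Agent.Lib.P322B.E24W

/-!
The corner `θ` small of the two-variable inequality.
-/

namespace Vale.Agent.Lib.P322B

open Vale.Agent.Lib.P322 Real Set Filter Topology

/-- An exact lower bound for `Dw`, valid everywhere. -/
lemma cornerTh_D {t W : ℝ} (ht0 : 0 < t) (ht1 : t < 1) (hW0 : 0 < W) (hW1 : W < 1) :
    t * Tw t W ^ 2 * thw t W ^ 2 / 4 ≤ Dw t W := by
  obtain ⟨hr, hθ, -, -, hT0, hT1, hw, hu, -, θu, -⟩ := TW_facts ht0 ht1 hW0 hW1
  have hS := S_le ht0 ht1 hW0 hW1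
  have hZ := one_add_Zw ht0 ht1 hW0 hW1
  unfold Dw
  generalize Tw t W = T at *
  generalize thw t W = θ at *
  have hw1 : t * T < 1 := hw.trans ht1
  have hw0 : 0 < t * T := by positivity
  have hT' : 0 < 1 - T := by linarith
  have hw' : 0 < 1 - t * T := by linarith
  have hpos : 0 < 1 - (t * T) ^ 2 := by nlinarith
  have hZpos : 0 < 1 + Zw t W := by
    rw [hZ]; positivity
  have h1 := one_sub_inv_le_log_of_pos hZpos
  rw [hZ] at h1 ⊢
  have e : 1 - ((1 - t * T) ^ 2 / ((1 - T) * (1 - t ^ 2 * T)))⁻¹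
      = T * (1 - t) ^ 2 / (1 - t * T) ^ 2 := by
    rw [inv_div]
    have hB : (1 - t * T) ^ 2 ≠ 0 := by positivity
    rw [one_sub_div hB]
    congr 1
    ring
  rw [e] at h1
  have h2 : T * (1 - t) ^ 2 / (1 - t * T) ^ 2 - T * (1 - t) ^ 2 / (1 - (t * T) ^ 2)
      ≥ t * T ^ 2 * (1 - t) ^ 2 / (1 - t * T) ^ 2 := by
    have e1 : 1 - (t * T) ^ 2 = (1 - t * T) * (1 + t * T) := by ring
    rw [e1]
    rw [ge_iff_le, div_sub_div _ _ (by positivity) (by positivity),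
      div_le_div_iff₀ (by positivity) (by positivity)]
    have h3 : 0 ≤ T * (1 - t) ^ 2 * (1 - t * T) ^ 3 * (t * T) * (1 - t * T) := by positivity
    have h4 : 0 ≤ 1 - t * T := hw'.le
    have e2 : (T * (1 - t) ^ 2 * ((1 - t * T) * (1 + t * T))
          - (1 - t * T) ^ 2 * (T * (1 - t) ^ 2)) * (1 - t * T) ^ 2
        - t * T ^ 2 * (1 - t) ^ 2 * ((1 - t * T) ^ 2 * ((1 - t * T) * (1 + t * T)))
        = T * (1 - t) ^ 2 * (1 - t * T) ^ 3 * (t * T) * (1 - t * T) := by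
      ring
    linarith
  have h5 : (1 - t) * 2 ≥ θ * (1 - t * T) := by
    have h6 : 1 - t ^ 2 * T ≥ 1 - t * T := by nlinarith [mul_pos hT0 ht0]
    have h7 : (1 - t) * (1 + t) = θ * (1 - t ^ 2 * T) := by linarith
    have h8 : θ * (1 - t * T) ≤ θ * (1 - t ^ 2 * T) := mul_le_mul_of_nonneg_left h6 hθ.le
    nlinarith
  have h9 : θ ^ 2 / 4 ≤ (1 - t) ^ 2 / (1 - t * T) ^ 2 := by
    rw [le_div_iff₀ (by positivity)]
    have hm : 0 ≤ θ * (1 - t * T) := by positivity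
    have := pow_le_pow_left₀ hm h5 2
    nlinarith
  have h10 : t * T ^ 2 * (θ ^ 2 / 4) ≤ t * T ^ 2 * ((1 - t) ^ 2 / (1 - t * T) ^ 2) :=
    mul_le_mul_of_nonneg_left h9 (by positivity)
  have e3 : t * T ^ 2 * ((1 - t) ^ 2 / (1 - t * T) ^ 2) = t * T ^ 2 * (1 - t) ^ 2 / (1 - t * T) ^ 2 := by
    ring
  rw [e3] at h10
  linarith

/-- Upper bound for `V`. -/
lemma cornerTh_V {t W : ℝ} (ht0 : 0 < t) (ht1 : t < 1) (hW0 : 0 < W) (hW1 : W < 1) :
    Vw t W ≤ 10 / 9 * (Tw t W * thw t W ^ 2) := by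
  obtain ⟨hr, hθ, -, -, hT0, hT1, hw, hu, e1, -, -⟩ := TW_facts ht0 ht1 hW0 hW1
  have hb : bw t W = Tw t W * thw t W ^ 2 := by
    unfold bw
    rw [e1]
    ring
  have ha0 : 0 ≤ aw t W := by unfold aw; positivity
  have hb0 : 0 ≤ bw t W := by
    rw [hb]; positivity
  unfold Vw
  rw [← hb]
  have hc : cc = 1 / 9 := rfl
  rw [hc]
  nlinarith [mul_nonneg ha0 hb0, sq_nonneg (1 - aw t W)]

/-- Upper bound for `M2w`. -/
lemma cornerTh_M2 {t W : ℝ} (ht0 : 0 < t) (ht1 : t < 1) (hW0 : 0 < W) (hW1 : W < 1)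
    (hθ2 : thw t W ≤ 1 / 2) :
    M2w t W ≤ 5 / 6 * (Tw t W * thw t W) := by
  obtain ⟨hr, hθ, hθ1, -, hT0, hT1, hw, hu, e1, -, -⟩ := TW_facts ht0 ht1 hW0 hW1
  have hb : bw t W = Tw t W * thw t W ^ 2 := by
    unfold bw
    rw [e1]
    ring
  have ha0 : 0 ≤ aw t W := by unfold aw; positivity
  have hb0 : 0 ≤ bw t W := by
    rw [hb]; positivity
  have hab : 1 - aw t W - bw t W = thw t W + (1 - W) * (1 - 2 * thw t W) := by
    unfold aw bw thw
    ring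
  have hab1 : thw t W ≤ 1 - aw t W - bw t W := by
    rw [hab]
    have : 0 ≤ (1 - W) * (1 - 2 * thw t W) :=
      mul_nonneg (by linarith) (by linarith)
    linarith
  have hc : cc = 1 / 9 := rfl
  have hWB : 8 / 9 * thw t W ≤ WBw t W := by
    have e : WBw t W = (1 - aw t W - bw t W) * (1 - cc * (aw t W + bw t W))
        + 4 * cc * (aw t W * bw t W) := by
      unfold WBw
      ring
    rw [e, hc]
    have h1 : 8 / 9 ≤ 1 - 1 / 9 * (aw t W + bw t W) := by nlinarith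
    have h2 : 0 ≤ aw t W * bw t W := mul_nonneg ha0 hb0
    have h3 : thw t W * (8 / 9) ≤ (1 - aw t W - bw t W) * (1 - 1 / 9 * (aw t W + bw t W)) :=
      mul_le_mul hab1 h1 (by norm_num) (by linarith)
    nlinarith
  have hWBpos : 0 < WBw t W := lt_of_lt_of_le (by positivity) hWB
  have hdiff : omw t W - WBw t W ≤ 10 / 9 * bw t W := by
    unfold omw WBw
    rw [hc]
    nlinarith [mul_nonneg ha0 hb0, sq_nonneg (bw t W)]
  have ha1 : aw t W < 1 := by linarith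
  have hom0 : 0 < omw t W := by
    unfold omw
    rw [hc]
    have h1 : 0 < 1 - aw t W := by linarith
    have h2 : 0 < 1 - 1 / 9 * aw t W := by linarith
    positivity
  have hq : omw t W / WBw t W - 1 ≤ 5 / 4 * (Tw t W * thw t W) := by
    have e2 : omw t W / WBw t W - 1 = (omw t W - WBw t W) / WBw t W := by
      field_simp
    rw [e2, div_le_iff₀ hWBpos, hb] at *
    have h5 : 5 / 4 * (Tw t W * thw t W) * (8 / 9 * thw t W) = 10 / 9 * (Tw t W * thw t W ^ 2) := by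
      ring
    have h6 : 5 / 4 * (Tw t W * thw t W) * (8 / 9 * thw t W)
        ≤ 5 / 4 * (Tw t W * thw t W) * WBw t W :=
      mul_le_mul_of_nonneg_left hWB (by positivity)
    linarith
  unfold M2w
  have h7 := log_le_sub_one_of_pos (show 0 < omw t W / WBw t W by positivity)
  linarith

/-- Corner `θ` small. -/
theorem cornerTh {t W : ℝ} (ht0 : 0 < t) (ht1 : t < 1) (hW0 : 0 < W) (hW1 : W < 1)
    (hθ : thw t W ≤ 1 / 16) (hV : 0 < Vw t W) : Vw t W * M2w t W ≤ Dw t W := by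
  have hD := cornerTh_D ht0 ht1 hW0 hW1
  have hVle := cornerTh_V ht0 ht1 hW0 hW1
  have hM2 := cornerTh_M2 ht0 ht1 hW0 hW1 (by linarith)
  obtain ⟨hr, hθ0, -, -, hT0, hT1, hw, hu, e1, -, -⟩ := TW_facts ht0 ht1 hW0 hW1
  have ht9 : 9 / 10 ≤ t := by
    have h1 : t ^ 2 * W ≥ 15 / 16 := by
      unfold thw at hθ; linarith
    have h2 : t ^ 2 ≥ 15 / 16 := by
      have : t ^ 2 * W ≤ t ^ 2 * 1 := mul_le_mul_of_nonneg_left hW1.le (by positivity)
      linarith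
    nlinarith
  generalize Tw t W = T at *
  generalize thw t W = θ at *
  generalize M2w t W = M at *
  generalize Dw t W = D at *
  generalize Vw t W = V at *
  have h1 : V * M ≤ V * (5 / 6 * (T * θ)) := mul_le_mul_of_nonneg_left hM2 hV.le
  have h2 : V * (5 / 6 * (T * θ)) ≤ 10 / 9 * (T * θ ^ 2) * (5 / 6 * (T * θ)) :=
    mul_le_mul_of_nonneg_right hVle (by positivity)
  have h3 : 10 / 9 * (T * θ ^ 2) * (5 / 6 * (T * θ)) = 25 / 27 * (T ^ 2 * θ ^ 2) * θ := by ring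
  have h4 : 25 / 27 * (T ^ 2 * θ ^ 2) * θ ≤ 25 / 27 * (T ^ 2 * θ ^ 2) * (1 / 16) :=
    mul_le_mul_of_nonneg_left hθ (by positivity)
  have h5 : 9 / 10 * T ^ 2 * θ ^ 2 / 4 ≤ t * T ^ 2 * θ ^ 2 / 4 := by
    have : 9 / 10 * (T ^ 2 * θ ^ 2) ≤ t * (T ^ 2 * θ ^ 2) :=
      mul_le_mul_of_nonneg_right ht9 (by positivity)
    nlinarith
  have h6 : 0 ≤ T ^ 2 * θ ^ 2 := by positivity
  nlinarith

end Vale.Agent.Lib.P322B
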