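import Vale.Agent.Lib.P322B.E24W

/-!
The corner `W` small of the two-variable inequality.
-/

namespace Vale.Agent.Lib.P322B

open Vale.Agent.Lib.P322 Real Set Filter Topology

/-- The subtracted term of `Dw` is at most one. -/
lemma cornerW_S_le_one {t W : ℝ} (ht0 : 0 < t) (ht1 : t < 1) (hW0 : 0 < W) (hW1 : W < 1) :
    (1 - t) ^ 2 / t * y (t * Tw t W) ≤ 1 := by
  obtain ⟨hr, hθ, -, -, hT0, hT1, hw, hu, -, -, -⟩ := TW_facts ht0 ht1 hW0 hW1
  refine (S_le ht0 ht1 hW0 hW1).trans ?_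
  generalize Tw t W = T at *
  have e : (t * T) ^ 2 = t ^ 2 * T ^ 2 := by ring
  have hT2 : T ^ 2 ≤ 1 := by nlinarith
  have h2 : t ^ 2 * T ^ 2 ≤ t ^ 2 := by nlinarith [sq_nonneg t]
  have h1 : 0 < 1 - (t * T) ^ 2 := by
    rw [e]; linarith
  rw [div_le_one h1]
  have h3 : T * (1 - t) ^ 2 ≤ (1 - t) ^ 2 := by nlinarith [sq_nonneg (1 - t)]
  have h4 : (1 - t) ^ 2 ≤ 1 - t ^ 2 := by nlinarith
  rw [e]
  linarith

/-- Lower bound for `Z`. -/
lemma cornerW_Z {t W : ℝ} (ht0 : 0 < t) (ht1 : t < 1) (hW0 : 0 < W) (hW1 : W < 1) :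
    (1 - W) ^ 2 / (4 * W) ≤ Zw t W := by
  have hr0 : 0 < t ^ 2 := by positivity
  have hr1 : t ^ 2 < 1 := by nlinarith
  have hθ1 : 1 - W ≤ thw t W := by unfold thw; nlinarith
  have hW' : 0 < 1 - W := by linarith
  unfold Zw
  generalize thw t W = θ at *
  have h1 : (1 + t) ^ 2 ≤ 4 := by nlinarith
  have h2 : (1 - W) * (1 - W) ≤ (1 - W) * θ :=
    mul_le_mul_of_nonneg_left hθ1 hW'.le
  rw [div_le_div_iff₀ (by positivity) (by positivity)]
  have h3 : W * (1 + t) ^ 2 ≤ W * 4 := mul_le_mul_of_nonneg_left h1 hW0.le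
  have h4 : (1 - W) ^ 2 * (W * (1 + t) ^ 2) ≤ (1 - W) ^ 2 * (W * 4) :=
    mul_le_mul_of_nonneg_left h3 (by positivity)
  have h5 : (1 - W) ^ 2 * (W * 4) ≤ (1 - W) * θ * (4 * W) := by
    have : (1 - W) ^ 2 = (1 - W) * (1 - W) := by ring
    rw [this]
    have h6 := mul_le_mul_of_nonneg_right h2 (by positivity : (0 : ℝ) ≤ 4 * W)
    linarith
  linarith

/-- Lower bound for `Dw`. -/
lemma cornerW_D {t W : ℝ} (ht0 : 0 < t) (ht1 : t < 1) (hW0 : 0 < W) (hW1 : W < 1) :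
    log (1 / W) + 2 * log (1 - W) - 2 * log 2 - 1 ≤ Dw t W := by
  have hS := cornerW_S_le_one ht0 ht1 hW0 hW1
  have hZ := cornerW_Z ht0 ht1 hW0 hW1
  have hW' : 0 < 1 - W := by linarith
  have hZpos : 0 < (1 - W) ^ 2 / (4 * W) := by positivity
  unfold Dw
  have hZ1 : (1 - W) ^ 2 / (4 * W) ≤ 1 + Zw t W := by linarith
  have h1 : log ((1 - W) ^ 2 / (4 * W)) ≤ log (1 + Zw t W) := log_le_log hZpos hZ1
  have e : log ((1 - W) ^ 2 / (4 * W)) = log (1 / W) + 2 * log (1 - W) - 2 * log 2 := by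
    have e4 : (4 : ℝ) = 2 ^ 2 := by norm_num
    rw [log_div (by positivity) (by positivity), log_mul (by norm_num) hW0.ne', log_pow,
      one_div, log_inv, e4, log_pow]
    push_cast
    ring
  rw [e] at h1
  linarith

/-- Upper bound for `V`. -/
lemma cornerW_V {t W : ℝ} (ht0 : 0 < t) (ht1 : t < 1) (hW0 : 0 < W) (hW1 : W < 1) :
    Vw t W ≤ 1 + W ^ 2 := by
  have hr0 : 0 < t ^ 2 := by positivity
  have hr1 : t ^ 2 < 1 := by nlinarith
  have hW' : 0 < 1 - W := by linarith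
  have hθ1 : 1 - W ≤ thw t W := by unfold thw; nlinarith
  have hθ2 : thw t W ≤ 1 := by unfold thw; nlinarith [mul_pos hr0 hW0]
  have ha0 : 0 ≤ aw t W := by unfold aw; positivity
  have ha1 : aw t W ≤ W ^ 2 := by
    unfold aw
    nlinarith [sq_nonneg W]
  have hb0 : 0 ≤ bw t W := by
    unfold bw
    have : 0 < thw t W := by linarith
    positivity
  have hb1 : bw t W ≤ 1 := by
    unfold bw
    nlinarith
  unfold Vw
  have hc : cc = 1 / 9 := rfl
  rw [hc]
  generalize aw t W = a at *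
  generalize bw t W = b at *
  nlinarith [mul_nonneg ha0 hb0, sq_nonneg a]

/-- Lower bound for `WBw`. -/
lemma cornerW_WB {t W : ℝ} (ht0 : 0 < t) (ht1 : t < 1) (hW0 : 0 < W) (hW1 : W ≤ 1 / 2) :
    8 / 9 * W ≤ WBw t W := by
  have hr0 : 0 < t ^ 2 := by positivity
  have hr1 : t ^ 2 < 1 := by nlinarith
  have hW' : 0 < 1 - W := by linarith
  have hθ1 : 1 - W ≤ thw t W := by unfold thw; nlinarith
  have ha0 : 0 ≤ aw t W := by unfold aw; positivity
  have hb0 : 0 ≤ bw t W := by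
    unfold bw
    have : 0 < thw t W := by linarith
    positivity
  have hab : 1 - aw t W - bw t W = W * (1 + t ^ 2 - 2 * t ^ 2 * W) := by
    unfold aw bw thw
    ring
  have hab1 : W ≤ 1 - aw t W - bw t W := by
    rw [hab]
    have : 1 ≤ 1 + t ^ 2 - 2 * t ^ 2 * W := by nlinarith
    nlinarith
  have e : WBw t W = (1 - aw t W - bw t W) * (1 - cc * (aw t W + bw t W))
      + 4 * cc * (aw t W * bw t W) := by
    unfold WBw
    ring
  rw [e]
  have hc : cc = 1 / 9 := rfl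
  rw [hc]
  generalize aw t W = a at *
  generalize bw t W = b at *
  have h1 : 8 / 9 ≤ 1 - 1 / 9 * (a + b) := by nlinarith
  have h2 : 0 ≤ a * b := mul_nonneg ha0 hb0
  have h3 : W * (8 / 9) ≤ (1 - a - b) * (1 - 1 / 9 * (a + b)) :=
    mul_le_mul hab1 h1 (by norm_num) (by linarith)
  nlinarith

/-- Upper bound for `M2w`. -/
lemma cornerW_M2 {t W : ℝ} (ht0 : 0 < t) (ht1 : t < 1) (hW0 : 0 < W) (hW1 : W ≤ 1 / 2) :
    M2w t W ≤ 2 / 3 * (log (1 / W) + 1 / 8) := by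
  have hr0 : 0 < t ^ 2 := by positivity
  have hr1 : t ^ 2 < 1 := by nlinarith
  have hWB := cornerW_WB ht0 ht1 hW0 hW1
  have hWBpos : 0 < WBw t W := lt_of_lt_of_le (by positivity) hWB
  have ha0 : 0 ≤ aw t W := by unfold aw; positivity
  have ha1 : aw t W < 1 := by
    unfold aw
    nlinarith [sq_nonneg W]
  have hom0 : 0 < omw t W := by
    unfold omw
    have hc : cc = 1 / 9 := rfl
    rw [hc]
    have h1 : 0 < 1 - aw t W := by linarith
    have h2 : 0 < 1 - 1 / 9 * aw t W := by linarith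
    positivity
  have hom1 : omw t W ≤ 1 := by
    unfold omw
    have hc : cc = 1 / 9 := rfl
    rw [hc]
    have h1 : 1 - aw t W ≤ 1 := by linarith
    have h2 : 1 - 1 / 9 * aw t W ≤ 1 := by linarith
    have h3 : 0 ≤ 1 - aw t W := by linarith
    have h4 : 0 ≤ 1 - 1 / 9 * aw t W := by linarith
    calc (1 - aw t W) * (1 - 1 / 9 * aw t W) ≤ 1 * 1 := mul_le_mul h1 h2 h4 (by norm_num)
      _ = 1 := by norm_num
  have hratio : omw t W / WBw t W ≤ 9 / 8 * (1 / W) := by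
    rw [div_le_iff₀ hWBpos]
    have h1 : 9 / 8 * (1 / W) * (8 / 9 * W) = 1 := by field_simp
    have h2 : 9 / 8 * (1 / W) * (8 / 9 * W) ≤ 9 / 8 * (1 / W) * WBw t W :=
      mul_le_mul_of_nonneg_left hWB (by positivity)
    linarith
  have hlog98 : log (9 / 8) ≤ 1 / 8 := by
    have := log_le_sub_one_of_pos (show (0 : ℝ) < 9 / 8 by norm_num)
    linarith
  unfold M2w
  have h1 : log (omw t W / WBw t W) ≤ log (9 / 8 * (1 / W)) :=
    log_le_log (by positivity) hratio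
  rw [log_mul (by norm_num) (by positivity)] at h1
  linarith

/-- The final numeric estimate. -/
lemma cornerW_num {W l L2 L : ℝ} (hW0 : 0 < W) (hW1 : W ≤ 1 / 65536)
    (hL2 : 0.6931471803 < L2) (hL2' : L2 < 0.6931471808) (hl0 : 16 * L2 ≤ l)
    (hlW : l * W ≤ 1) (hL : -(2 * W) ≤ L) :
    (1 + W ^ 2) * (2 / 3 * (l + 1 / 8)) ≤ l + 2 * L - 2 * L2 - 1 := by
  have h3 : W ^ 2 * l ≤ W := by
    have : W ^ 2 * l = W * (l * W) := by ring
    rw [this]
    nlinarith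
  have hW2 : W ^ 2 ≤ W := by nlinarith
  norm_num at hL2 hL2'
  nlinarith

/-- Corner `W` small. -/
theorem cornerW {t W : ℝ} (ht0 : 0 < t) (ht1 : t < 1) (hW0 : 0 < W) (hW1 : W ≤ 1 / 65536)
    (hV : 0 < Vw t W) : Vw t W * M2w t W ≤ Dw t W := by
  have hWlt : W < 1 := by linarith
  have hW' : 0 < 1 - W := by linarith
  have hD := cornerW_D ht0 ht1 hW0 hWlt
  have hVle := cornerW_V ht0 ht1 hW0 hWlt
  have hM2 := cornerW_M2 ht0 ht1 hW0 (by linarith : W ≤ 1 / 2)
  have hl0 : 16 * log 2 ≤ log (1 / W) := by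
    have e : (16 : ℝ) * log 2 = log (2 ^ 16) := by
      rw [log_pow]; norm_num
    rw [e]
    apply log_le_log (by norm_num)
    rw [le_div_iff₀ hW0]
    norm_num
    linarith
  have hlW : log (1 / W) * W ≤ 1 := by
    have h1 : log (1 / W) ≤ 1 / W - 1 := log_le_sub_one_of_pos (by positivity)
    have h2 : log (1 / W) * W ≤ (1 / W - 1) * W := mul_le_mul_of_nonneg_right h1 hW0.le
    have h3 : (1 / W - 1) * W = 1 - W := by field_simp
    linarith
  have hlogW : -(2 * W) ≤ log (1 - W) := by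
    have h1 := one_sub_inv_le_log_of_pos hW'
    have h2 : 1 - (1 - W)⁻¹ = - (W / (1 - W)) := by
      field_simp
      ring
    rw [h2] at h1
    have h3 : W / (1 - W) ≤ 2 * W := by
      rw [div_le_iff₀ hW']
      nlinarith
    linarith
  have hnum := cornerW_num hW0 hW1 Real.log_two_gt_d9 Real.log_two_lt_d9 hl0 hlW hlogW
  have hB : 0 < 2 / 3 * (log (1 / W) + 1 / 8) := by
    have := Real.log_two_gt_d9
    have h0 : 0 < log (1 / W) := by nlinarith
    positivity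
  have h1 : Vw t W * M2w t W ≤ Vw t W * (2 / 3 * (log (1 / W) + 1 / 8)) :=
    mul_le_mul_of_nonneg_left hM2 hV.le
  have h2 : Vw t W * (2 / 3 * (log (1 / W) + 1 / 8))
      ≤ (1 + W ^ 2) * (2 / 3 * (log (1 / W) + 1 / 8)) :=
    mul_le_mul_of_nonneg_right hVle hB.le
  linarith

end Vale.Agent.Lib.P322B
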