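import Vale.Agent.Lib.P322B.Lumps

/-!
The induction on the dimension: reduction of the Bellman inequality to a two-point core inequality.
-/

namespace Vale.Agent.Lib.P322B

open Vale.Agent.Lib.P322 Real Set Filter Topology

/-- The defect of `phi`. -/
noncomputable def Jsd (x d : ℝ) : ℝ := phi (x + d) + phi (x - d) - 2 * phi x

/-- The averaged weight. -/
noncomputable def WW (x d : ℝ) : ℝ := (om (x + d) + om (x - d)) / 2

/-- The left-hand side of the two-point inequality. -/
noncomputable def LHS (x d H : ℝ) : ℝ :=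
  Jsd x d + om x * KK (H / om x) - WW x d * KK (H / WW x d)

/-- The two-point core inequality. -/
def CoreStmt : Prop :=
  ∀ x d H Ej : ℝ, 0 ≤ x → 0 < d → x + d < 1 → 0 < H →
    jj (x + d) (x - d) ≤ Ej →
    (∀ τ, 0 < τ → τ < 1 → ell τ * d - sig τ * H ≤ Ej) →
    LHS x d H ≤ Ej

lemma om_neg (m : ℝ) : om (-m) = om m := by
  unfold om; ring

lemma om_pos {m : ℝ} (hm : |m| < 1) : 0 < om m := by
  have h1 := one_sub_sq_pos_of_abs hm
  unfold om cc
  have : 0 < 1 - 1 / 9 * m ^ 2 := by nlinarith
  positivity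

lemma om_le {m : ℝ} : om m ≤ 1 - m ^ 2 ∨ |m| ≥ 1 := by
  by_cases hm : |m| < 1
  · left
    have h1 := one_sub_sq_pos_of_abs hm
    unfold om cc
    nlinarith [sq_nonneg m, mul_nonneg h1.le (sq_nonneg m)]
  · right; exact not_lt.mp hm

lemma Jsd_neg_left (x d : ℝ) : Jsd (-x) d = Jsd x d := by
  unfold Jsd
  rw [show -x + d = -(x - d) by ring, show -x - d = -(x + d) by ring, phi_neg, phi_neg, phi_neg]
  ring

lemma Jsd_neg_right (x d : ℝ) : Jsd x (-d) = Jsd x d := by
  unfold Jsd
  rw [show x + -d = x - d by ring, show x - -d = x + d by ring]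
  ring

lemma WW_neg_left (x d : ℝ) : WW (-x) d = WW x d := by
  unfold WW
  rw [show -x + d = -(x - d) by ring, show -x - d = -(x + d) by ring, om_neg, om_neg]
  ring

lemma WW_neg_right (x d : ℝ) : WW x (-d) = WW x d := by
  unfold WW
  rw [show x + -d = x - d by ring, show x - -d = x + d by ring]
  ring

lemma LHS_neg_left (x d H : ℝ) : LHS (-x) d H = LHS x d H := by
  unfold LHS
  rw [Jsd_neg_left, WW_neg_left, om_neg]

lemma LHS_neg_right (x d H : ℝ) : LHS x (-d) H = LHS x d H := by
  unfold LHS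
  rw [Jsd_neg_right, WW_neg_right]

lemma LHS_abs_left (x d H : ℝ) : LHS |x| d H = LHS x d H := by
  rcases abs_cases x with ⟨h, _⟩ | ⟨h, _⟩ <;> rw [h]
  exact LHS_neg_left x d H

lemma LHS_abs_right (x d H : ℝ) : LHS x |d| H = LHS x d H := by
  rcases abs_cases d with ⟨h, _⟩ | ⟨h, _⟩ <;> rw [h]
  exact LHS_neg_right x d H

lemma LHS_zero (x H : ℝ) : LHS x 0 H = 0 := by
  unfold LHS WW Jsd
  simp only [add_zero, sub_zero]
  ring

lemma jj_neg (p q : ℝ) : jj (-p) (-q) = jj p q := by
  unfold jj
  rw [y_neg, y_neg]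
  ring

lemma jj_abs {x d : ℝ} : jj (|x| + |d|) (|x| - |d|) = jj (x + d) (x - d) := by
  rcases abs_cases x with ⟨h, _⟩ | ⟨h, _⟩ <;> rcases abs_cases d with ⟨h', _⟩ | ⟨h', _⟩ <;>
    rw [h, h']
  · rw [show x + -d = x - d by ring, show x - -d = x + d by ring, jj_comm]
  · rw [show -x + d = -(x - d) by ring, show -x - d = -(x + d) by ring, jj_neg, jj_comm]
  · rw [show -x + -d = -(x + d) by ring, show -x - -d = -(x - d) by ring, jj_neg]

lemma abs_add_abs_lt {p q : ℝ} (hp : |p| < 1) (hq : |q| < 1) :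
    |(p + q) / 2| + |(p - q) / 2| < 1 := by
  have h1 := abs_lt.mp hp
  have h2 := abs_lt.mp hq
  rcases abs_cases ((p + q) / 2) with ⟨h, _⟩ | ⟨h, _⟩ <;>
    rcases abs_cases ((p - q) / 2) with ⟨h', _⟩ | ⟨h', _⟩ <;> rw [h, h'] <;> linarith

/-- `CoreStmt` extended to all signs. -/
lemma core_all (hc : CoreStmt) {p q H Ej : ℝ} (hp : |p| < 1) (hq : |q| < 1) (hH : 0 < H)
    (h1 : jj p q ≤ Ej)
    (h2 : ∀ τ, 0 < τ → τ < 1 → ell τ * (|p - q| / 2) - sig τ * H ≤ Ej) :
    LHS ((p + q) / 2) ((p - q) / 2) H ≤ Ej := by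
  set x := (p + q) / 2 with hx
  set d := (p - q) / 2 with hd
  have e1 : x + d = p := by rw [hx, hd]; ring
  have e2 : x - d = q := by rw [hx, hd]; ring
  have hlt := abs_add_abs_lt hp hq
  rw [← hx, ← hd] at hlt
  rcases (abs_nonneg d).eq_or_lt with h0 | h0
  · have : d = 0 := abs_eq_zero.mp h0.symm
    rw [this, LHS_zero]
    have e3 : jj p q = 0 := by
      rw [← e1, ← e2, this]; simp [jj_self]
    linarith
  · rw [← LHS_abs_left, ← LHS_abs_right]
    apply hc _ _ _ _ (abs_nonneg x) h0 hlt hH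
    · rw [jj_abs, e1, e2]; exact h1
    · intro τ h3 h4
      have := h2 τ h3 h4
      have e4 : |d| = |p - q| / 2 := by
        rw [hd, abs_div]; norm_num
      rw [e4]; exact this

lemma Gam_step {p q H₁ H₂ : ℝ} (hp : |p| < 1) (hq : |q| < 1) (h1 : 0 < H₁) (h2 : 0 < H₂) :
    Gam ((p + q) / 2) ((H₁ + H₂) / 2) - (Gam p H₁ + Gam q H₂) / 2 ≤
      LHS ((p + q) / 2) ((p - q) / 2) ((H₁ + H₂) / 2) := by
  have hj := persp_jensen h1 h2 (om_pos hp) (om_pos hq)
  have e1 : (p + q) / 2 + (p - q) / 2 = p := by ring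
  have e2 : (p + q) / 2 - (p - q) / 2 = q := by ring
  unfold Gam LHS WW Jsd
  rw [e1, e2]
  unfold hh
  linarith

/-! ### Splitting `DD` -/

lemma update_ins_same {n : ℕ} (p : Fin (n + 1)) (b c : Bool) (x : Cube n) :
    Function.update (ins p b x) p c = ins p c x := by
  funext i
  refine Fin.succAboveCases p ?_ ?_ i
  · simp
  · intro j
    simp [Fin.succAbove_ne]

lemma update_ins_ne {n : ℕ} (p : Fin (n + 1)) (j : Fin n) (b c : Bool) (x : Cube n) :
    Function.update (ins p b x) (p.succAbove j) c = ins p b (Function.update x j c) := by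
  funext i
  refine Fin.succAboveCases p ?_ ?_ i
  · rw [Function.update_apply, if_neg (Fin.succAbove_ne p j).symm]; simp
  · intro k
    by_cases h : k = j
    · subst h; simp
    · have : p.succAbove k ≠ p.succAbove j := fun h' => h (Fin.succAbove_right_injective h')
      rw [Function.update_of_ne this]
      simp [Function.update_of_ne h]

lemma DD_succ {n : ℕ} (u : Cube (n + 1) → ℝ) :
    DD u = avg (fun x => jj (u (ins 0 true x)) (u (ins 0 false x))) +
      (DD (fun x => u (ins 0 true x)) + DD (fun x => u (ins 0 false x))) / 2 := by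
  unfold DD
  rw [Fin.sum_univ_succ]
  congr 1
  · rw [avg_split (0 : Fin (n + 1))]
    simp only [update_ins_same]
    ring
  · rw [← Finset.sum_add_distrib, Finset.sum_div]
    apply Finset.sum_congr rfl
    intro j _
    rw [avg_split (0 : Fin (n + 1))]
    have e : j.succ = (0 : Fin (n + 1)).succAbove j := by simp
    rw [e]
    simp only [update_ins_ne]

lemma hh_abs (m : ℝ) : hh |m| = hh m := by unfold hh; rw [phi_abs]

lemma hh_pos' {m : ℝ} (hm : |m| < 1) : 0 < hh m := by
  have := hh_pos (abs_nonneg m) hm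
  rwa [hh_abs] at this

lemma Gam_self {m : ℝ} (hm : |m| < 1) : Gam m (hh m) = 0 := by
  have h1 := F4 (abs_nonneg m) hm
  rw [sq_abs, hh_abs] at h1
  have h2 := om_pos hm
  have h3 : om m ≤ 1 - m ^ 2 := by
    rcases om_le (m := m) with h | h
    · exact h
    · linarith
  have h4 : log 2 ≤ hh m / om m := by
    rw [le_div_iff₀ h2]
    have := log_two_pos'
    nlinarith
  unfold Gam
  rw [KK_of_ge h4]
  ring

/-- The cube induction. -/
theorem bellman_of_core (hc : CoreStmt) : BellmanIneq := by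
  intro n
  induction n with
  | zero =>
    intro u hu
    have x0 : Cube 0 := fun i => i.elim0
    rw [avg_zero_dim u x0, avg_zero_dim _ x0, Gam_self (hu x0)]
    simp [DD]
  | succ n ih =>
    intro u hu
    set fp : Cube n → ℝ := fun x => u (ins 0 true x) with hfp
    set fm : Cube n → ℝ := fun x => u (ins 0 false x) with hfm
    have hfp1 : ∀ x, |fp x| < 1 := fun x => hu _
    have hfm1 : ∀ x, |fm x| < 1 := fun x => hu _
    have i1 := ih fp hfp1
    have i2 := ih fm hfm1
    have hp := abs_avg_lt hfp1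
    have hq := abs_avg_lt hfm1
    have hH1 : 0 < avg (fun x => hh (fp x)) := avg_pos' (fun x => hh_pos' (hfp1 x))
    have hH2 : 0 < avg (fun x => hh (fm x)) := avg_pos' (fun x => hh_pos' (hfm1 x))
    have e1 : avg u = (avg fp + avg fm) / 2 := avg_split 0 u
    have e2 : avg (fun x => hh (u x)) =
        (avg (fun x => hh (fp x)) + avg (fun x => hh (fm x))) / 2 := avg_split 0 _
    rw [e1, e2, DD_succ]
    have s1 := Gam_step hp hq hH1 hH2
    have s2 := core_all hc hp hq (H := (avg (fun x => hh (fp x)) + avg (fun x => hh (fm x))) / 2)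
      (Ej := avg (fun x => jj (fp x) (fm x))) (by positivity) (jj_avg_le hfp1 hfm1) ?_
    · linarith
    · intro τ h3 h4
      have h5 : ∀ x, ell τ * (|fp x - fm x| / 2) - sig τ * ((hh (fp x) + hh (fm x)) / 2) ≤
          jj (fp x) (fm x) := fun x => L1 h3 h4 (hfp1 x) (hfm1 x)
      have h6 := avg_mono h5
      have h7 : avg (fun x => ell τ * (|fp x - fm x| / 2) -
          sig τ * ((hh (fp x) + hh (fm x)) / 2)) =
          ell τ * (avg (fun x => |fp x - fm x|) / 2) -
            sig τ * ((avg (fun x => hh (fp x)) + avg (fun x => hh (fm x))) / 2) := by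
        rw [avg_sub, avg_mul_left, avg_mul_left]
        congr 2
        · have : ∀ x, |fp x - fm x| / 2 = (1 / 2 : ℝ) * |fp x - fm x| := by
            intro x; ring
          simp only [this]
          rw [avg_mul_left]
          ring
        · have : ∀ x, (hh (fp x) + hh (fm x)) / 2 = (1 / 2 : ℝ) * (hh (fp x) + hh (fm x)) := by
            intro x; ring
          simp only [this]
          rw [avg_mul_left, avg_add]
          ring
      rw [h7] at h6
      have h8 : |avg fp - avg fm| ≤ avg (fun x => |fp x - fm x|) := by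
        have := abs_avg_le (fun x => fp x - fm x)
        rwa [avg_sub] at this
      have h9 := ell_nonneg h3 h4
      have h10 : ell τ * (|avg fp - avg fm| / 2) ≤ ell τ * (avg (fun x => |fp x - fm x|) / 2) :=
        mul_le_mul_of_nonneg_left (by linarith) h9
      linarith

end Vale.Agent.Lib.P322B
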