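import Vale.Agent.Lib.P322.Cube
import Vale.Agent.Lib.P322.Phi

/-!
Definitions for the Bellman-function approach to the Courtade-Kumar problem.
`phi` (from `P322.Phi`) is the function `A(u) = u y(u) + (1/2) log (1 - u^2)` of the notes.
-/

namespace Vale.Agent.Lib.P322B

open Vale.Agent.Lib.P322 Real

/-- `artanh` written with logarithms. -/
noncomputable def y (u : ℝ) : ℝ := (log (1 + u) - log (1 - u)) / 2

/-- The binary entropy in nats of `(1 + u) / 2`. -/
noncomputable def hh (u : ℝ) : ℝ := log 2 - phi u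

/-- `kappa = u y(u) - 2 phi(u)`. -/
noncomputable def kap (u : ℝ) : ℝ := u * y u - 2 * phi u

/-- `E(u) = u / ((1 - u^2) y(u)) - 1`, with `E(0) = 0`. -/
noncomputable def EE (u : ℝ) : ℝ := if u = 0 then 0 else u / ((1 - u ^ 2) * y u) - 1

/-- `Pi = kappa + h E` as a function of `u`. -/
noncomputable def PiR (u : ℝ) : ℝ := kap u + hh u * EE u

/-- The two-point energy `j(p,q) = (p - q) (y p - y q) / 4`. -/
noncomputable def jj (p q : ℝ) : ℝ := (p - q) * (y p - y q) / 4

/-- The Dirichlet form `D(u) = sum_i E j(u_{i+}, u_{i-})`. -/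
noncomputable def DD {n : ℕ} (u : Cube n → ℝ) : ℝ :=
  ∑ i, avg (fun x => jj (u (Function.update x i true)) (u (Function.update x i false)))

/-- The inverse of `hh` on `(0,1)`: for `0 < w < log 2` the unique `u` in `(0,1)` with `hh u = w`;
`0` if there is no such `u`. -/
noncomputable def rho (w : ℝ) : ℝ :=
  open Classical in if h : ∃ u, 0 < u ∧ u < 1 ∧ hh u = w then Classical.choose h else 0

/-- `K(w) = kappa(rho(w))`; it vanishes for `w ≥ log 2`. -/
noncomputable def KK (w : ℝ) : ℝ := kap (rho w)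

/-- `-K'(w) = E(rho(w))`. -/
noncomputable def Et (w : ℝ) : ℝ := EE (rho w)

/-- `Pi(w) = K(w) - w K'(w)`. -/
noncomputable def Pit (w : ℝ) : ℝ := KK w + w * Et w

/-- The tweak constant. -/
noncomputable def cc : ℝ := 1 / 9

/-- `omega(m) = (1 - m^2) (1 - c m^2)`. -/
noncomputable def om (m : ℝ) : ℝ := (1 - m ^ 2) * (1 - cc * m ^ 2)

/-- The Bellman function. -/
noncomputable def Gam (m H : ℝ) : ℝ := 2 * (hh m - H) + om m * KK (H / om m)

/-- The Bellman inequality (Theorem A of the notes). -/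
def BellmanIneq : Prop :=
  ∀ (n : ℕ) (u : Cube n → ℝ), (∀ x, |u x| < 1) →
    Gam (avg u) (avg (fun x => hh (u x))) ≤ DD u

end Vale.Agent.Lib.P322B
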