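import Vale.Agent.Lib.P322B.Star

/-!
The inequality along the curve `(xx, τ th)`, assuming the two-variable inequality `E24Stmt`.
-/

namespace Vale.Agent.Lib.P322B

open Vale.Agent.Lib.P322 Real Set Filter Topology

/-- `θ` along the curve. -/
noncomputable def th (τ t : ℝ) : ℝ := (1 - t ^ 2) / (1 - (t * τ) ^ 2)

/-- `x` along the curve. -/
noncomputable def xx (τ t : ℝ) : ℝ := t * (1 - τ ^ 2) / (1 - (t * τ) ^ 2)

lemma den_pos {t τ : ℝ} (ht : |t| < 1) (hτ : |τ| < 1) : 0 < 1 - (t * τ) ^ 2 := by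
  have h1 := tadd_pos ht hτ
  have h2 := tsub_pos ht hτ
  rw [show 1 - (t * τ) ^ 2 = (1 + t * τ) * (1 - t * τ) by ring]
  positivity

lemma th_pos {t τ : ℝ} (ht : |t| < 1) (hτ : |τ| < 1) : 0 < th τ t := thetaC_pos ht hτ

lemma xx_add {t τ : ℝ} (ht : |t| < 1) (hτ : |τ| < 1) :
    xx τ t + τ * th τ t = (t + τ) / (1 + t * τ) := by
  have s := pair_sum ht hτ
  have d := pair_diff ht hτ
  unfold xx th
  have e : t * (1 - τ ^ 2) / (1 - (t * τ) ^ 2) = t * ((1 - τ ^ 2) / (1 - (t * τ) ^ 2)) := by ring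
  rw [e]
  linarith

lemma xx_sub {t τ : ℝ} (ht : |t| < 1) (hτ : |τ| < 1) :
    xx τ t - τ * th τ t = (t - τ) / (1 - t * τ) := by
  have s := pair_sum ht hτ
  have d := pair_diff ht hτ
  unfold xx th
  have e : t * (1 - τ ^ 2) / (1 - (t * τ) ^ 2) = t * ((1 - τ ^ 2) / (1 - (t * τ) ^ 2)) := by ring
  rw [e]
  linarith

lemma abs_xx_add {t τ : ℝ} (ht : |t| < 1) (hτ : |τ| < 1) : |xx τ t + τ * th τ t| < 1 := by
  rw [xx_add ht hτ]; exact abs_tadd ht hτ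

lemma abs_xx_sub {t τ : ℝ} (ht : |t| < 1) (hτ : |τ| < 1) : |xx τ t - τ * th τ t| < 1 := by
  rw [xx_sub ht hτ]; exact abs_tsub ht hτ

lemma abs_mid {p q : ℝ} (hp : |p| < 1) (hq : |q| < 1) : |(p + q) / 2| < 1 := by
  have h1 := abs_lt.mp hp
  have h2 := abs_lt.mp hq
  rw [abs_lt]; constructor <;> linarith

lemma abs_xx {t τ : ℝ} (ht : |t| < 1) (hτ : |τ| < 1) : |xx τ t| < 1 := by
  have := abs_mid (abs_xx_add ht hτ) (abs_xx_sub ht hτ)
  rwa [show (xx τ t + τ * th τ t + (xx τ t - τ * th τ t)) / 2 = xx τ t by ring] at this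

/-- The relation `1 - x^2 - d^2 = (1 - t^2)(1 - T)(1 + t^2 T) / ...` in the form of the ODE. -/
lemma hasDerivAt_xx {t τ : ℝ} (ht : |t| < 1) (hτ : |τ| < 1) :
    HasDerivAt (xx τ) ((1 - xx τ t ^ 2 - (τ * th τ t) ^ 2) / (1 - t ^ 2)) t := by
  have h0 := den_pos ht hτ
  have hs := one_sub_sq_pos_of_abs ht
  have d1 : HasDerivAt (fun v : ℝ => 1 - (v * τ) ^ 2) (-(2 * t * τ ^ 2)) t := by
    have e : (fun v : ℝ => 1 - (v * τ) ^ 2) = fun v : ℝ => 1 - τ ^ 2 * v ^ 2 := by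
      funext v; ring
    rw [e]
    have : HasDerivAt (fun v : ℝ => v ^ 2) (2 * t) t := by simpa using hasDerivAt_pow 2 t
    refine ((this.const_mul (τ ^ 2)).const_sub 1).congr_deriv ?_
    ring
  have d2 : HasDerivAt (fun v : ℝ => v * (1 - τ ^ 2)) (1 - τ ^ 2) t := by
    simpa using (hasDerivAt_id' t).mul_const (1 - τ ^ 2)
  have d3 := d2.div d1 h0.ne'
  refine HasDerivAt.congr_deriv (f := xx τ) d3 ?_
  unfold xx th
  set D := 1 - (t * τ) ^ 2 with hD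
  have hne : D ≠ 0 := h0.ne'
  have e : 1 - (t * (1 - τ ^ 2) / D) ^ 2 - (τ * ((1 - t ^ 2) / D)) ^ 2 =
      (D ^ 2 - t ^ 2 * (1 - τ ^ 2) ^ 2 - τ ^ 2 * (1 - t ^ 2) ^ 2) / D ^ 2 := by
    field_simp
  rw [e, hD]
  rw [hD] at hne
  have e2 : (1 - (t * τ) ^ 2) ^ 2 - t ^ 2 * (1 - τ ^ 2) ^ 2 - τ ^ 2 * (1 - t ^ 2) ^ 2 =
      (1 - τ ^ 2) * (1 + t ^ 2 * τ ^ 2) * (1 - t ^ 2) := by ring
  rw [e2]
  field_simp
  ring

lemma hasDerivAt_th {t τ : ℝ} (ht : |t| < 1) (hτ : |τ| < 1) :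
    HasDerivAt (th τ) (-(2 * xx τ t * th τ t) / (1 - t ^ 2)) t := by
  have h0 := den_pos ht hτ
  have hs := one_sub_sq_pos_of_abs ht
  have d1 : HasDerivAt (fun v : ℝ => 1 - (v * τ) ^ 2) (-(2 * t * τ ^ 2)) t := by
    have e : (fun v : ℝ => 1 - (v * τ) ^ 2) = fun v : ℝ => 1 - τ ^ 2 * v ^ 2 := by
      funext v; ring
    rw [e]
    have : HasDerivAt (fun v : ℝ => v ^ 2) (2 * t) t := by simpa using hasDerivAt_pow 2 t
    refine ((this.const_mul (τ ^ 2)).const_sub 1).congr_deriv ?_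
    ring
  have d2 : HasDerivAt (fun v : ℝ => 1 - v ^ 2) (-(2 * t)) t := by
    have : HasDerivAt (fun v : ℝ => v ^ 2) (2 * t) t := by simpa using hasDerivAt_pow 2 t
    simpa using this.const_sub 1
  have d3 := d2.div d1 h0.ne'
  refine HasDerivAt.congr_deriv (f := th τ) d3 ?_
  unfold xx th
  field_simp
  ring

/-- The polynomial `V`. -/
noncomputable def VV (x d : ℝ) : ℝ := om x - (1 + cc - 2 * cc * x ^ 2) * (1 - x ^ 2 - d ^ 2)

/-- The polynomial `V-bar`. -/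
noncomputable def VB (x d : ℝ) : ℝ :=
  WW x d + (1 - x ^ 2 - d ^ 2) * (-(1 + cc) + cc * (2 * x ^ 2 + 6 * d ^ 2)) -
    2 * d ^ 2 * (-(1 + cc) + cc * (6 * x ^ 2 + 2 * d ^ 2))

lemma VV_eq (x d : ℝ) : VV x d = (1 + cc) * d ^ 2 - 2 * cc * x ^ 2 * d ^ 2 - cc * (1 - x ^ 2) ^ 2 := by
  unfold VV om; ring

lemma VB_sub_VV (x d : ℝ) :
    VB x d - VV x d = d ^ 2 * (1 + cc * (7 - 12 * x ^ 2 - 9 * d ^ 2)) := by
  unfold VB VV
  rw [WW_eq]; unfold om; ring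

lemma VB_sub_VV_nonneg {x d : ℝ} (h : x ^ 2 + d ^ 2 ≤ 1) : 0 ≤ VB x d - VV x d := by
  rw [VB_sub_VV]
  apply mul_nonneg (sq_nonneg d)
  have h1 := cc_nonneg
  have h2 := cc_le
  have h3 := sq_nonneg d
  have h4 : cc * (12 * x ^ 2 + 9 * d ^ 2 - 7) ≤ cc * 5 := by
    apply mul_le_mul_of_nonneg_left _ h1
    linarith
  nlinarith

/-- Chain rule for `om`. -/
lemma hasDerivAt_om (x : ℝ) : HasDerivAt om (-(2 * x * (1 + cc - 2 * cc * x ^ 2))) x := by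
  have d2 : HasDerivAt (fun v : ℝ => v ^ 2) (2 * x) x := by simpa using hasDerivAt_pow 2 x
  have d4 : HasDerivAt (fun v : ℝ => v ^ 4) (4 * x ^ 3) x := by simpa using hasDerivAt_pow 4 x
  have d5 := ((d2.const_mul (1 + cc)).const_sub 1).add (d4.const_mul cc)
  refine (HasDerivAt.congr_deriv (f := fun v => 1 - (1 + cc) * v ^ 2 + cc * v ^ 4) d5 ?_).congr_of_eventuallyEq ?_
  · ring
  · filter_upwards with v
    rw [om_eq]

/-- Chain rule for `WW`. -/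
lemma hasDerivAt_WW_comp {f g : ℝ → ℝ} {f' g' t : ℝ} (hf : HasDerivAt f f' t) (hg : HasDerivAt g g' t) :
    HasDerivAt (fun v => WW (f v) (g v))
      (2 * f t * (-(1 + cc) + cc * (2 * f t ^ 2 + 6 * g t ^ 2)) * f' +
       2 * g t * (-(1 + cc) + cc * (6 * f t ^ 2 + 2 * g t ^ 2)) * g') t := by
  have f2 := hf.pow 2
  have g2 := hg.pow 2
  have f4 := hf.pow 4
  have g4 := hg.pow 4
  have d5 := ((f2.add g2).const_mul (1 + cc)).const_sub 1
  have d6 := ((f4.add ((f2.mul g2).const_mul 6)).add g4).const_mul cc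
  have d7 := d5.add d6
  refine (HasDerivAt.congr_deriv (f := fun v =>
    1 - (1 + cc) * (f v ^ 2 + g v ^ 2) + cc * (f v ^ 4 + 6 * (f v ^ 2 * g v ^ 2) + g v ^ 4)) d7 ?_).congr_of_eventuallyEq ?_
  · simp only [Pi.pow_apply]
    push_cast
    ring
  · filter_upwards with v
    rw [WW_eq]; ring

/-- `v = om x / θ`. -/
noncomputable def vv (τ t : ℝ) : ℝ := om (xx τ t) / th τ t

/-- `v-bar = W / θ`. -/
noncomputable def vb (τ t : ℝ) : ℝ := WW (xx τ t) (τ * th τ t) / th τ t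

lemma hasDerivAt_vv {t τ : ℝ} (ht : |t| < 1) (hτ : |τ| < 1) :
    HasDerivAt (vv τ) (2 * xx τ t / ((1 - t ^ 2) * th τ t) * VV (xx τ t) (τ * th τ t)) t := by
  have hth := th_pos ht hτ
  have hs := one_sub_sq_pos_of_abs ht
  have d1 : HasDerivAt (fun v => om (xx τ v)) _ t :=
    HasDerivAt.comp (h₂ := om) t (hasDerivAt_om (xx τ t)) (hasDerivAt_xx ht hτ)
  have d2 := d1.div (hasDerivAt_th ht hτ) hth.ne'
  refine HasDerivAt.congr_deriv (f := vv τ) d2 ?_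
  unfold VV
  generalize xx τ t = x
  generalize th τ t = θ at *
  generalize om x = w
  field_simp
  ring

lemma hasDerivAt_vb {t τ : ℝ} (ht : |t| < 1) (hτ : |τ| < 1) :
    HasDerivAt (vb τ) (2 * xx τ t / ((1 - t ^ 2) * th τ t) * VB (xx τ t) (τ * th τ t)) t := by
  have hth := th_pos ht hτ
  have hs := one_sub_sq_pos_of_abs ht
  have dd : HasDerivAt (fun v => τ * th τ v) (τ * (-(2 * xx τ t * th τ t) / (1 - t ^ 2))) t :=
    (hasDerivAt_th ht hτ).const_mul τ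
  have d1 := hasDerivAt_WW_comp (hasDerivAt_xx ht hτ) dd
  have d2 := d1.div (hasDerivAt_th ht hτ) hth.ne'
  refine HasDerivAt.congr_deriv (f := vb τ) d2 ?_
  unfold VB
  generalize xx τ t = x
  generalize th τ t = θ at *
  generalize WW x (τ * θ) = w
  field_simp
  ring

/-- `Λ`. -/
noncomputable def Lam (τ t : ℝ) : ℝ :=
  log (1 - (t * τ ^ 2) ^ 2) - log (1 - τ ^ 2) - log (1 - (t * τ) ^ 2)

/-- `LL`. -/
noncomputable def LLf (τ t : ℝ) : ℝ :=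
  ((1 - (t * τ) ^ 2) * Lam τ t - 2 * t * (1 - τ ^ 2) * y (t * τ ^ 2)) / (1 - t ^ 2)

lemma abs_mul_sq_lt {t τ : ℝ} (ht : |t| < 1) (hτ : |τ| < 1) : |t * τ ^ 2| < 1 := by
  rw [abs_mul, abs_pow]
  have h1 := abs_nonneg t
  have h2 := abs_nonneg τ
  have h3 : |τ| ^ 2 < 1 := by nlinarith
  nlinarith [sq_nonneg (|τ|)]

lemma hasDerivAt_LLf {t τ : ℝ} (ht : |t| < 1) (hτ : |τ| < 1) :
    HasDerivAt (LLf τ)
      ((2 * t * (1 - τ ^ 2) * Lam τ t - 2 * (1 - τ ^ 2) * (1 + t ^ 2) * y (t * τ ^ 2)) /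
        (1 - t ^ 2) ^ 2) t := by
  have hs := one_sub_sq_pos_of_abs ht
  have h0 := den_pos ht hτ
  have hw := abs_mul_sq_lt ht hτ
  have h1 := one_sub_sq_pos_of_abs hw
  have hT := one_sub_sq_pos_of_abs hτ
  have dw : HasDerivAt (fun v : ℝ => v * τ ^ 2) (τ ^ 2) t := by
    simpa using (hasDerivAt_id' t).mul_const (τ ^ 2)
  have dv2 : HasDerivAt (fun v : ℝ => v ^ 2) (2 * t) t := by simpa using hasDerivAt_pow 2 t
  have du : HasDerivAt (fun v : ℝ => 1 - (v * τ) ^ 2) (-(2 * t * τ ^ 2)) t := by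
    have e : (fun v : ℝ => 1 - (v * τ) ^ 2) = fun v : ℝ => 1 - τ ^ 2 * v ^ 2 := by
      funext v; ring
    rw [e]
    refine ((dv2.const_mul (τ ^ 2)).const_sub 1).congr_deriv ?_
    ring
  have dw2 : HasDerivAt (fun v : ℝ => 1 - (v * τ ^ 2) ^ 2) (-(2 * t * τ ^ 4)) t := by
    have e : (fun v : ℝ => 1 - (v * τ ^ 2) ^ 2) = fun v : ℝ => 1 - τ ^ 4 * v ^ 2 := by
      funext v; ring
    rw [e]
    refine ((dv2.const_mul (τ ^ 4)).const_sub 1).congr_deriv ?_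
    ring
  have dL1 := dw2.log h1.ne'
  have dL2 := du.log h0.ne'
  have dLam := (dL1.sub_const (log (1 - τ ^ 2))).sub dL2
  have dLam' : HasDerivAt (Lam τ) _ t := dLam
  have dy : HasDerivAt (fun v => y (v * τ ^ 2)) (1 / (1 - (t * τ ^ 2) ^ 2) * τ ^ 2) t :=
    HasDerivAt.comp (h₂ := y) t (hasDerivAt_y hw) dw
  have dN1 := du.mul dLam'
  have d2t : HasDerivAt (fun v : ℝ => 2 * v * (1 - τ ^ 2)) (2 * (1 - τ ^ 2)) t := by
    have := ((hasDerivAt_id' t).const_mul 2).mul_const (1 - τ ^ 2)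
    simpa using this
  have dN2 := d2t.mul dy
  have dN := dN1.sub dN2
  have ds : HasDerivAt (fun v : ℝ => 1 - v ^ 2) (-(2 * t)) t := by
    simpa using dv2.const_sub 1
  have dT := dN.div ds hs.ne'
  refine HasDerivAt.congr_deriv (f := LLf τ) dT ?_
  simp only [Pi.sub_apply, Pi.mul_apply]
  have e1 : 1 - (t * τ ^ 2) ^ 2 = 1 - t ^ 2 * τ ^ 4 := by ring
  have e2 : 1 - (t * τ) ^ 2 = 1 - t ^ 2 * τ ^ 2 := by ring
  rw [e1] at h1 ⊢
  rw [e2] at h0 ⊢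
  generalize Lam τ t = L at *
  generalize y (t * τ ^ 2) = Y at *
  field_simp
  ring

/-- The difference `Λ - (1 + t^2)/t y(t T)`. -/
noncomputable def Dt (τ t : ℝ) : ℝ := Lam τ t - (1 + t ^ 2) / t * y (t * τ ^ 2)

/-- The function whose monotonicity gives the curve inequality. -/
noncomputable def Gt (τ t : ℝ) : ℝ :=
  LLf τ t - τ * y τ - QQ (hh τ) (vv τ t) + QQ (hh τ) (vb τ t)

/-- The two-variable inequality, proved elsewhere. -/
def E24Stmt : Prop :=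
  ∀ τ t : ℝ, 0 < τ → τ < 1 → 0 < t → t < 1 →
    0 ≤ Dt τ t ∧
    (0 < VV (xx τ t) (τ * th τ t) →
      VV (xx τ t) (τ * th τ t) *
          (- (1 / 2) * log (1 - τ ^ 2) + 2 / 3 * log ((1 - xx τ t ^ 2) / th τ t)) ≤ Dt τ t ∨
      VV (xx τ t) (τ * th τ t) *
          (2 / 3 * log (om (xx τ t) / WW (xx τ t) (τ * th τ t))) ≤ Dt τ t)

lemma xx_eq_tsub (τ t : ℝ) : xx τ t = (t - t * τ ^ 2) / (1 - t * (t * τ ^ 2)) := by
  unfold xx
  rw [show t - t * τ ^ 2 = t * (1 - τ ^ 2) by ring,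
    show 1 - t * (t * τ ^ 2) = 1 - (t * τ) ^ 2 by ring]

lemma one_sub_xx_sq {t τ : ℝ} (ht : |t| < 1) (hτ : |τ| < 1) :
    1 - xx τ t ^ 2 = (1 - t ^ 2) * (1 - (t * τ ^ 2) ^ 2) / (1 - (t * τ) ^ 2) ^ 2 := by
  have hw := abs_mul_sq_lt ht hτ
  rw [xx_eq_tsub, one_sub_tsub_sq ht hw,
    show 1 - t * (t * τ ^ 2) = 1 - (t * τ) ^ 2 by ring]

lemma th_le_one_sub_xx_sq {t τ : ℝ} (ht : |t| < 1) (hτ : |τ| < 1) : th τ t ≤ 1 - xx τ t ^ 2 := by
  have h0 := den_pos ht hτ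
  have hw := abs_mul_sq_lt ht hτ
  have hs := one_sub_sq_pos_of_abs ht
  rw [one_sub_xx_sq ht hτ]
  unfold th
  rw [div_le_div_iff₀ h0 (by positivity)]
  have h3 : (t * τ ^ 2) ^ 2 ≤ (t * τ) ^ 2 := by
    have h4 : τ ^ 2 ≤ 1 := by
      have := one_sub_sq_pos_of_abs hτ; linarith
    have h5 : (t * τ ^ 2) ^ 2 = (t * τ) ^ 2 * τ ^ 2 := by ring
    rw [h5]
    nlinarith [sq_nonneg (t * τ)]
  have h6 : (1 - t ^ 2) * (1 - (t * τ ^ 2) ^ 2) * (1 - (t * τ) ^ 2) -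
      (1 - t ^ 2) * (1 - (t * τ) ^ 2) ^ 2 =
      (1 - t ^ 2) * (1 - (t * τ) ^ 2) * ((t * τ) ^ 2 - (t * τ ^ 2) ^ 2) := by ring
  have h7 : 0 ≤ (1 - t ^ 2) * (1 - (t * τ) ^ 2) * ((t * τ) ^ 2 - (t * τ ^ 2) ^ 2) :=
    mul_nonneg (by positivity) (by linarith)
  linarith

lemma xx_sq_add_le {t τ : ℝ} (ht : |t| < 1) (hτ : |τ| < 1) :
    xx τ t ^ 2 + (τ * th τ t) ^ 2 ≤ 1 := by
  have hp := abs_lt.mp (abs_xx_add ht hτ)
  have hq := abs_lt.mp (abs_xx_sub ht hτ)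
  nlinarith [sq_nonneg (xx τ t + τ * th τ t), sq_nonneg (xx τ t - τ * th τ t)]

/-- The main positivity. -/
lemma bracket_nonneg (h24 : E24Stmt) {t τ : ℝ} (hτ0 : 0 < τ) (hτ1 : τ < 1) (ht0 : 0 < t) (ht1 : t < 1) :
    0 ≤ Dt τ t - Pit (hh τ / vv τ t) * VV (xx τ t) (τ * th τ t) +
      Pit (hh τ / vb τ t) * VB (xx τ t) (τ * th τ t) := by
  have ht := abs_lt_one_of_Ico ht0.le ht1
  have hτ := abs_lt_one_of_Ico hτ0.le hτ1
  have hh0 := hh_pos hτ0.le hτ1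
  have hθ := th_pos ht hτ
  have hx := abs_xx ht hτ
  have hom := om_pos hx
  have hW := WW_pos (abs_xx_add ht hτ) (abs_xx_sub ht hτ)
  have hsum := xx_sq_add_le ht hτ
  obtain ⟨hD, hcase⟩ := h24 τ t hτ0 hτ1 ht0 ht1
  set x := xx τ t with hxdef
  set θ := th τ t with hθdef
  set d := τ * θ with hddef
  set h₀ := hh τ with hh₀def
  have hv : vv τ t = om x / θ := rfl
  have hvb : vb τ t = WW x d / θ := rfl
  have hvpos : 0 < om x / θ := by positivity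
  have hvbpos : 0 < WW x d / θ := by positivity
  rw [hv, hvb]
  set w₁ := h₀ / (om x / θ) with hw₁
  set w₂ := h₀ / (WW x d / θ) with hw₂
  have hw₁pos : 0 < w₁ := by positivity
  have hle := WW_le_om hsum
  have hw12 : w₁ ≤ w₂ := by
    apply div_le_div_of_nonneg_left hh0.le hvbpos
    exact div_le_div_of_nonneg_right hle hθ.le
  have hP2 : 0 ≤ Pit w₂ := Pit_nonneg (lt_of_lt_of_le hw₁pos hw12)
  have hP12 : Pit w₂ ≤ Pit w₁ := Pit_anti hw₁pos hw12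
  have hG := Pit_log_lip hw₁pos hw12
  have e3 : w₂ / w₁ = om x / WW x d := by
    rw [hw₁, hw₂]; field_simp
  rw [e3] at hG
  -- the bound on `Pit w₁`
  have hx2 : 0 < 1 - x ^ 2 := one_sub_sq_pos_of_abs hx
  have hv0 : 1 ≤ (1 - x ^ 2) / θ := by
    rw [le_div_iff₀ hθ, one_mul]
    exact th_le_one_sub_xx_sq ht hτ
  have hvv0 : om x / θ ≤ (1 - x ^ 2) / θ := by
    apply div_le_div_of_nonneg_right _ hθ.le
    have h1 := cc_nonneg
    have : om x = (1 - x ^ 2) * (1 - cc * x ^ 2) := rfl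
    rw [this]
    have h2 : 0 ≤ cc * x ^ 2 := by positivity
    nlinarith
  have hP1 : Pit w₁ ≤ - (1 / 2) * log (1 - τ ^ 2) + 2 / 3 * log ((1 - x ^ 2) / θ) := by
    have h1 : h₀ / ((1 - x ^ 2) / θ) ≤ w₁ :=
      div_le_div_of_nonneg_left hh0.le hvpos hvv0
    have h2 : 0 < h₀ / ((1 - x ^ 2) / θ) := by positivity
    have h3 := Pit_anti h2 h1
    have h4 : h₀ / ((1 - x ^ 2) / θ) ≤ h₀ := div_le_self hh0.le hv0
    have h5 := Pit_log_lip h2 h4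
    have e5 : h₀ / (h₀ / ((1 - x ^ 2) / θ)) = (1 - x ^ 2) / θ := by
      field_simp
    rw [e5] at h5
    have h6 : Pit h₀ ≤ - (1 / 2) * log (1 - τ ^ 2) := by
      rw [hh₀def, Pit_hh hτ0.le hτ1]; exact PiR_le hτ0.le hτ1
    linarith
  -- algebra
  have hVB := VB_sub_VV_nonneg hsum
  set V := VV x d with hV
  set Vb := VB x d with hVb
  have key : 0 ≤ Dt τ t - (Pit w₁ - Pit w₂) * V →
      0 ≤ Dt τ t - Pit w₁ * V + Pit w₂ * Vb := by
    intro h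
    have := mul_nonneg hP2 hVB
    nlinarith
  apply key
  by_cases hVpos : V ≤ 0
  · have := mul_nonneg (sub_nonneg.mpr hP12) (neg_nonneg.mpr hVpos)
    nlinarith
  · have hVpos' : 0 < V := not_le.mp hVpos
    have hdiff : 0 ≤ Pit w₁ - Pit w₂ := sub_nonneg.mpr hP12
    rcases hcase hVpos' with hc | hc
    · have h1 : Pit w₁ - Pit w₂ ≤ - (1 / 2) * log (1 - τ ^ 2) + 2 / 3 * log ((1 - x ^ 2) / θ) := by
        linarith
      have h2 := mul_le_mul_of_nonneg_right h1 hVpos'.le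
      rw [mul_comm V] at hc
      linarith
    · have h2 := mul_le_mul_of_nonneg_right hG hVpos'.le
      rw [mul_comm V] at hc
      linarith

lemma vv_pos {t τ : ℝ} (ht : |t| < 1) (hτ : |τ| < 1) : 0 < vv τ t :=
  div_pos (om_pos (abs_xx ht hτ)) (th_pos ht hτ)

lemma vb_pos {t τ : ℝ} (ht : |t| < 1) (hτ : |τ| < 1) : 0 < vb τ t :=
  div_pos (WW_pos (abs_xx_add ht hτ) (abs_xx_sub ht hτ)) (th_pos ht hτ)

lemma hasDerivAt_Gt {t τ : ℝ} (hτ0 : 0 < τ) (hτ1 : τ < 1) (ht : |t| < 1) :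
    HasDerivAt (Gt τ)
      ((2 * t * (1 - τ ^ 2) * Lam τ t - 2 * (1 - τ ^ 2) * (1 + t ^ 2) * y (t * τ ^ 2)) /
          (1 - t ^ 2) ^ 2 -
        Pit (hh τ / vv τ t) * (2 * xx τ t / ((1 - t ^ 2) * th τ t) * VV (xx τ t) (τ * th τ t)) +
        Pit (hh τ / vb τ t) * (2 * xx τ t / ((1 - t ^ 2) * th τ t) * VB (xx τ t) (τ * th τ t))) t := by
  have hτ := abs_lt_one_of_Ico hτ0.le hτ1
  have hh0 := hh_pos hτ0.le hτ1
  have d1 : HasDerivAt (fun v => QQ (hh τ) (vv τ v)) _ t :=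
    HasDerivAt.comp (h₂ := QQ (hh τ)) t (hasDerivAt_QQ hh0 (vv_pos ht hτ)) (hasDerivAt_vv ht hτ)
  have d2 : HasDerivAt (fun v => QQ (hh τ) (vb τ v)) _ t :=
    HasDerivAt.comp (h₂ := QQ (hh τ)) t (hasDerivAt_QQ hh0 (vb_pos ht hτ)) (hasDerivAt_vb ht hτ)
  exact (((hasDerivAt_LLf ht hτ).sub_const (τ * y τ)).sub d1).add d2

lemma Gt_deriv_nonneg (h24 : E24Stmt) {t τ : ℝ} (hτ0 : 0 < τ) (hτ1 : τ < 1) (ht0 : 0 < t) (ht1 : t < 1) :
    0 ≤ (2 * t * (1 - τ ^ 2) * Lam τ t - 2 * (1 - τ ^ 2) * (1 + t ^ 2) * y (t * τ ^ 2)) /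
          (1 - t ^ 2) ^ 2 -
        Pit (hh τ / vv τ t) * (2 * xx τ t / ((1 - t ^ 2) * th τ t) * VV (xx τ t) (τ * th τ t)) +
        Pit (hh τ / vb τ t) * (2 * xx τ t / ((1 - t ^ 2) * th τ t) * VB (xx τ t) (τ * th τ t)) := by
  have ht := abs_lt_one_of_Ico ht0.le ht1
  have hτ := abs_lt_one_of_Ico hτ0.le hτ1
  have hB := bracket_nonneg h24 hτ0 hτ1 ht0 ht1
  have hs := one_sub_sq_pos_of_abs ht
  have hT := one_sub_sq_pos_of_abs hτ
  have h0 := den_pos ht hτ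
  have hK : 2 * xx τ t / ((1 - t ^ 2) * th τ t) = 2 * t * (1 - τ ^ 2) / (1 - t ^ 2) ^ 2 := by
    unfold xx th
    generalize 1 - (t * τ) ^ 2 = D at h0
    field_simp
  rw [hK]
  have e : (2 * t * (1 - τ ^ 2) * Lam τ t - 2 * (1 - τ ^ 2) * (1 + t ^ 2) * y (t * τ ^ 2)) /
      (1 - t ^ 2) ^ 2 = 2 * t * (1 - τ ^ 2) / (1 - t ^ 2) ^ 2 * Dt τ t := by
    unfold Dt
    field_simp
  rw [e]
  have hKpos : 0 ≤ 2 * t * (1 - τ ^ 2) / (1 - t ^ 2) ^ 2 := by positivity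
  have := mul_nonneg hKpos hB
  nlinarith

lemma th_zero (τ : ℝ) : th τ 0 = 1 := by simp [th]
lemma xx_zero (τ : ℝ) : xx τ 0 = 0 := by simp [xx]

lemma Gt_zero {τ : ℝ} (hτ0 : 0 < τ) (hτ1 : τ < 1) : Gt τ 0 = 0 := by
  have hτ := abs_lt_one_of_Ico hτ0.le hτ1
  have hT := one_sub_sq_pos_of_abs hτ
  have hh0 := hh_pos hτ0.le hτ1
  have hom := om_pos hτ
  have e1 : vv τ 0 = 1 := by
    unfold vv; rw [th_zero, xx_zero]; simp [om]
  have e2 : vb τ 0 = om τ := by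
    unfold vb; rw [th_zero, xx_zero]
    simp only [mul_one, div_one]
    unfold WW
    rw [show (0:ℝ) + τ = τ by ring, show (0:ℝ) - τ = -τ by ring, om_neg]
    ring
  have e3 : QQ (hh τ) 1 = kap τ := by
    unfold QQ
    rw [div_one, one_mul, KK_hh hτ0.le hτ1]
  have e4 : QQ (hh τ) (om τ) = 0 := by
    unfold QQ
    have h1 := F4 hτ0.le hτ1
    have h3 : om τ ≤ 1 - τ ^ 2 := by
      rcases om_le (m := τ) with h | h
      · exact h
      · linarith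
    have h4 : log 2 ≤ hh τ / om τ := by
      rw [le_div_iff₀ hom]
      have := log_two_pos'
      nlinarith
    rw [KK_of_ge h4]
    ring
  unfold Gt
  rw [e1, e2, e3, e4]
  unfold LLf Lam
  have hp := phi_eq hτ
  unfold kap
  rw [hp]
  simp [y_zero]
  ring

/-- Monotonicity of `Gt`. -/
lemma Gt_nonneg (h24 : E24Stmt) {t τ : ℝ} (hτ0 : 0 < τ) (hτ1 : τ < 1) (ht0 : 0 ≤ t) (ht1 : t < 1) :
    0 ≤ Gt τ t := by
  have hm : MonotoneOn (Gt τ) (Ico 0 1) := by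
    apply monotoneOn_of_deriv_nonneg (convex_Ico 0 1)
    · intro v hv
      exact (hasDerivAt_Gt hτ0 hτ1 (abs_lt_one_of_Ico hv.1 hv.2)).continuousAt.continuousWithinAt
    · intro v hv
      rw [interior_Ico] at hv
      exact (hasDerivAt_Gt hτ0 hτ1
        (abs_lt_one_of_Ico hv.1.le hv.2)).differentiableAt.differentiableWithinAt
    · intro v hv
      rw [interior_Ico] at hv
      rw [(hasDerivAt_Gt hτ0 hτ1 (abs_lt_one_of_Ico hv.1.le hv.2)).deriv]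
      exact Gt_deriv_nonneg h24 hτ0 hτ1 hv.1 hv.2
  have := hm (left_mem_Ico.mpr (by norm_num)) ⟨ht0, ht1⟩ ht0
  rwa [Gt_zero hτ0 hτ1] at this

/-- `Jsd` along the curve. -/
lemma Jsd_curve {t τ : ℝ} (ht : |t| < 1) (hτ : |τ| < 1) :
    Jsd (xx τ t) (τ * th τ t) =
      2 * (τ * th τ t) * y τ + 2 * xx τ t * y (t * τ ^ 2) - Lam τ t := by
  have hw := abs_mul_sq_lt ht hτ
  have hx := abs_xx ht hτ
  have hs := one_sub_sq_pos_of_abs ht
  have h0 := den_pos ht hτ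
  have h1 := one_sub_sq_pos_of_abs hw
  have hT := one_sub_sq_pos_of_abs hτ
  have hpair := phi_pair ht hτ
  rw [← xx_add ht hτ, ← xx_sub ht hτ] at hpair
  have e1 : xx τ t + τ * th τ t + (xx τ t - τ * th τ t) = 2 * xx τ t := by ring
  have e2 : xx τ t + τ * th τ t - (xx τ t - τ * th τ t) = 2 * (τ * th τ t) := by ring
  rw [e1, e2] at hpair
  have hphi := phi_eq hx
  have hy : y (xx τ t) = y t - y (t * τ ^ 2) := by
    rw [xx_eq_tsub]; exact y_sub' ht hw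
  have hlog : log (1 - xx τ t ^ 2) =
      log (1 - t ^ 2) + log (1 - (t * τ ^ 2) ^ 2) - 2 * log (1 - (t * τ) ^ 2) := by
    rw [one_sub_xx_sq ht hτ, log_div (by positivity) (by positivity), log_mul hs.ne' h1.ne', log_pow]
    push_cast
    ring
  unfold Jsd Lam
  rw [hpair, hphi, hy, hlog]
  ring

/-- (E2): the inequality along the curve. -/
theorem E2 (h24 : E24Stmt) {t τ : ℝ} (hτ0 : 0 < τ) (hτ1 : τ < 1) (ht0 : 0 ≤ t) (ht1 : t < 1) :
    LHS (xx τ t) (τ * th τ t) (th τ t * hh τ) ≤ th τ t * (τ * y τ) := by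
  have ht := abs_lt_one_of_Ico ht0 ht1
  have hτ := abs_lt_one_of_Ico hτ0.le hτ1
  have hG := Gt_nonneg h24 hτ0 hτ1 ht0 ht1
  have hθ := th_pos ht hτ
  have hx := abs_xx ht hτ
  have hom := om_pos hx
  have hW := WW_pos (abs_xx_add ht hτ) (abs_xx_sub ht hτ)
  have hs := one_sub_sq_pos_of_abs ht
  have h0 := den_pos ht hτ
  have e1 : om (xx τ t) * KK (th τ t * hh τ / om (xx τ t)) = th τ t * QQ (hh τ) (vv τ t) := by
    unfold QQ vv
    have : hh τ / (om (xx τ t) / th τ t) = th τ t * hh τ / om (xx τ t) := by field_simp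
    rw [this]
    field_simp
  have e2 : WW (xx τ t) (τ * th τ t) * KK (th τ t * hh τ / WW (xx τ t) (τ * th τ t)) =
      th τ t * QQ (hh τ) (vb τ t) := by
    unfold QQ vb
    have : hh τ / (WW (xx τ t) (τ * th τ t) / th τ t) =
        th τ t * hh τ / WW (xx τ t) (τ * th τ t) := by field_simp
    rw [this]
    field_simp
  have e3 : Jsd (xx τ t) (τ * th τ t) = th τ t * (2 * (τ * y τ) - LLf τ t) := by
    rw [Jsd_curve ht hτ]
    unfold LLf th xx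
    generalize Lam τ t = L
    generalize 1 - (t * τ) ^ 2 = D at h0
    field_simp
    ring
  unfold LHS
  rw [e1, e2, e3]
  unfold Gt at hG
  have := mul_nonneg hθ.le hG
  nlinarith

end Vale.Agent.Lib.P322B
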