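import Vale.Agent.Lib.P322B.GridAll
import Vale.Agent.Lib.P322B.CornerW
import Vale.Agent.Lib.P322B.CornerTh
import Vale.Agent.Lib.P322B.Core

/-!
The two-variable inequality, and the Bellman inequality.
-/

namespace Vale.Agent.Lib.P322B

open Vale.Agent.Lib.P322 Real Grid

theorem E24W_holds : E24W := by
  intro t W ht0 ht1 hW0 hW1 hV
  by_cases hc1 : W ≤ 1 / 65536
  · right; exact cornerW ht0 ht1 hW0 hc1 hV
  by_cases hc2 : thw t W ≤ 1 / 16
  · right; exact cornerTh ht0 ht1 hW0 hW1 hc2 hV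
  have hS := SS_posR
  have hSv : (SS:ℝ) = 2 ^ 64 := by
    rw [SS_eq]; norm_num
  have hSe : (18446744073709551616 : ℕ) = SS := rfl
  apply grid_all t W ?_ ?_ ?_ ?_ ht0 ht1 hW0 hW1 (not_le.mp hc2) hV
  · exact lo_zero' ht0.le
  · unfold Up
    rw [hSe, div_self hS.ne']
    exact ht1.le
  · unfold Lo
    rw [hSv]
    have : ¬ W ≤ 1 / 65536 := hc1
    push Not at this
    norm_num at this ⊢
    linarith
  · unfold Up
    rw [hSe, div_self hS.ne']
    exact hW1.le

/-- The Bellman inequality. -/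
theorem bellman : BellmanIneq :=
  bellman_of_E24 (E24Stmt_of_W E24D_holds E24W_holds)

end Vale.Agent.Lib.P322B
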