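import Vale.Agent.Lib.P322B.OneVar

/-!
Facts on `EE`, `kap`, `hh` on `[0,1)`.
-/

namespace Vale.Agent.Lib.P322B

open Vale.Agent.Lib.P322 Real Set

lemma abs_lt_one_of_Ico {u : ℝ} (h0 : 0 ≤ u) (h1 : u < 1) : |u| < 1 := by
  rw [abs_lt]; constructor <;> linarith

lemma EE_eq {u : ℝ} (h : u ≠ 0) : EE u = u / ((1 - u ^ 2) * y u) - 1 := by
  simp [EE, h]

lemma EE_zero : EE 0 = 0 := by simp [EE]

lemma EE_nonneg {u : ℝ} (h0 : 0 ≤ u) (h1 : u < 1) : 0 ≤ EE u := by
  rcases h0.eq_or_lt with rfl | h0'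
  · rw [EE_zero]
  · rw [EE_eq h0'.ne']
    have hu := abs_lt_one_of_Ico h0 h1
    have h3 := one_sub_sq_pos_of_abs hu
    have hy := y_pos h0' h1
    have h4 := y_le h0 h1
    have h5 : (1 - u ^ 2) * y u ≤ u := by
      rw [le_div_iff₀ h3] at h4; linarith
    have h6 : 0 < (1 - u ^ 2) * y u := by positivity
    have : 1 ≤ u / ((1 - u ^ 2) * y u) := by
      rw [le_div_iff₀ h6]; linarith
    linarith

lemma EE_le {u : ℝ} (h0 : 0 ≤ u) (h1 : u < 1) : EE u ≤ u ^ 2 / (1 - u ^ 2) := by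
  rcases h0.eq_or_lt with rfl | h0'
  · rw [EE_zero]; norm_num
  · rw [EE_eq h0'.ne']
    have hu := abs_lt_one_of_Ico h0 h1
    have h3 := one_sub_sq_pos_of_abs hu
    have hy := y_pos h0' h1
    have h4 := le_y h0 h1
    have h6 : 0 < (1 - u ^ 2) * y u := by positivity
    have h7 : u / ((1 - u ^ 2) * y u) ≤ 1 / (1 - u ^ 2) := by
      rw [div_le_div_iff₀ h6 h3]
      nlinarith
    have e : 1 / (1 - u ^ 2) - 1 = u ^ 2 / (1 - u ^ 2) := by
      field_simp; ring
    linarith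

lemma hasDerivAt_EE {u : ℝ} (h0 : 0 < u) (h1 : u < 1) :
    HasDerivAt EE (((1 + u ^ 2) * y u - u) / ((1 - u ^ 2) ^ 2 * y u ^ 2)) u := by
  have hu := abs_lt_one_of_Ico h0.le h1
  have h3 := one_sub_sq_pos_of_abs hu
  have hy := y_pos h0 h1
  have d1 : HasDerivAt (fun v : ℝ => 1 - v ^ 2) (-(2 * u)) u := by
    have := ((hasDerivAt_id u).pow 2).const_sub 1
    simpa using this
  have d2 : HasDerivAt (fun v : ℝ => (1 - v ^ 2) * y v)
      (-(2 * u) * y u + (1 - u ^ 2) * (1 / (1 - u ^ 2))) u := d1.mul (hasDerivAt_y hu)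
  have hne : (1 - u ^ 2) * y u ≠ 0 := by positivity
  have d3 : HasDerivAt (fun v : ℝ => v / ((1 - v ^ 2) * y v) - 1) _ u :=
    ((hasDerivAt_id' u).div d2 hne).sub_const 1
  have e : EE =ᶠ[nhds u] fun v => v / ((1 - v ^ 2) * y v) - 1 := by
    filter_upwards [lt_mem_nhds h0] with v hv
    exact EE_eq hv.ne'
  refine (d3.congr_of_eventuallyEq e).congr_deriv ?_
  field_simp
  ring

lemma EE_deriv_nonneg {u : ℝ} (h0 : 0 < u) (h1 : u < 1) :
    0 ≤ ((1 + u ^ 2) * y u - u) / ((1 - u ^ 2) ^ 2 * y u ^ 2) := by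
  have h4 := le_y h0.le h1
  have hy := y_pos h0 h1
  apply div_nonneg _ (by positivity)
  nlinarith [sq_nonneg u, mul_nonneg (sq_nonneg u) hy.le]

lemma continuousOn_EE : ContinuousOn EE (Ico 0 1) := by
  intro u hu
  rcases hu.1.eq_or_lt with h | h0
  · -- at zero: squeeze
    subst h
    have hlim : Filter.Tendsto (fun v : ℝ => v ^ 2 / (1 - v ^ 2)) (nhdsWithin 0 (Ico 0 1)) (nhds 0) := by
      have hc : ContinuousAt (fun v : ℝ => v ^ 2 / (1 - v ^ 2)) 0 := by
        apply ContinuousAt.div (by fun_prop) (by fun_prop)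
        norm_num
      have := hc.tendsto.mono_left (nhdsWithin_le_nhds (s := Ico 0 1))
      simpa using this
    have h2 : Filter.Tendsto EE (nhdsWithin 0 (Ico 0 1)) (nhds 0) := by
      apply tendsto_of_tendsto_of_tendsto_of_le_of_le' tendsto_const_nhds hlim
      · filter_upwards [self_mem_nhdsWithin] with v hv
        exact EE_nonneg hv.1 hv.2
      · filter_upwards [self_mem_nhdsWithin] with v hv
        exact EE_le hv.1 hv.2
    simpa [ContinuousWithinAt, EE_zero] using h2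
  · exact (hasDerivAt_EE h0 hu.2).continuousAt.continuousWithinAt

lemma monotoneOn_EE : MonotoneOn EE (Ico 0 1) := by
  apply monotoneOn_of_deriv_nonneg (convex_Ico 0 1) continuousOn_EE
  · intro v hv
    rw [interior_Ico] at hv
    exact (hasDerivAt_EE hv.1 hv.2).differentiableAt.differentiableWithinAt
  · intro v hv
    rw [interior_Ico] at hv
    rw [(hasDerivAt_EE hv.1 hv.2).deriv]
    exact EE_deriv_nonneg hv.1 hv.2

/-- `kappa' = y E`. -/
lemma kap_deriv_eq {u : ℝ} (h0 : 0 ≤ u) (h1 : u < 1) :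
    u * (1 / (1 - u ^ 2)) - y u = y u * EE u := by
  rcases h0.eq_or_lt with rfl | h0'
  · simp [y_zero]
  · rw [EE_eq h0'.ne']
    have hu := abs_lt_one_of_Ico h0 h1
    have h3 := one_sub_sq_pos_of_abs hu
    have hy := y_pos h0' h1
    field_simp

/-- `hh` is strictly decreasing on `[0,1)`. -/
lemma strictAntiOn_hh : StrictAntiOn hh (Ico 0 1) := by
  apply strictAntiOn_of_deriv_neg (convex_Ico 0 1) continuous_hh.continuousOn
  intro v hv
  rw [interior_Ico] at hv
  have hu := abs_lt_one_of_Ico hv.1.le hv.2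
  rw [(hasDerivAt_hh hu).deriv]
  have := y_pos hv.1 hv.2
  linarith

lemma hh_pos {u : ℝ} (h0 : 0 ≤ u) (h1 : u < 1) : 0 < hh u := by
  have h := F4 h0 h1
  have hu := abs_lt_one_of_Ico h0 h1
  have h3 := one_sub_sq_pos_of_abs hu
  have h2 : 0 < log 2 := log_pos (by norm_num)
  have : 0 < log 2 * (1 - u ^ 2) := by positivity
  linarith

lemma hh_one : hh 1 = 0 := by
  unfold hh; rw [phi_one]; ring

lemma hh_lt_log_two {u : ℝ} (h0 : 0 < u) (h1 : u < 1) : hh u < log 2 := by
  have := strictAntiOn_hh (left_mem_Ico.mpr (by norm_num)) ⟨h0.le, h1⟩ h0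
  rwa [hh_zero] at this

lemma hh_le_log_two {u : ℝ} (h0 : 0 ≤ u) (h1 : u < 1) : hh u ≤ log 2 := by
  rcases h0.eq_or_lt with rfl | h0'
  · rw [hh_zero]
  · exact (hh_lt_log_two h0' h1).le

lemma y_nonneg {u : ℝ} (h0 : 0 ≤ u) (h1 : u < 1) : 0 ≤ y u := h0.trans (le_y h0 h1)

/-- The tangent inequality for `K` in the variable `u`. -/
lemma tangent_u {u v : ℝ} (hu0 : 0 ≤ u) (hu1 : u < 1) (hv0 : 0 ≤ v) (hv1 : v < 1) :
    kap u - EE u * (hh v - hh u) ≤ kap v := by
  have key : ∀ s ∈ Ico (0:ℝ) 1, HasDerivAt (fun w => kap w + EE u * hh w)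
      (y s * (EE s - EE u)) s := by
    intro s hs
    have hs' := abs_lt_one_of_Ico hs.1 hs.2
    have d := (hasDerivAt_kap hs').add ((hasDerivAt_hh hs').const_mul (EE u))
    refine d.congr_deriv ?_
    rw [kap_deriv_eq hs.1 hs.2]
    ring
  have hc : ContinuousOn (fun w => kap w + EE u * hh w) (Ico 0 1) := fun s hs =>
    (key s hs).continuousAt.continuousWithinAt
  rcases le_total u v with huv | hvu
  · -- increasing on [u,1)
    have hm : MonotoneOn (fun w => kap w + EE u * hh w) (Ico u 1) := by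
      apply monotoneOn_of_deriv_nonneg (convex_Ico u 1)
      · exact hc.mono (Ico_subset_Ico_left hu0)
      · intro s hs
        rw [interior_Ico] at hs
        exact (key s ⟨hu0.trans hs.1.le, hs.2⟩).differentiableAt.differentiableWithinAt
      · intro s hs
        rw [interior_Ico] at hs
        have hs0 : 0 ≤ s := hu0.trans hs.1.le
        rw [(key s ⟨hs0, hs.2⟩).deriv]
        apply mul_nonneg (y_nonneg hs0 hs.2)
        have := monotoneOn_EE ⟨hu0, hu1⟩ ⟨hs0, hs.2⟩ hs.1.le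
        linarith
    have := hm (left_mem_Ico.mpr hu1) ⟨huv, hv1⟩ huv
    simp only at this
    linarith
  · have hm : AntitoneOn (fun w => kap w + EE u * hh w) (Icc 0 u) := by
      apply antitoneOn_of_deriv_nonpos (convex_Icc 0 u)
      · exact hc.mono (fun s hs => ⟨hs.1, lt_of_le_of_lt hs.2 hu1⟩)
      · intro s hs
        rw [interior_Icc] at hs
        exact (key s ⟨hs.1.le, hs.2.trans hu1⟩).differentiableAt.differentiableWithinAt
      · intro s hs
        rw [interior_Icc] at hs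
        have hs1 : s < 1 := hs.2.trans hu1
        rw [(key s ⟨hs.1.le, hs1⟩).deriv]
        have h5 := monotoneOn_EE ⟨hs.1.le, hs1⟩ ⟨hu0, hu1⟩ hs.2.le
        have h6 := y_nonneg hs.1.le hs1
        nlinarith
    have := hm ⟨hv0, hvu⟩ (right_mem_Icc.mpr hu0) hvu
    simp only at this
    linarith

lemma kap_nonneg {u : ℝ} (h0 : 0 ≤ u) (h1 : u < 1) : 0 ≤ kap u := by
  have := tangent_u (u := 0) (v := u) le_rfl (by norm_num) h0 h1
  rw [kap_zero, EE_zero] at this
  simpa using this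

end Vale.Agent.Lib.P322B
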