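import Vale.Agent.Lib.P322B.Basic
import Vale.Agent.Lib.P322.Bridge
import Vale.Agent.Lib.P322.Fourier
import Vale.Agent.Lib.P322.NearCase

/-!
The flow of the conditional entropy along the noise semigroup.
-/

namespace Vale.Agent.Lib.P322B

open Vale.Agent.Lib.P322 Real

variable {n : ℕ}

/-- The number operator on the cube. -/
noncomputable def NN (u : Cube n → ℝ) (z : Cube n) : ℝ :=
  ∑ i, (u z - (u (Function.update z i true) + u (Function.update z i false)) / 2)

lemma krn_eq_factor (ρ : ℝ) (x z : Cube n) (i : Fin n) :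
    krn ρ x z = (1 + ρ * sgn (x i) * sgn (z i)) / 2
      * ∏ j ∈ Finset.univ.erase i, (1 + ρ * sgn (x j) * sgn (z j)) / 2 := by
  unfold krn
  rw [Finset.mul_prod_erase _ (fun j => (1 + ρ * sgn (x j) * sgn (z j)) / 2) (Finset.mem_univ i)]

lemma krn_update (ρ : ℝ) (x z : Cube n) (i : Fin n) (b : Bool) :
    krn ρ x (Function.update z i b) = (1 + ρ * sgn (x i) * sgn b) / 2
      * ∏ j ∈ Finset.univ.erase i, (1 + ρ * sgn (x j) * sgn (z j)) / 2 := by
  rw [krn_eq_factor ρ x _ i]
  simp only [Function.update_self]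
  congr 1
  apply Finset.prod_congr rfl
  intro j hj
  rw [Function.update_of_ne (Finset.ne_of_mem_erase hj)]

lemma hasDerivAt_krn (ρ : ℝ) (x z : Cube n) :
    ∃ d, HasDerivAt (fun r => krn r x z) d ρ ∧
      ρ * d = ∑ i, (krn ρ x z
        - (krn ρ x (Function.update z i true) + krn ρ x (Function.update z i false)) / 2) := by
  refine ⟨∑ i ∈ Finset.univ, (∏ j ∈ Finset.univ.erase i, (1 + ρ * sgn (x j) * sgn (z j)) / 2)
      • (sgn (x i) * sgn (z i) / 2), ?_, ?_⟩
  · unfold krn
    apply HasDerivAt.fun_finsetProd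
    intro i _
    have h1 : HasDerivAt (fun r : ℝ => r) 1 ρ := hasDerivAt_id' ρ
    have h2 := ((h1.mul_const (sgn (x i))).mul_const (sgn (z i))).const_add 1
    have h3 := h2.div_const 2
    convert h3 using 1
    ring
  · rw [Finset.mul_sum]
    apply Finset.sum_congr rfl
    intro i _
    rw [krn_eq_factor ρ x z i, krn_update, krn_update]
    simp only [sgn_true, sgn_false, smul_eq_mul]
    ring

/-- The logarithmic derivative of the noise operator in the noise parameter. -/
lemma hasDerivAt_T (ρ : ℝ) (g : Cube n → ℝ) (z : Cube n) :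
    ∃ d, HasDerivAt (fun r => T r g z) d ρ ∧ ρ * d = NN (T ρ g) z := by
  choose d hd hd2 using fun x => hasDerivAt_krn ρ x z
  refine ⟨∑ x, d x * g x, ?_, ?_⟩
  · unfold T
    apply HasDerivAt.fun_sum
    intro x _
    exact (hd x).mul_const (g x)
  · unfold NN T
    rw [Finset.mul_sum]
    have : ∀ x, ρ * (d x * g x) = (∑ i, (krn ρ x z
        - (krn ρ x (Function.update z i true) + krn ρ x (Function.update z i false)) / 2)) * g x := by
      intro x
      rw [← hd2 x]; ring
    simp only [this, Finset.sum_mul]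
    rw [Finset.sum_comm]
    apply Finset.sum_congr rfl
    intro i _
    rw [← Finset.sum_add_distrib, Finset.sum_div, ← Finset.sum_sub_distrib]
    apply Finset.sum_congr rfl
    intro x _
    ring

lemma continuous_T (g : Cube n → ℝ) (z : Cube n) : Continuous (fun r => T r g z) := by
  rw [continuous_iff_continuousAt]
  intro ρ
  obtain ⟨d, hd, -⟩ := hasDerivAt_T ρ g z
  exact hd.continuousAt

/-- Resampling one coordinate preserves the average. -/
lemma avg_resample {n : ℕ} (i : Fin n) (F : Cube n → ℝ) :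
    avg (fun z => (F (Function.update z i true) + F (Function.update z i false)) / 2) = avg F := by
  cases n with
  | zero => exact i.elim0
  | succ m =>
    rw [avg_split' i F, avg_split' i]
    apply avg_congr
    intro x
    have e : ∀ b b' : Bool, Function.update (ins i b x) i b' = ins i b' x := by
      intro b b'
      funext j
      refine Fin.succAboveCases i ?_ (fun k => ?_) j
      · simp
      · simp
    simp only [e]
    ring

lemma avg_sum {ι : Type*} (s : Finset ι) (F : ι → Cube n → ℝ) :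
    avg (fun z => ∑ i ∈ s, F i z) = ∑ i ∈ s, avg (F i) := by
  unfold avg
  rw [← Finset.sum_div, Finset.sum_comm]

/-- The duality between the number operator and the Dirichlet form. -/
lemma avg_y_NN (u : Cube n → ℝ) : avg (fun z => y (u z) * NN u z) = DD u := by
  unfold DD NN
  simp only [Finset.mul_sum]
  rw [avg_sum]
  apply Finset.sum_congr rfl
  intro i _
  rw [← avg_resample i]
  apply avg_congr
  intro z
  simp only [Function.update_idem]
  unfold jj
  ring

/-- The derivative of the average entropy. -/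
lemma hasDerivAt_avg_hh {ρ : ℝ} (hρ : ρ ≠ 0) (g : Cube n → ℝ) (hg : ∀ z, |T ρ g z| < 1) :
    HasDerivAt (fun r => avg (fun z => hh (T r g z))) (- DD (T ρ g) / ρ) ρ := by
  choose d hd hd2 using fun z => hasDerivAt_T ρ g z
  have h1 : ∀ z, HasDerivAt (fun r => hh (T r g z)) (- y (T ρ g z) * d z) ρ := by
    intro z
    have := (hasDerivAt_hh (hg z)).comp ρ (hd z)
    exact this
  have h2 : HasDerivAt (fun r => ∑ z, hh (T r g z)) (∑ z, - y (T ρ g z) * d z) ρ :=
    HasDerivAt.fun_sum (fun z _ => h1 z)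
  have h3 := h2.div_const (2 ^ n)
  have e : ∀ z, y (T ρ g z) * NN (T ρ g) z = ρ * (y (T ρ g z) * d z) := by
    intro z; rw [← hd2 z]; ring
  have e2 : ∑ z, - y (T ρ g z) * d z = - ∑ z, y (T ρ g z) * d z := by
    rw [← Finset.sum_neg_distrib]
    apply Finset.sum_congr rfl
    intro z _; ring
  have e3 : - DD (T ρ g) / ρ = (∑ z, - y (T ρ g z) * d z) / 2 ^ n := by
    rw [← avg_y_NN]
    unfold avg
    simp only [e]
    rw [← Finset.mul_sum, e2]
    field_simp
  rw [e3]
  exact h3

lemma krn_pos {ρ : ℝ} (hρ : |ρ| < 1) (x z : Cube n) : 0 < krn ρ x z := by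
  unfold krn
  apply Finset.prod_pos
  intro i _
  have h2 : |ρ * sgn (x i) * sgn (z i)| < 1 := by
    rw [abs_mul, abs_mul, abs_sgn, abs_sgn, mul_one, mul_one]; exact hρ
  have h3 := abs_lt.mp h2
  linarith [h3.1]

/-- On a nonconstant Boolean function the noise operator is strictly inside the interval. -/
lemma abs_T_lt {f : Cube n → ℝ} (hf : IsBool f) {x₁ x₂ : Cube n} (h1 : f x₁ = 1) (h2 : f x₂ = -1)
    {ρ : ℝ} (hρ : |ρ| < 1) (z : Cube n) : |T ρ f z| < 1 := by
  have hk := fun x => krn_pos hρ x z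
  have h3 : 0 < ∑ x, krn ρ x z * (1 - f x) := by
    apply Finset.sum_pos'
    · intro x _
      have := hf.abs_le x
      have := abs_le.mp this
      exact mul_nonneg (hk x).le (by linarith [this.2])
    · refine ⟨x₂, Finset.mem_univ _, ?_⟩
      rw [h2]
      exact mul_pos (hk x₂) (by norm_num)
  have h4 : 0 < ∑ x, krn ρ x z * (1 + f x) := by
    apply Finset.sum_pos'
    · intro x _
      have := hf.abs_le x
      have := abs_le.mp this
      exact mul_nonneg (hk x).le (by linarith [this.1])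
    · refine ⟨x₁, Finset.mem_univ _, ?_⟩
      rw [h1]
      exact mul_pos (hk x₁) (by norm_num)
  have e1 : ∑ x, krn ρ x z * (1 - f x) = 1 - T ρ f z := by
    have e : ∑ x, krn ρ x z * (1 - f x) = ∑ x, krn ρ x z - ∑ x, krn ρ x z * f x := by
      rw [← Finset.sum_sub_distrib]
      apply Finset.sum_congr rfl
      intro x _; ring
    rw [e, sum_krn]
    rfl
  have e2 : ∑ x, krn ρ x z * (1 + f x) = 1 + T ρ f z := by
    have e : ∑ x, krn ρ x z * (1 + f x) = ∑ x, krn ρ x z + ∑ x, krn ρ x z * f x := by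
      rw [← Finset.sum_add_distrib]
      apply Finset.sum_congr rfl
      intro x _; ring
    rw [e, sum_krn]
    rfl
  rw [abs_lt]
  constructor <;> linarith

/-- At correlation one the noise operator is the identity. -/
lemma T_one (g : Cube n → ℝ) (z : Cube n) : T 1 g z = g z := by
  induction n with
  | zero => rw [T_zero_dim]
  | succ n ih =>
    rw [eq_ins 0 z, T_ins_mix', ih, ih]
    cases (z 0) <;> simp

/-! ### The comparison argument -/

lemma continuousAt_y {t : ℝ} (ht : |t| < 1) : ContinuousAt y t := (hasDerivAt_y ht).continuousAt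

lemma EE_of_ne {t : ℝ} (ht : t ≠ 0) : EE t = t / ((1 - t ^ 2) * y t) - 1 := by
  simp [EE, ht]

/-- The derivative of `t y(t)`. -/
lemma hasDerivAt_B {t : ℝ} (h0 : 0 < t) (h1 : t < 1) :
    HasDerivAt (fun r => r * y r) ((2 + EE t) * y t) t := by
  have ht : |t| < 1 := by rw [abs_of_pos h0]; exact h1
  have h := (hasDerivAt_id' t).fun_mul (hasDerivAt_y ht)
  have hy := y_pos h0 h1
  have h3 : 0 < 1 - t ^ 2 := one_sub_sq_pos_of_abs ht
  have e : (2 + EE t) * y t = 1 * y t + t * (1 / (1 - t ^ 2)) := by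
    rw [EE_of_ne h0.ne']
    field_simp
    ring
  rw [e]
  exact h

/-- The differential comparison behind the refined entropy bound. -/
theorem flow_comparison {H D Jb : ℝ → ℝ} {a w hm : ℝ} (ha : 0 < a)
    (hHc : ContinuousOn H (Set.Icc a 1)) (hH1 : H 1 = 0)
    (hHd : ∀ r ∈ Set.Ioo a 1, HasDerivAt H (- D r / r) r)
    (hD : ∀ r ∈ Set.Ioo a 1, 2 * hm + PiR r * w - (2 + EE r) * H r ≤ D r)
    (he : 0 ≤ hm - log 2 * w)
    (hJc : ContinuousOn Jb (Set.Icc a 1)) (hJ1 : Jb 1 = 0)
    (hJd : ∀ r ∈ Set.Ioo a 1, ∃ d, HasDerivAt Jb d r ∧ - (1 / (r ^ 2 * y r)) ≤ d) :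
    ∀ r ∈ Set.Ico a 1, w * hh r + 2 * (hm - log 2 * w) * (r * y r) * Jb r ≤ H r := by
  intro r hr
  set e := hm - log 2 * w with he_def
  have hr1 : r < 1 := hr.2
  have hr0 : 0 < r := lt_of_lt_of_le ha hr.1
  -- the functions
  set N : ℝ → ℝ := fun t => H t - w * hh t with hN
  set Psi : ℝ → ℝ := fun t => N t / (t * y t) - 2 * e * Jb t with hPsi
  have habs : ∀ t : ℝ, 0 < t → t < 1 → |t| < 1 := fun t h0 h1 => by rw [abs_of_pos h0]; exact h1
  have hBpos : ∀ t : ℝ, 0 < t → t < 1 → 0 < t * y t := fun t h0 h1 => mul_pos h0 (y_pos h0 h1)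
  -- derivative of `Psi`
  have hderiv : ∀ t ∈ Set.Ioo a 1, ∃ d, HasDerivAt Psi d t ∧ d ≤ 0 := by
    intro t ht
    have h0 : 0 < t := ha.trans ht.1
    have h1 : t < 1 := ht.2
    have hy := y_pos h0 h1
    obtain ⟨dJ, hdJ, hdJ2⟩ := hJd t ht
    have hN' : HasDerivAt N (- D t / t - w * (- y t)) t :=
      (hHd t ht).sub ((hasDerivAt_hh (habs t h0 h1)).const_mul w)
    have hB' := hasDerivAt_B h0 h1
    have hq := hN'.div hB' (hBpos t h0 h1).ne'
    have hP := hq.sub (hdJ.const_mul (2 * e))
    refine ⟨_, hP, ?_⟩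
    have hD2 := hD t ht
    -- the key computation
    have e1 : ((- D t / t - w * (- y t)) * (t * y t) - N t * ((2 + EE t) * y t)) / (t * y t) ^ 2
        = (- D t + w * (t * y t) - N t * (2 + EE t)) / (t ^ 2 * y t) := by
      field_simp
      ring
    rw [e1]
    have e2 : - D t + w * (t * y t) - N t * (2 + EE t) ≤ - (2 * e) := by
      have : PiR t = t * y t - 2 * phi t + (log 2 - phi t) * EE t := by
        unfold PiR kap hh; ring
      rw [this] at hD2
      simp only [hN, hh]
      rw [he_def]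
      nlinarith
    have hpos : 0 < t ^ 2 * y t := by positivity
    have e3 : (- D t + w * (t * y t) - N t * (2 + EE t)) / (t ^ 2 * y t)
        ≤ - (2 * e) / (t ^ 2 * y t) := div_le_div_of_nonneg_right e2 hpos.le
    have e4 : - (2 * e) * dJ ≤ 2 * e * (1 / (t ^ 2 * y t)) := by
      have : 0 ≤ 2 * e := by positivity
      nlinarith
    have e5 : - (2 * e) / (t ^ 2 * y t) = - (2 * e * (1 / (t ^ 2 * y t))) := by ring
    linarith
  -- continuity of `N` and of the lower bound
  have hNc : ContinuousOn N (Set.Icc a 1) :=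
    hHc.sub (continuousOn_const.mul continuous_hh.continuousOn)
  have hN1 : N 1 = 0 := by
    simp only [hN, hH1, hh, phi_one]; ring
  -- antitone
  have hanti : ∀ t ∈ Set.Ioo r 1, Psi t ≤ Psi r := by
    intro t ht
    have hA : AntitoneOn Psi (Set.Icc r t) := by
      apply antitoneOn_of_deriv_nonpos (convex_Icc r t)
      · intro s hs
        have hs0 : 0 < s := lt_of_lt_of_le hr0 hs.1
        have hs1 : s < 1 := lt_of_le_of_lt hs.2 ht.2
        apply ContinuousWithinAt.sub
        · apply ContinuousWithinAt.div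
          · have := hNc s ⟨hr.1.trans hs.1, hs1.le⟩
            exact this.mono (fun v hv => ⟨hr.1.trans hv.1, hv.2.trans ht.2.le⟩)
          · exact (continuousAt_id.mul (continuousAt_y (habs s hs0 hs1))).continuousWithinAt
          · exact (hBpos s hs0 hs1).ne'
        · have := hJc s ⟨hr.1.trans hs.1, hs1.le⟩
          exact continuousWithinAt_const.mul
            (this.mono (fun v hv => ⟨hr.1.trans hv.1, hv.2.trans ht.2.le⟩))
      · intro s hs
        rw [interior_Icc] at hs
        obtain ⟨d, hd, -⟩ := hderiv s ⟨lt_of_le_of_lt hr.1 hs.1, hs.2.trans ht.2⟩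
        exact hd.differentiableAt.differentiableWithinAt
      · intro s hs
        rw [interior_Icc] at hs
        obtain ⟨d, hd, hd2⟩ := hderiv s ⟨lt_of_le_of_lt hr.1 hs.1, hs.2.trans ht.2⟩
        rw [hd.deriv]; exact hd2
    exact hA ⟨le_refl _, ht.1.le⟩ ⟨ht.1.le, le_refl _⟩ ht.1.le
  -- limit at one
  set F : ℝ → ℝ := fun t => - |N t| / a ^ 2 - 2 * e * Jb t with hF
  have hFc : ContinuousOn F (Set.Icc a 1) :=
    (hNc.abs.neg.div_const _).sub (continuousOn_const.mul hJc)
  have hF1 : F 1 = 0 := by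
    simp [hF, hN1, hJ1]
  have hFle : ∀ t ∈ Set.Ioo r 1, F t ≤ Psi r := by
    intro t ht
    refine le_trans ?_ (hanti t ht)
    have h0 : 0 < t := hr0.trans ht.1
    have h1 := ht.2
    simp only [hF, hPsi]
    have hB : a ^ 2 ≤ t * y t := by
      have h2 : t ≤ y t := le_y h0.le h1
      have h3 : a ≤ t := hr.1.trans ht.1.le
      nlinarith
    have h4 : - |N t| / a ^ 2 ≤ N t / (t * y t) := by
      have h5 : - |N t| / a ^ 2 ≤ - |N t| / (t * y t) := by
        have : |N t| / (t * y t) ≤ |N t| / a ^ 2 :=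
          div_le_div_of_nonneg_left (abs_nonneg _) (by positivity) hB
        rw [neg_div, neg_div]
        linarith
      have h6 : - |N t| / (t * y t) ≤ N t / (t * y t) :=
        div_le_div_of_nonneg_right (neg_abs_le _) (hBpos t h0 h1).le
      exact h5.trans h6
    linarith
  have hlim : Filter.Tendsto F (nhdsWithin 1 (Set.Iio 1)) (nhds (F 1)) := by
    have hcw := hFc 1 ⟨by linarith [hr.1], le_refl _⟩
    have hcw2 : ContinuousWithinAt F (Set.Ioo r 1) 1 :=
      hcw.mono (fun v hv => ⟨hr.1.trans hv.1.le, hv.2.le⟩)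
    have := hcw2.tendsto
    rwa [nhdsWithin_Ioo_eq_nhdsLT hr1] at this
  have hge : F 1 ≤ Psi r := by
    apply le_of_tendsto hlim
    filter_upwards [Ioo_mem_nhdsLT hr1] with t ht
    exact hFle t ht
  rw [hF1] at hge
  have hB := hBpos r hr0 hr1
  simp only [hPsi] at hge
  have h7 : 2 * e * Jb r ≤ N r / (r * y r) := by linarith
  have h8 : 2 * e * Jb r * (r * y r) ≤ N r := by
    rwa [le_div_iff₀ hB] at h7
  simp only [hN] at h8
  nlinarith

/-- The tangent form of the Bellman inequality, for a weight function `wf` of the mean. -/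
def TangentIneq (wf : ℝ → ℝ) : Prop :=
  ∀ (n : ℕ) (u : Cube n → ℝ), (∀ x, |u x| < 1) → ∀ τ : ℝ, 0 < τ → τ < 1 →
    2 * hh (avg u) + PiR τ * wf (avg u) - (2 + EE τ) * avg (fun x => hh (u x)) ≤ DD u

/-- `hh` vanishes at the two signs. -/
lemma hh_of_bool {t : ℝ} (h : t = 1 ∨ t = -1) : hh t = 0 := by
  rcases h with h | h <;> rw [h] <;> simp [hh, phi_one, phi_neg_one]

/-- The refined bound on the average entropy along the flow. -/
theorem flow_cube {wf : ℝ → ℝ} (hT : TangentIneq wf) {f : Cube n → ℝ} (hf : IsBool f)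
    {x₁ x₂ : Cube n} (h1 : f x₁ = 1) (h2 : f x₂ = -1)
    (he : 0 ≤ hh (avg f) - log 2 * wf (avg f)) {a : ℝ} (ha : 0 < a) {Jb : ℝ → ℝ}
    (hJc : ContinuousOn Jb (Set.Icc a 1)) (hJ1 : Jb 1 = 0)
    (hJd : ∀ r ∈ Set.Ioo a 1, ∃ d, HasDerivAt Jb d r ∧ - (1 / (r ^ 2 * y r)) ≤ d) :
    ∀ r ∈ Set.Ico a 1, wf (avg f) * hh r
        + 2 * (hh (avg f) - log 2 * wf (avg f)) * (r * y r) * Jb r
      ≤ avg (fun z => hh (T r f z)) := by
  have hab : ∀ r ∈ Set.Ioo a 1, |r| < 1 := fun r hr => by
    rw [abs_of_pos (ha.trans hr.1)]; exact hr.2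
  apply flow_comparison (D := fun r => DD (T r f)) ha
  · apply Continuous.continuousOn
    unfold avg
    apply Continuous.div_const
    apply continuous_finsetSum
    intro z _
    exact continuous_hh.comp (continuous_T f z)
  · unfold avg
    have : ∀ z, hh (T 1 f z) = 0 := fun z => by rw [T_one]; exact hh_of_bool (hf z)
    simp [this]
  · intro r hr
    exact hasDerivAt_avg_hh (ha.trans hr.1).ne' f (abs_T_lt hf h1 h2 (hab r hr))
  · intro r hr
    have := hT n (T r f) (abs_T_lt hf h1 h2 (hab r hr)) r (ha.trans hr.1) hr.2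
    rwa [avg_T] at this
  · exact he
  · exact hJc
  · exact hJ1
  · exact hJd

end Vale.Agent.Lib.P322B
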