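import Vale.Agent.Lib.P322B.GridBox
import Vale.Agent.Lib.P322B.GridRun

/-!
The pieces of the run cover the whole range of the check.
-/

namespace Vale.Agent.Lib.P322B.Grid

/-- The inequality on the whole range of the check. -/
theorem grid_all : Sound 0 18446744073709551616 281474976710656 18446744073709551616 :=
  (Sound.split_W 9223512774343131136 (Sound.split_W 4611897124659920896 (Sound.split_W 2306089299818315776 (Sound.of_chk p0) (Sound.split_t 9223372036854775808 (Sound.of_chk p1) (Sound.split_t 13835058055282163712 (Sound.of_chk p2) (Sound.of_chk p3)))) (Sound.split_t 9223372036854775808 (Sound.split_t 4611686018427387904 (Sound.of_chk p4) (Sound.split_t 6917529027641081856 (Sound.of_chk p5) (Sound.split_W 6917704949501526016 (Sound.split_t 8070450532247928832 (Sound.of_chk p6) (Sound.of_chk p7)) (Sound.split_t 8070450532247928832 (Sound.of_chk p8) (Sound.split_W 8070608861922328576 (Sound.of_chk p9) (Sound.of_chk p10)))))) (Sound.split_t 13835058055282163712 (Sound.split_t 11529215046068469760 (Sound.split_W 6917704949501526016 (Sound.split_t 10376293541461622784 (Sound.split_W 5764801037080723456 (Sound.of_chk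 p11) (Sound.of_chk p12)) (Sound.of_chk p13)) (Sound.of_chk p14)) (Sound.of_chk p15)) (Sound.of_chk p16)))) (Sound.split_t 9223372036854775808 (Sound.split_t 4611686018427387904 (Sound.split_t 2305843009213693952 (Sound.split_W 13835128424026341376 (Sound.split_t 1152921504606846976 (Sound.split_W 11529320599184736256 (Sound.of_chk p17) (Sound.of_chk p18)) (Sound.split_W 11529320599184736256 (Sound.of_chk p19) (Sound.of_chk p20))) (Sound.split_t 1152921504606846976 (Sound.split_W 16140936248867946496 (Sound.split_t 576460752303423488 (Sound.of_chk p21) (Sound.of_chk p22)) (Sound.of_chk p23)) (Sound.split_W 16140936248867946496 (Sound.split_t 1729382256910270464 (Sound.of_chk p24) (Sound.of_chk p25)) (Sound.of_chk p26)))) (Sound.split_W 13835128424026341376 (Sound.split_t 3458764513820540928 (Sound.split_W 11529320599184736256 (Sound.of_chk p27) (Sound.of_chk p28)) (Sound.split_W 11529320599184736256 (Sound.of_chk p29) (Sound.of_chk p30))) (Sound.split_t 3458764513820540928 (Sound.split_W 16140936248867946496 (Sound.of_chk p31) (Sound.of_chk p32)) (Sound.split_W 16140936248867946496 (Sound.of_chk p33) (Sound.of_chk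 p34))))) (Sound.split_t 6917529027641081856 (Sound.split_W 13835128424026341376 (Sound.split_t 5764607523034234880 (Sound.split_W 11529320599184736256 (Sound.of_chk p35) (Sound.of_chk p36)) (Sound.split_W 11529320599184736256 (Sound.of_chk p37) (Sound.of_chk p38))) (Sound.split_t 5764607523034234880 (Sound.split_W 16140936248867946496 (Sound.of_chk p39) (Sound.of_chk p40)) (Sound.split_W 16140936248867946496 (Sound.of_chk p41) (Sound.of_chk p42)))) (Sound.split_W 13835128424026341376 (Sound.split_t 8070450532247928832 (Sound.split_W 11529320599184736256 (Sound.split_t 7493989779944505344 (Sound.of_chk p43) (Sound.of_chk p44)) (Sound.of_chk p45)) (Sound.split_W 11529320599184736256 (Sound.split_t 8646911284551352320 (Sound.split_W 10376416686763933696 (Sound.of_chk p46) (Sound.of_chk p47)) (Sound.of_chk p48)) (Sound.of_chk p49))) (Sound.split_t 8070450532247928832 (Sound.of_chk p50) (Sound.of_chk p51))))) (Sound.split_t 13835058055282163712 (Sound.split_t 11529215046068469760 (Sound.split_W 13835128424026341376 (Sound.split_t 10376293541461622784 (Sound.of_chk p52) (Sound.of_chk p53)) (Sound.split_t 10376293541461622784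 (Sound.of_chk p54) (Sound.of_chk p55))) (Sound.split_W 13835128424026341376 (Sound.of_chk p56) (Sound.split_t 12682136550675316736 (Sound.of_chk p57) (Sound.of_chk p58)))) (Sound.split_t 16140901064495857664 (Sound.split_W 13835128424026341376 (Sound.of_chk p59) (Sound.split_t 14987979559889010688 (Sound.of_chk p60) (Sound.of_chk p61))) (Sound.split_W 13835128424026341376 (Sound.of_chk p62) (Sound.split_t 17293822569102704640 (Sound.of_chk p63) (Sound.split_W 16140936248867946496 (Sound.of_chk p64) (Sound.split_t 17870283321406128128 (Sound.of_chk p65) (Sound.of_chk p66)))))))))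

end Vale.Agent.Lib.P322B.Grid
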