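import Vale.Agent.Lib.P322B.GridDefs
import Vale.Agent.Lib.P322B.Basic

/-!
Soundness of the fixed point arithmetic and of the logarithm bounds.
-/

namespace Vale.Agent.Lib.P322B.Grid

open Vale.Agent.Lib.P322B Real

lemma SS_eq : SS = 2 ^ 64 := by norm_num [SS]

lemma SS_posR : (0:ℝ) < (SS:ℝ) := by
  have : 0 < SS := by norm_num [SS]
  exact_mod_cast this

/-- `n / SS` is an upper bound for `X`. -/
def Up (n : ℕ) (X : ℝ) : Prop := X ≤ (n:ℝ) / (SS:ℝ)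

/-- `n / SS` is a lower bound for `X`. -/
def Lo (n : ℕ) (X : ℝ) : Prop := (n:ℝ) / (SS:ℝ) ≤ X

lemma Up.congr {n : ℕ} {X Y : ℝ} (h : Up n X) (e : Y = X) : Up n Y := by rw [e]; exact h
lemma Lo.congr {n : ℕ} {X Y : ℝ} (h : Lo n X) (e : Y = X) : Lo n Y := by rw [e]; exact h

lemma up_mono {n : ℕ} {X Y : ℝ} (h : Up n X) (e : Y ≤ X) : Up n Y := e.trans h
lemma lo_mono {n : ℕ} {X Y : ℝ} (h : Lo n X) (e : X ≤ Y) : Lo n Y := le_trans h e

lemma up_one : Up SS 1 := by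
  unfold Up; rw [div_self SS_posR.ne']

lemma lo_one : Lo SS 1 := by
  unfold Lo; rw [div_self SS_posR.ne']

lemma lo_zero' {X : ℝ} (h : 0 ≤ X) : Lo 0 X := by
  unfold Lo; simpa using h

lemma lo_nonneg {n : ℕ} {X : ℝ} (h : Lo n X) : 0 ≤ X := by
  have h1 : 0 ≤ (n:ℝ) / (SS:ℝ) := by
    have := SS_posR; positivity
  exact h1.trans h

lemma up_add {a b : ℕ} {X Y : ℝ} (h1 : Up a X) (h2 : Up b Y) : Up (Nat.add a b) (X + Y) := by
  unfold Up at *
  have e : ((Nat.add a b : ℕ) : ℝ) = (a:ℝ) + (b:ℝ) := by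
    show ((a + b : ℕ) : ℝ) = _
    push_cast; ring
  rw [e, add_div]
  linarith

lemma lo_add {a b : ℕ} {X Y : ℝ} (h1 : Lo a X) (h2 : Lo b Y) : Lo (Nat.add a b) (X + Y) := by
  unfold Lo at *
  have e : ((Nat.add a b : ℕ) : ℝ) = (a:ℝ) + (b:ℝ) := by
    show ((a + b : ℕ) : ℝ) = _
    push_cast; ring
  rw [e, add_div]
  linarith

lemma cast_sub_ge (a b : ℕ) : (a:ℝ) - (b:ℝ) ≤ ((Nat.sub a b : ℕ) : ℝ) := by
  show (a:ℝ) - (b:ℝ) ≤ ((a - b : ℕ) : ℝ)
  rcases le_total b a with h | h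
  · rw [Nat.cast_sub h]
  · have h' : (a:ℝ) ≤ (b:ℝ) := by exact_mod_cast h
    rw [Nat.sub_eq_zero_of_le h]
    simp only [Nat.cast_zero]
    linarith

lemma cast_sub_eq {a b : ℕ} (h : b ≤ a) : ((Nat.sub a b : ℕ) : ℝ) = (a:ℝ) - (b:ℝ) := by
  show ((a - b : ℕ) : ℝ) = _
  rw [Nat.cast_sub h]

lemma up_sub {a b : ℕ} {X Y : ℝ} (h1 : Up a X) (h2 : Lo b Y) : Up (Nat.sub a b) (X - Y) := by
  unfold Up Lo at *
  have hS := SS_posR
  have h3 := cast_sub_ge a b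
  have h4 : ((a:ℝ) - (b:ℝ)) / (SS:ℝ) ≤ ((Nat.sub a b : ℕ) : ℝ) / (SS:ℝ) :=
    div_le_div_of_nonneg_right h3 hS.le
  rw [sub_div] at h4
  linarith

lemma lo_sub {a b : ℕ} {X Y : ℝ} (h1 : Lo a X) (h2 : Up b Y) (h : Y ≤ X) :
    Lo (Nat.sub a b) (X - Y) := by
  unfold Up Lo at *
  have hS := SS_posR
  rcases le_total b a with hab | hab
  · rw [cast_sub_eq hab, sub_div]
    linarith
  · have : Nat.sub a b = 0 := Nat.sub_eq_zero_of_le hab
    rw [this]
    simp only [Nat.cast_zero, zero_div]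
    linarith

lemma lo_sub' {a b : ℕ} {X Y : ℝ} (h1 : Lo a X) (h2 : Up b Y) (hab : b ≤ a) :
    Lo (Nat.sub a b) (X - Y) := by
  unfold Up Lo at *
  rw [cast_sub_eq hab, sub_div]
  linarith

lemma cast_div_le' (n d : ℕ) : ((Nat.div n d : ℕ) : ℝ) ≤ (n:ℝ) / (d:ℝ) := Nat.cast_div_le

lemma le_cast_div_succ (n : ℕ) {d : ℕ} (hd : 0 < d) :
    (n:ℝ) / (d:ℝ) ≤ ((Nat.div n d : ℕ) : ℝ) + 1 := by
  have h : n < d * (n / d + 1) := Nat.lt_mul_div_succ n hd
  have hd' : (0:ℝ) < (d:ℝ) := by exact_mod_cast hd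
  rw [div_le_iff₀ hd']
  have h2 : (n:ℝ) ≤ (d:ℝ) * (((n / d : ℕ) : ℝ) + 1) := by
    have : ((n:ℕ):ℝ) ≤ ((d * (n / d + 1) : ℕ) : ℝ) := by exact_mod_cast h.le
    push_cast at this
    exact this
  show (n:ℝ) ≤ (((n / d : ℕ) : ℝ) + 1) * (d:ℝ)
  linarith

lemma sr_eq (n : ℕ) : Nat.shiftRight n 64 = n / SS := by
  show n >>> 64 = _
  rw [Nat.shiftRight_eq_div_pow, SS_eq]

lemma sl_eq (n : ℕ) : Nat.shiftLeft n 64 = n * SS := by
  show n <<< 64 = _
  rw [Nat.shiftLeft_eq, SS_eq]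

lemma mulU_eq (a b : ℕ) : mulU a b = a * b / SS + 1 := by
  show Nat.add (Nat.shiftRight (Nat.mul a b) 64) 1 = _
  rw [sr_eq]
  rfl

lemma mulD_eq (a b : ℕ) : mulD a b = a * b / SS := by
  show Nat.shiftRight (Nat.mul a b) 64 = _
  rw [sr_eq]
  rfl

lemma divU_eq (a b : ℕ) : divU a b = a * SS / b + 1 := by
  show Nat.add (Nat.div (Nat.shiftLeft a 64) b) 1 = _
  rw [sl_eq]
  rfl

lemma divD_eq (a b : ℕ) : divD a b = a * SS / b := by
  show Nat.div (Nat.shiftLeft a 64) b = _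
  rw [sl_eq]
  rfl

lemma up_mulU {a b : ℕ} {X Y : ℝ} (h1 : Up a X) (h2 : Up b Y) (hX : 0 ≤ X) (hY : 0 ≤ Y) :
    Up (mulU a b) (X * Y) := by
  unfold Up at *
  have hS := SS_posR
  have hSn : 0 < SS := by norm_num [SS]
  have h3 : X * Y ≤ (a:ℝ) / SS * ((b:ℝ) / SS) := mul_le_mul h1 h2 hY (hX.trans h1)
  have h4 := le_cast_div_succ (a * b) hSn
  rw [mulU_eq]
  push_cast at h4 ⊢
  have h5 : (a:ℝ) / SS * ((b:ℝ) / SS) = ((a:ℝ) * (b:ℝ) / SS) / SS := by
    field_simp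
  rw [h5] at h3
  have h6 : ((a:ℝ) * (b:ℝ) / SS) / SS ≤ (((a * b / SS : ℕ) : ℝ) + 1) / SS :=
    div_le_div_of_nonneg_right h4 hS.le
  exact h3.trans h6

lemma lo_mulD {a b : ℕ} {X Y : ℝ} (h1 : Lo a X) (h2 : Lo b Y) : Lo (mulD a b) (X * Y) := by
  unfold Lo at *
  have hS := SS_posR
  have h0a : 0 ≤ (a:ℝ) / SS := by positivity
  have h0b : 0 ≤ (b:ℝ) / SS := by positivity
  have h3 : (a:ℝ) / SS * ((b:ℝ) / SS) ≤ X * Y := mul_le_mul h1 h2 h0b (h0a.trans h1)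
  have h4 := cast_div_le' (a * b) SS
  rw [mulD_eq]
  have h5 : (a:ℝ) / SS * ((b:ℝ) / SS) = ((a:ℝ) * (b:ℝ) / SS) / SS := by
    field_simp
  rw [h5] at h3
  push_cast at h4
  have h6 : ((a * b / SS : ℕ) : ℝ) / SS ≤ ((a:ℝ) * (b:ℝ) / SS) / SS :=
    div_le_div_of_nonneg_right h4 hS.le
  exact h6.trans h3

lemma mulU_pos (a b : ℕ) : 1 ≤ mulU a b := by
  rw [mulU_eq]; exact Nat.le_add_left 1 _

lemma up_divU {a b : ℕ} {X Y : ℝ} (h1 : Up a X) (h2 : Lo b Y) (hb : 1 ≤ b) (hX : 0 ≤ X) :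
    Up (divU a b) (X / Y) := by
  unfold Up Lo at *
  have hS := SS_posR
  have hb' : (0:ℝ) < (b:ℝ) := by exact_mod_cast hb
  have hb0 : 0 < (b:ℝ) / SS := by positivity
  have hY : 0 < Y := lt_of_lt_of_le hb0 h2
  have h3 : X / Y ≤ ((a:ℝ) / SS) / ((b:ℝ) / SS) :=
    div_le_div₀ (hX.trans h1) h1 hb0 h2
  have h4 := le_cast_div_succ (a * SS) (d := b) hb
  rw [divU_eq]
  push_cast at h4 ⊢
  have h5 : ((a:ℝ) / SS) / ((b:ℝ) / SS) = ((a:ℝ) * SS / (b:ℝ)) / SS := by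
    field_simp
  rw [h5] at h3
  have h6 : ((a:ℝ) * SS / (b:ℝ)) / SS ≤ (((a * SS / b : ℕ) : ℝ) + 1) / SS :=
    div_le_div_of_nonneg_right h4 hS.le
  exact h3.trans h6

lemma lo_divD {a b : ℕ} {X Y : ℝ} (h1 : Lo a X) (h2 : Up b Y) (hY : 0 < Y) :
    Lo (divD a b) (X / Y) := by
  unfold Up Lo at *
  have hS := SS_posR
  have hb0 : 0 < (b:ℝ) / SS := lt_of_lt_of_le hY h2
  have hb' : (0:ℝ) < (b:ℝ) := by
    by_contra hc
    have : (b:ℝ) = 0 := le_antisymm (not_lt.mp hc) (Nat.cast_nonneg b)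
    rw [this] at hb0
    simp at hb0
  have h0a : 0 ≤ (a:ℝ) / SS := by positivity
  have h3 : ((a:ℝ) / SS) / ((b:ℝ) / SS) ≤ X / Y :=
    div_le_div₀ (h0a.trans h1) h1 hY h2
  have h4 := cast_div_le' (a * SS) b
  rw [divD_eq]
  push_cast at h4
  have h5 : ((a:ℝ) / SS) / ((b:ℝ) / SS) = ((a:ℝ) * SS / (b:ℝ)) / SS := by
    field_simp
  rw [h5] at h3
  have h6 : ((a * SS / b : ℕ) : ℝ) / SS ≤ ((a:ℝ) * SS / (b:ℝ)) / SS :=
    div_le_div_of_nonneg_right h4 hS.le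
  exact h6.trans h3

/-- Division of a lower bound by a positive integer. -/
lemma lo_div {a q : ℕ} {X : ℝ} (h1 : Lo a X) (hq : 0 < q) :
    Lo (Nat.div a q) (X / (q:ℝ)) := by
  unfold Lo at *
  have hS := SS_posR
  have hq' : (0:ℝ) < (q:ℝ) := by exact_mod_cast hq
  have h2 := cast_div_le' a q
  have h3 : ((Nat.div a q : ℕ) : ℝ) / SS ≤ ((a:ℝ) / (q:ℝ)) / SS :=
    div_le_div_of_nonneg_right h2 hS.le
  have h4 : ((a:ℝ) / (q:ℝ)) / SS = ((a:ℝ) / SS) / (q:ℝ) := by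
    field_simp
  rw [h4] at h3
  exact h3.trans (div_le_div_of_nonneg_right h1 hq'.le)

/-- Division of an upper bound by a positive integer. -/
lemma up_div {a q : ℕ} {X : ℝ} (h1 : Up a X) (hq : 0 < q) :
    Up (Nat.add (Nat.div a q) 1) (X / (q:ℝ)) := by
  unfold Up at *
  have hS := SS_posR
  have hq' : (0:ℝ) < (q:ℝ) := by exact_mod_cast hq
  have h2 := le_cast_div_succ a hq
  have e : ((Nat.add (Nat.div a q) 1 : ℕ) : ℝ) = ((Nat.div a q : ℕ) : ℝ) + 1 := by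
    show (((Nat.div a q) + 1 : ℕ) : ℝ) = _
    push_cast; ring
  rw [e]
  have h3 : ((a:ℝ) / (q:ℝ)) / SS ≤ (((Nat.div a q : ℕ) : ℝ) + 1) / SS :=
    div_le_div_of_nonneg_right h2 hS.le
  have h4 : ((a:ℝ) / (q:ℝ)) / SS = ((a:ℝ) / SS) / (q:ℝ) := by
    field_simp
  rw [h4] at h3
  exact (div_le_div_of_nonneg_right h1 hq'.le).trans h3

lemma up_nmul {a p : ℕ} {X : ℝ} (h1 : Up a X) : Up (Nat.mul p a) ((p:ℝ) * X) := by
  unfold Up at *
  have hS := SS_posR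
  have e : ((Nat.mul p a : ℕ) : ℝ) = (p:ℝ) * (a:ℝ) := by
    show ((p * a : ℕ) : ℝ) = _
    push_cast; ring
  rw [e, mul_div_assoc]
  exact mul_le_mul_of_nonneg_left h1 (Nat.cast_nonneg p)

lemma lo_nmul {a p : ℕ} {X : ℝ} (h1 : Lo a X) : Lo (Nat.mul p a) ((p:ℝ) * X) := by
  unfold Lo at *
  have hS := SS_posR
  have e : ((Nat.mul p a : ℕ) : ℝ) = (p:ℝ) * (a:ℝ) := by
    show ((p * a : ℕ) : ℝ) = _
    push_cast; ring
  rw [e, mul_div_assoc]
  exact mul_le_mul_of_nonneg_left h1 (Nat.cast_nonneg p)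

/-! ### Elementary bounds for the logarithm -/

lemma log_one_add_le {z : ℝ} (hz : 0 ≤ z) : log (1 + z) ≤ z - z ^ 2 / 2 + z ^ 3 / 3 := by
  have key : ∀ v ∈ Set.Ici (0:ℝ), HasDerivAt (fun v => v - v ^ 2 / 2 + v ^ 3 / 3 - log (1 + v))
      (1 - v + v ^ 2 - 1 / (1 + v)) v := by
    intro v hv
    have hv' : (0:ℝ) ≤ v := hv
    have h1 : 0 < 1 + v := by linarith
    have d2 : HasDerivAt (fun w : ℝ => w ^ 2) (2 * v) v := by simpa using hasDerivAt_pow 2 v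
    have d3 : HasDerivAt (fun w : ℝ => w ^ 3) (3 * v ^ 2) v := by simpa using hasDerivAt_pow 3 v
    have d4 : HasDerivAt (fun w : ℝ => 1 + w) 1 v := by
      simpa using (hasDerivAt_id' v).const_add 1
    have d5 := d4.log h1.ne'
    have d6 := (((hasDerivAt_id' v).sub (d2.div_const 2)).add (d3.div_const 3)).sub d5
    refine d6.congr_deriv ?_
    field_simp
  have hm : MonotoneOn (fun v => v - v ^ 2 / 2 + v ^ 3 / 3 - log (1 + v)) (Set.Ici 0) := by
    apply monotoneOn_of_deriv_nonneg (convex_Ici 0)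
    · intro v hv
      exact (key v hv).continuousAt.continuousWithinAt
    · intro v hv
      rw [interior_Ici] at hv
      exact (key v (Set.mem_Ici.mpr (le_of_lt hv))).differentiableAt.differentiableWithinAt
    · intro v hv
      rw [interior_Ici] at hv
      have hv' : (0:ℝ) < v := hv
      rw [(key v (Set.mem_Ici.mpr hv'.le)).deriv]
      have h1 : 0 < 1 + v := by linarith
      have e : 1 - v + v ^ 2 - 1 / (1 + v) = v ^ 3 / (1 + v) := by
        field_simp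
        ring
      rw [e]
      positivity
  have := hm (Set.mem_Ici.mpr le_rfl) (Set.mem_Ici.mpr hz) hz
  simp only [add_zero, log_one] at this
  norm_num at this
  linarith

lemma le_log_one_add {z : ℝ} (hz : 0 ≤ z) : z - z ^ 2 / 2 ≤ log (1 + z) := by
  have key : ∀ v ∈ Set.Ici (0:ℝ), HasDerivAt (fun v => log (1 + v) - (v - v ^ 2 / 2))
      (1 / (1 + v) - (1 - v)) v := by
    intro v hv
    have hv' : (0:ℝ) ≤ v := hv
    have h1 : 0 < 1 + v := by linarith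
    have d2 : HasDerivAt (fun w : ℝ => w ^ 2) (2 * v) v := by simpa using hasDerivAt_pow 2 v
    have d4 : HasDerivAt (fun w : ℝ => 1 + w) 1 v := by
      simpa using (hasDerivAt_id' v).const_add 1
    have d5 := d4.log h1.ne'
    have d6 := d5.sub ((hasDerivAt_id' v).sub (d2.div_const 2))
    refine d6.congr_deriv ?_
    ring
  have hm : MonotoneOn (fun v => log (1 + v) - (v - v ^ 2 / 2)) (Set.Ici 0) := by
    apply monotoneOn_of_deriv_nonneg (convex_Ici 0)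
    · intro v hv
      exact (key v hv).continuousAt.continuousWithinAt
    · intro v hv
      rw [interior_Ici] at hv
      exact (key v (Set.mem_Ici.mpr (le_of_lt hv))).differentiableAt.differentiableWithinAt
    · intro v hv
      rw [interior_Ici] at hv
      have hv' : (0:ℝ) < v := hv
      rw [(key v (Set.mem_Ici.mpr hv'.le)).deriv]
      have h1 : 0 < 1 + v := by linarith
      have e : 1 / (1 + v) - (1 - v) = v ^ 2 / (1 + v) := by
        field_simp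
        ring
      rw [e]
      positivity
  have := hm (Set.mem_Ici.mpr le_rfl) (Set.mem_Ici.mpr hz) hz
  simp only [add_zero, log_one] at this
  norm_num at this
  linarith

lemma y_ge3 {u : ℝ} (h0 : 0 ≤ u) (h1 : u < 1) : u + u ^ 3 / 3 ≤ y u := by
  have hu : Set.Ico (0:ℝ) 1 ⊆ {v | |v| < 1} := fun v hv => by
    simp only [Set.mem_ofPred_eq]
    rw [abs_lt]; constructor <;> linarith [hv.1, hv.2]
  have key : ∀ v ∈ Set.Ico (0:ℝ) 1, HasDerivAt (fun v => y v - (v + v ^ 3 / 3))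
      (1 / (1 - v ^ 2) - (1 + v ^ 2)) v := by
    intro v hv
    have d3 : HasDerivAt (fun w : ℝ => w ^ 3) (3 * v ^ 2) v := by simpa using hasDerivAt_pow 3 v
    have d := (hasDerivAt_y (hu hv)).sub ((hasDerivAt_id' v).add (d3.div_const 3))
    refine d.congr_deriv ?_
    ring
  have hm : MonotoneOn (fun v => y v - (v + v ^ 3 / 3)) (Set.Ico 0 1) := by
    apply monotoneOn_of_deriv_nonneg (convex_Ico 0 1)
    · intro v hv
      exact (key v hv).continuousAt.continuousWithinAt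
    · intro v hv
      rw [interior_Ico] at hv
      exact (key v ⟨hv.1.le, hv.2⟩).differentiableAt.differentiableWithinAt
    · intro v hv
      rw [interior_Ico] at hv
      rw [(key v ⟨hv.1.le, hv.2⟩).deriv]
      have h3 := one_sub_sq_pos_of_abs (hu ⟨hv.1.le, hv.2⟩)
      have e : 1 / (1 - v ^ 2) - (1 + v ^ 2) = v ^ 4 / (1 - v ^ 2) := by
        field_simp
        ring
      rw [e]
      positivity
  have := hm (Set.left_mem_Ico.mpr (by norm_num)) ⟨h0, h1⟩ h0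
  simp only [y_zero] at this
  norm_num at this
  linarith

lemma y_le3 {u : ℝ} (h0 : 0 ≤ u) (h1 : u < 1) : y u ≤ u + u ^ 3 / (3 * (1 - u ^ 2)) := by
  have hu : Set.Ico (0:ℝ) 1 ⊆ {v | |v| < 1} := fun v hv => by
    simp only [Set.mem_ofPred_eq]
    rw [abs_lt]; constructor <;> linarith [hv.1, hv.2]
  have key : ∀ v ∈ Set.Ico (0:ℝ) 1, HasDerivAt (fun v => (v + v ^ 3 / (3 * (1 - v ^ 2))) - y v)
      ((1 + (3 * v ^ 2 * (3 * (1 - v ^ 2)) - v ^ 3 * (3 * (-(2 * v)))) / (3 * (1 - v ^ 2)) ^ 2) -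
        1 / (1 - v ^ 2)) v := by
    intro v hv
    have h3 := one_sub_sq_pos_of_abs (hu hv)
    have d3 : HasDerivAt (fun w : ℝ => w ^ 3) (3 * v ^ 2) v := by simpa using hasDerivAt_pow 3 v
    have d2 : HasDerivAt (fun w : ℝ => 1 - w ^ 2) (-(2 * v)) v := by
      have : HasDerivAt (fun w : ℝ => w ^ 2) (2 * v) v := by simpa using hasDerivAt_pow 2 v
      simpa using this.const_sub 1
    have d4 := d2.const_mul 3
    have d5 := d3.div d4 (by positivity)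
    exact ((hasDerivAt_id' v).add d5).sub (hasDerivAt_y (hu hv))
  have hm : MonotoneOn (fun v => (v + v ^ 3 / (3 * (1 - v ^ 2))) - y v) (Set.Ico 0 1) := by
    apply monotoneOn_of_deriv_nonneg (convex_Ico 0 1)
    · intro v hv
      exact (key v hv).continuousAt.continuousWithinAt
    · intro v hv
      rw [interior_Ico] at hv
      exact (key v ⟨hv.1.le, hv.2⟩).differentiableAt.differentiableWithinAt
    · intro v hv
      rw [interior_Ico] at hv
      rw [(key v ⟨hv.1.le, hv.2⟩).deriv]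
      have h3 := one_sub_sq_pos_of_abs (hu ⟨hv.1.le, hv.2⟩)
      have e : (1 + (3 * v ^ 2 * (3 * (1 - v ^ 2)) - v ^ 3 * (3 * (-(2 * v)))) / (3 * (1 - v ^ 2)) ^ 2) -
          1 / (1 - v ^ 2) = 2 * v ^ 4 / (3 * (1 - v ^ 2) ^ 2) := by
        field_simp
        ring
      rw [e]
      positivity
  have := hm (Set.left_mem_Ico.mpr (by norm_num)) ⟨h0, h1⟩ h0
  simp only [y_zero] at this
  norm_num at this
  linarith

end Vale.Agent.Lib.P322B.Grid
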