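import Vale.Agent.Lib.P322B.GridLog
import Vale.Agent.Lib.P322B.E24W

/-!
Soundness of the check on one box and of the recursive subdivision.
-/

namespace Vale.Agent.Lib.P322B.Grid

open Vale.Agent.Lib.P322B Real Set

lemma up_log {x : ℕ} {X : ℝ} (h : Up x X) (hX : 0 < X) : Up (logUp x) (log X) := by
  have hS := SS_posR
  have h1 : 0 < (x:ℝ) / SS := lt_of_lt_of_le hX h
  have hx : 0 < x := by
    rcases Nat.eq_zero_or_pos x with h0 | h0
    · rw [h0] at h1; simp at h1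
    · exact h0
  exact up_mono (up_logUp hx) (log_le_log hX h)

lemma lo_log {x : ℕ} {X : ℝ} (hx : SS ≤ x) (h : Lo x X) : Lo (logLo x) (log X) := by
  have hS := SS_posR
  have hSpos : 0 < SS := by norm_num [SS]
  have hx0 : (0:ℝ) < (x:ℝ) := by
    have : 0 < x := lt_of_lt_of_le hSpos hx
    exact_mod_cast this
  exact lo_mono (lo_logLo hx) (log_le_log (by positivity) h)

/-- The comparison at the end of the box check. -/
lemma final_check {v m s l : ℕ} {V M Sr L : ℝ} (hV : Up v V) (hV0 : 0 < V) (hM : Up m M)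
    (hSr : Up s Sr) (hL : Lo l L) (h : Nat.add (mulU v m) s ≤ l) : V * M ≤ L - Sr := by
  have hS := SS_posR
  have h1 : 0 ≤ (m:ℝ) / SS := by positivity
  have h2 : V * M ≤ (v:ℝ) / SS * ((m:ℝ) / SS) :=
    (mul_le_mul_of_nonneg_left hM hV0.le).trans (mul_le_mul_of_nonneg_right hV h1)
  have h3 : Up (mulU v m) ((v:ℝ) / SS * ((m:ℝ) / SS)) :=
    up_mulU (le_of_eq rfl) (le_of_eq rfl) (by positivity) h1
  have h4 : ((Nat.add (mulU v m) s : ℕ) : ℝ) ≤ (l:ℝ) := by exact_mod_cast h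
  have e : ((Nat.add (mulU v m) s : ℕ) : ℝ) = (mulU v m : ℝ) + (s:ℝ) := by
    show ((mulU v m + s : ℕ) : ℝ) = _
    push_cast; ring
  rw [e] at h4
  have h5 := div_le_div_of_nonneg_right h4 hS.le
  rw [add_div] at h5
  unfold Up Lo at *
  linarith

/-- `y v / v` is increasing. -/
lemma ybar_mono {w w' : ℝ} (h0 : 0 < w) (h : w ≤ w') (h1 : w' < 1) : y w / w ≤ y w' / w' := by
  have key : ∀ v ∈ Ioo (0:ℝ) 1, HasDerivAt (fun v => y v / v)
      ((1 / (1 - v ^ 2) * v - y v * 1) / v ^ 2) v := by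
    intro v hv
    have hv' : |v| < 1 := abs_lt_one_of_Ico hv.1.le hv.2
    exact (hasDerivAt_y hv').div (hasDerivAt_id' v) hv.1.ne'
  have hm : MonotoneOn (fun v => y v / v) (Ioo 0 1) := by
    apply monotoneOn_of_deriv_nonneg (convex_Ioo 0 1)
    · intro v hv
      exact (key v hv).continuousAt.continuousWithinAt
    · intro v hv
      rw [interior_Ioo] at hv
      exact (key v hv).differentiableAt.differentiableWithinAt
    · intro v hv
      rw [interior_Ioo] at hv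
      rw [(key v hv).deriv]
      have h2 := y_le hv.1.le hv.2
      apply div_nonneg _ (by have := hv.1; positivity)
      have e : 1 / (1 - v ^ 2) * v = v / (1 - v ^ 2) := by ring
      rw [e, mul_one]
      linarith
  exact hm ⟨h0, lt_of_le_of_lt h h1⟩ ⟨lt_of_lt_of_le h0 h, h1⟩ h

/-- The upper bound for `V`. -/
lemma up_vF {a1 a2 b1 b2 : ℕ} {a b : ℝ} (ha1 : Lo a1 a) (ha2 : Up a2 a) (hb1 : Lo b1 b)
    (hb2 : Up b2 b) (ha : a ≤ 1) :
    Up (vF a1 a2 b1 b2) ((1 + cc) * b - 2 * cc * a * b - cc * (1 - a) ^ 2) := by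
  have hsa2 : Lo (Nat.sub SS a2) (1 - a) := lo_sub lo_one ha2 ha
  have h10 : Up (Nat.add (Nat.div (Nat.mul 10 b2) 9) 1) (((10:ℕ):ℝ) * b / ((9:ℕ):ℝ)) :=
    up_div (up_nmul hb2) (by norm_num)
  have h2 : Lo (Nat.div (Nat.mul 2 (mulD a1 b1)) 9) (((2:ℕ):ℝ) * (a * b) / ((9:ℕ):ℝ)) :=
    lo_div (lo_nmul (lo_mulD ha1 hb1)) (by norm_num)
  have h3 : Lo (Nat.div (mulD (Nat.sub SS a2) (Nat.sub SS a2)) 9)
      ((1 - a) * (1 - a) / ((9:ℕ):ℝ)) :=
    lo_div (lo_mulD hsa2 hsa2) (by norm_num)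
  refine (up_sub h10 (lo_add h2 h3)).congr ?_
  unfold cc
  push_cast
  ring

/-- The polynomial comparison behind the lower bound for `W-bar`. -/
lemma WB_poly {a b A B : ℝ} (haA : a ≤ A) (hbB : b ≤ B)
    (hA1 : A ≤ 1) (hB1 : B ≤ 1) :
    1 + (A * A + 6 * (A * B) + B * B) / 9 - 10 * (A + B) / 9 ≤
      1 - (1 + 1 / 9) * (a + b) + 1 / 9 * (a ^ 2 + 6 * a * b + b ^ 2) := by
  have h6 : 0 ≤ (A - a) * (10 / 9 - (a + A + 6 * b) / 9) := by
    apply mul_nonneg (by linarith)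
    have : a + A + 6 * b ≤ 8 := by linarith
    linarith
  have h7 : 0 ≤ (B - b) * (10 / 9 - (b + B + 6 * A) / 9) := by
    apply mul_nonneg (by linarith)
    have : b + B + 6 * A ≤ 8 := by linarith
    linarith
  nlinarith

/-- The lower bound for `W-bar`. -/
lemma lo_wbF {a2 b2 : ℕ} {a b : ℝ} (ha0 : 0 ≤ a) (hb0 : 0 ≤ b) (ha2 : Up a2 a) (hb2 : Up b2 b)
    (ha2S : a2 ≤ SS) (hb2S : b2 ≤ SS) (hpos : 1 ≤ wbF a2 b2) :
    Lo (wbF a2 b2) (1 - (1 + cc) * (a + b) + cc * (a ^ 2 + 6 * a * b + b ^ 2)) := by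
  have hS := SS_posR
  obtain ⟨A, hA⟩ : ∃ A : ℝ, A = (a2:ℝ) / SS := ⟨_, rfl⟩
  obtain ⟨B, hB⟩ : ∃ B : ℝ, B = (b2:ℝ) / SS := ⟨_, rfl⟩
  have hA1 : A ≤ 1 := by
    rw [hA, div_le_one hS]; exact_mod_cast ha2S
  have hB1 : B ≤ 1 := by
    rw [hB, div_le_one hS]; exact_mod_cast hb2S
  have haA : a ≤ A := by rw [hA]; exact ha2
  have hbB : b ≤ B := by rw [hB]; exact hb2
  have hLA : Lo a2 A := le_of_eq hA.symm
  have hLB : Lo b2 B := le_of_eq hB.symm
  have hUA : Up a2 A := le_of_eq hA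
  have hUB : Up b2 B := le_of_eq hB
  have hX2 : Lo (Nat.div (Nat.add (Nat.add (mulD a2 a2) (Nat.mul 6 (mulD a2 b2))) (mulD b2 b2)) 9)
      ((A * A + ((6:ℕ):ℝ) * (A * B) + B * B) / ((9:ℕ):ℝ)) :=
    lo_div (lo_add (lo_add (lo_mulD hLA hLA) (lo_nmul (lo_mulD hLA hLB))) (lo_mulD hLB hLB))
      (by norm_num)
  have hX1 : Up (Nat.add (Nat.div (Nat.mul 10 (Nat.add a2 b2)) 9) 1)
      (((10:ℕ):ℝ) * (A + B) / ((9:ℕ):ℝ)) :=
    up_div (up_nmul (up_add hUA hUB)) (by norm_num)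
  have hle : Nat.add (Nat.div (Nat.mul 10 (Nat.add a2 b2)) 9) 1 ≤
      Nat.add SS (Nat.div (Nat.add (Nat.add (mulD a2 a2) (Nat.mul 6 (mulD a2 b2))) (mulD b2 b2)) 9) := by
    by_contra hc
    have h0 : wbF a2 b2 = 0 := Nat.sub_eq_zero_of_le (le_of_not_ge hc)
    omega
  have hWBlo := lo_sub' (lo_add lo_one hX2) hX1 hle
  have hp := WB_poly haA hbB hA1 hB1
  refine lo_mono hWBlo ?_
  unfold cc
  push_cast
  linarith

/-- The upper bound for the subtracted term. -/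
lemma up_supF {t W : ℝ} {t1 t2 W1 th1 : ℕ} (ht1 : Lo t1 t) (ht2 : Up t2 t) (hW1 : Lo W1 W)
    (hth1 : Lo th1 (thw t W)) (ht0 : 0 < t) (ht : t < 1) (hW0 : 0 < W) (hW : W < 1) :
    Up (supF t1 t2 W1 th1) ((1 - t) ^ 2 / t * y (t * Tw t W)) := by
  obtain ⟨hr, hθ, hθ1, hθle, hT0, hT1, hwt, hu, e1, e2, e4⟩ := TW_facts ht0 ht hW0 hW
  have hS := SS_posR
  have ht1pos : 0 < 1 + t := by linarith
  have h1t' : 0 < 1 - t := by linarith
  have h1W : 0 < 1 - W := by linarith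
  have h1tlo : Lo (Nat.add SS t1) (1 + t) := lo_add lo_one ht1
  have hst1 : Up (Nat.sub SS t1) (1 - t) := up_sub up_one ht1
  have hSpos : 0 < SS := by norm_num [SS]
  have hS2 : Up (divU (Nat.sub SS t1) (Nat.add SS t1)) ((1 - t) / (1 + t)) :=
    up_divU hst1 h1tlo (by
      show 1 ≤ SS + t1
      omega) h1t'.le
  have hwlt1 : t * Tw t W < 1 := hwt.trans ht
  have hw0 : 0 < t * Tw t W := by positivity
  have hSr1 : (1 - t) ^ 2 / t * y (t * Tw t W) ≤ (1 - t) / (1 + t) := by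
    have h3 := S_le ht0 ht hW0 hW
    refine h3.trans ?_
    have hpos : 0 < 1 - (t * Tw t W) ^ 2 := by nlinarith
    rw [div_le_div_iff₀ hpos ht1pos]
    have h4 : (1 - Tw t W) * (1 + t ^ 2 * Tw t W) ≥ 0 := by
      apply mul_nonneg <;> nlinarith
    have e5 : (1 - t) * (1 - (t * Tw t W) ^ 2) - Tw t W * (1 - t) ^ 2 * (1 + t) =
        (1 - t) * ((1 - Tw t W) * (1 + t ^ 2 * Tw t W)) := by ring
    have := mul_nonneg h1t'.le h4
    linarith
  unfold supF
  extract_lets st1 S2 T2 w2 yl S1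
  cases hg : (Nat.ble 1 th1 && Nat.ble (Nat.add w2 1) SS) with
  | false =>
    rw [cond_false]
    exact up_mono hS2 hSr1
  | true =>
    rw [cond_true]
    rw [Bool.and_eq_true] at hg
    have hg1 : 1 ≤ th1 := Nat.le_of_ble_eq_true hg.1
    have hg2 : w2 + 1 ≤ SS := Nat.le_of_ble_eq_true hg.2
    have hT2 : Up T2 (Tw t W) :=
      up_divU (up_sub up_one hW1) hth1 hg1 h1W.le
    have hw2 : Up w2 (t * Tw t W) := up_mulU ht2 hT2 ht0.le hT0.le
    have hw2pos : 1 ≤ w2 := mulU_pos _ _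
    obtain ⟨w', hw'⟩ : ∃ w' : ℝ, w' = (w2:ℝ) / SS := ⟨_, rfl⟩
    have hw'0 : 0 < w' := by
      have : (0:ℝ) < (w2:ℝ) := by exact_mod_cast hw2pos
      rw [hw']; positivity
    have hw'1 : w' < 1 := by
      rw [hw', div_lt_one hS]
      have : w2 < SS := by omega
      exact_mod_cast this
    have hle : t * Tw t W ≤ w' := by rw [hw']; exact hw2
    have hU1 : Up (Nat.add SS w2) (1 + w') := up_add up_one (le_of_eq hw')
    have hL1 : Lo (Nat.sub SS w2) (1 - w') := by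
      unfold Lo
      rw [cast_sub_eq (by omega), sub_div, div_self hS.ne', hw']
    have hsw : 1 ≤ Nat.sub SS w2 := by
      show 1 ≤ SS - w2
      omega
    have h1w : 0 < 1 - w' := by linarith
    have hyl : Up yl (log ((1 + w') / (1 - w'))) :=
      up_log (up_divU hU1 hL1 hsw (by positivity)) (by positivity)
    have hlogp : 0 ≤ log ((1 + w') / (1 - w')) := by
      apply log_nonneg
      rw [one_le_div h1w]
      linarith
    have hL2 : Lo (Nat.mul 2 w2) (((2:ℕ):ℝ) * w') := lo_nmul (le_of_eq hw'.symm)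
    have hY : Up (divU yl (Nat.mul 2 w2)) (log ((1 + w') / (1 - w')) / (((2:ℕ):ℝ) * w')) :=
      up_divU hyl hL2 (by
        show 1 ≤ 2 * w2
        omega) hlogp
    have hYe : log ((1 + w') / (1 - w')) / (((2:ℕ):ℝ) * w') = y w' / w' := by
      unfold y
      rw [log_div (by positivity) h1w.ne']
      push_cast
      field_simp
    rw [hYe] at hY
    have hY0 : 0 ≤ y w' / w' := by
      have := y_nonneg hw'0.le hw'1
      positivity
    have hS1 : Up S1 ((1 - t) * (1 - t) * (Tw t W * (y w' / w'))) :=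
      up_mulU (up_mulU hst1 hst1 h1t'.le h1t'.le) (up_mulU hT2 hY hT0.le hY0)
        (by positivity) (by positivity)
    have hbar := ybar_mono hw0 hle hw'1
    have hSr2 : (1 - t) ^ 2 / t * y (t * Tw t W) ≤ (1 - t) * (1 - t) * (Tw t W * (y w' / w')) := by
      have e6 : (1 - t) ^ 2 / t * y (t * Tw t W) =
          (1 - t) * (1 - t) * (Tw t W * (y (t * Tw t W) / (t * Tw t W))) := by
        field_simp
      rw [e6]
      apply mul_le_mul_of_nonneg_left _ (by positivity)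
      exact mul_le_mul_of_nonneg_left hbar hT0.le
    cases hc : Nat.ble S1 S2 with
    | true =>
      rw [cond_true]
      exact up_mono hS1 hSr2
    | false =>
      rw [cond_false]
      exact up_mono hS2 hSr1

/-- The facts shared by both branches. -/
structure BoxFacts (t W : ℝ) (t1 t2 W1 W2 r1 r2 th1 th2 a1 a2 b1 b2 : ℕ) : Prop where
  hr2 : Up r2 (t * t)
  hth1 : Lo th1 (thw t W)
  hth2 : Up th2 (thw t W)
  ha1 : Lo a1 (aw t W)
  ha2 : Up a2 (aw t W)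
  hb1 : Lo b1 (bw t W)
  hb2 : Up b2 (bw t W)
  ha0 : 0 ≤ aw t W
  ha_lt : aw t W < 1
  hb0 : 0 ≤ bw t W

lemma box_facts {t W : ℝ} {t1 t2 W1 W2 : ℕ} (ht1 : Lo t1 t) (ht2 : Up t2 t) (hW1 : Lo W1 W)
    (hW2 : Up W2 W) (ht0 : 0 < t) (ht : t < 1) (hW0 : 0 < W) (hW : W < 1) :
    BoxFacts t W t1 t2 W1 W2 (mulD t1 t1) (mulU t2 t2) (Nat.sub SS (mulU (mulU t2 t2) W2))
      (Nat.sub SS (mulD (mulD t1 t1) W1)) (mulD (mulD t1 t1) (mulD W1 W1))
      (mulU (mulU t2 t2) (mulU W2 W2)) (mulD (Nat.sub SS W2) (Nat.sub SS (mulU (mulU t2 t2) W2)))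
      (mulU (Nat.sub SS W1) (Nat.sub SS (mulD (mulD t1 t1) W1))) := by
  obtain ⟨hr, hθ, hθ1, hθle, hT0, hT1, hwt, hu, e1, e2, e4⟩ := TW_facts ht0 ht hW0 hW
  have hrr : t * t = t ^ 2 := by ring
  have hrp : 0 ≤ t * t := by positivity
  have hWp : W ≤ 1 := hW.le
  have hr1 : Lo (mulD t1 t1) (t * t) := lo_mulD ht1 ht1
  have hr2 : Up (mulU t2 t2) (t * t) := up_mulU ht2 ht2 ht0.le ht0.le
  have hrW : t * t * W ≤ 1 := by
    rw [hrr]; nlinarith
  have hth1 : Lo (Nat.sub SS (mulU (mulU t2 t2) W2)) (thw t W) :=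
    (lo_sub lo_one (up_mulU hr2 hW2 hrp hW0.le) hrW).congr (by unfold thw; ring)
  have hth2 : Up (Nat.sub SS (mulD (mulD t1 t1) W1)) (thw t W) :=
    (up_sub up_one (lo_mulD hr1 hW1)).congr (by unfold thw; ring)
  have h1W : 0 < 1 - W := by linarith
  have ha0 : 0 ≤ aw t W := by unfold aw; positivity
  have ha_lt : aw t W < 1 := by
    unfold aw
    have h2 : W ^ 2 < 1 := by nlinarith
    nlinarith [sq_nonneg W]
  have hb0 : 0 ≤ bw t W := by unfold bw; positivity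
  exact ⟨hr2, hth1, hth2,
    (lo_mulD hr1 (lo_mulD hW1 hW1)).congr (by unfold aw; ring),
    (up_mulU hr2 (up_mulU hW2 hW2 hW0.le hW0.le) hrp (by positivity)).congr (by unfold aw; ring),
    (lo_mulD (lo_sub lo_one hW2 hWp) hth1).congr rfl,
    (up_mulU (up_sub up_one hW1) hth2 h1W.le hθ.le).congr rfl,
    ha0, ha_lt, hb0⟩

theorem boxOK_sound {t1 t2 W1 W2 : ℕ} {t W : ℝ} (hb : boxOK t1 t2 W1 W2 = true)
    (ht1 : Lo t1 t) (ht2 : Up t2 t) (hW1 : Lo W1 W) (hW2 : Up W2 W)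
    (ht0 : 0 < t) (ht : t < 1) (hW0 : 0 < W) (hW : W < 1) (hV : 0 < Vw t W) :
    Vw t W * M1w t W ≤ Dw t W ∨ Vw t W * M2w t W ≤ Dw t W := by
  obtain ⟨hr, hθ, hθ1, hθle, hT0, hT1, hwt, hu, e1, e2, e4⟩ := TW_facts ht0 ht hW0 hW
  have hS := SS_posR
  have hSpos : 0 < SS := by norm_num [SS]
  have hF := box_facts ht1 ht2 hW1 hW2 ht0 ht hW0 hW
  unfold boxOK at hb
  extract_lets r1 r2 th1 th2 a1 a2 b1 b2 Vup logZ Sup sa1 WBlo d1 at hb
  have hF' : BoxFacts t W t1 t2 W1 W2 r1 r2 th1 th2 a1 a2 b1 b2 := hF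
  obtain ⟨hr2, hth1, hth2, ha1, ha2, hb1, hb2, ha0, ha_lt, hb0⟩ := hF'
  have hVup : Up Vup (Vw t W) := up_vF ha1 ha2 hb1 hb2 ha_lt.le
  have hVuppos : 0 < Vup := by
    rcases Nat.eq_zero_or_pos Vup with h0 | h0
    · exfalso
      have h3 : Vw t W ≤ ((Vup:ℕ):ℝ) / SS := hVup
      rw [h0] at h3
      simp at h3
      linarith
    · exact h0
  have hble : Nat.ble Vup 0 = false := by
    rcases hc : Nat.ble Vup 0 with _ | _
    · rfl
    · have := Nat.le_of_ble_eq_true hc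
      omega
  rw [hble, cond_false] at hb
  -- lower bound for the logarithm of `1 + Z`
  have ht1pos : 0 < 1 + t := by linarith
  have h1t : Up (Nat.add SS t2) (1 + t) := up_add up_one ht2
  have hden : Up (mulU W2 (mulU (Nat.add SS t2) (Nat.add SS t2))) (W * ((1 + t) * (1 + t))) :=
    up_mulU hW2 (up_mulU h1t h1t ht1pos.le ht1pos.le) hW0.le (by positivity)
  have hZ : Lo (divD b1 (mulU W2 (mulU (Nat.add SS t2) (Nat.add SS t2)))) (Zw t W) :=
    (lo_divD hb1 hden (by positivity)).congr (by unfold Zw bw; ring)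
  have hlogZ : Lo logZ (log (1 + Zw t W)) :=
    lo_log (Nat.le_add_right _ _) (lo_add lo_one hZ)
  have hSup : Up Sup ((1 - t) ^ 2 / t * y (t * Tw t W)) :=
    up_supF ht1 ht2 hW1 hth1 ht0 ht hW0 hW
  have hDw : Dw t W = log (1 + Zw t W) - (1 - t) ^ 2 / t * y (t * Tw t W) := rfl
  have hsa1 : Up sa1 (1 - aw t W) := up_sub up_one ha1
  have h1a : 0 < 1 - aw t W := by linarith
  have hcapos : 0 < 1 - cc * aw t W := by
    unfold cc; linarith
  have hcc : (1 - aw t W / ((9:ℕ):ℝ)) = 1 - cc * aw t W := by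
    unfold cc; push_cast; ring
  have hom0 : Up (mulU sa1 (Nat.sub SS (Nat.div a1 9))) (omw t W) := by
    have h3 : Up (Nat.sub SS (Nat.div a1 9)) (1 - aw t W / ((9:ℕ):ℝ)) :=
      up_sub up_one (lo_div ha1 (by norm_num))
    rw [hcc] at h3
    exact up_mulU hsa1 h3 h1a.le hcapos.le
  have homp : 0 < omw t W := by unfold omw; positivity
  rw [Bool.or_eq_true] at hb
  rcases hb with hb | hb
  · -- the bound with `M2w`
    right
    rw [Bool.and_eq_true, Bool.and_eq_true, Bool.and_eq_true] at hb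
    obtain ⟨⟨⟨hb3, hb4⟩, hb5⟩, hb6⟩ := hb
    have hWB1 : 1 ≤ WBlo := Nat.le_of_ble_eq_true hb3
    have ha2S : a2 ≤ SS := Nat.le_of_ble_eq_true hb4
    have hb2S : b2 ≤ SS := Nat.le_of_ble_eq_true hb5
    have hchk := Nat.le_of_ble_eq_true hb6
    have hWB : Lo WBlo (WBw t W) := lo_wbF ha0 hb0 ha2 hb2 ha2S hb2S hWB1
    have hWBpos : 0 < WBw t W := by
      have h3 : (0:ℝ) < (WBlo:ℝ) / SS := by
        have : (0:ℝ) < (WBlo:ℝ) := by exact_mod_cast hWB1
        positivity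
      exact lt_of_lt_of_le h3 hWB
    have hlogU : Up (logUp (divU (mulU sa1 (Nat.sub SS (Nat.div a1 9))) WBlo)) (log (omw t W / WBw t W)) :=
      up_log (up_divU hom0 hWB hWB1 homp.le) (by positivity)
    have hM2 : Up (m2F (mulU sa1 (Nat.sub SS (Nat.div a1 9))) WBlo) (M2w t W) := by
      refine (up_div (up_nmul hlogU) (by norm_num)).congr ?_
      unfold M2w
      push_cast
      ring
    have := final_check hVup hV hM2 hSup hlogZ hchk
    rw [hDw]
    exact this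
  · -- the bound with `M1w`
    left
    rw [Bool.and_eq_true, Bool.and_eq_true] at hb
    obtain ⟨⟨hb3, hb4⟩, hb5⟩ := hb
    have hd1 : 1 ≤ d1 := Nat.le_of_ble_eq_true hb3
    have hth1p : 1 ≤ th1 := Nat.le_of_ble_eq_true hb4
    have hchk := Nat.le_of_ble_eq_true hb5
    have hrr : t * t = t ^ 2 := by ring
    have h1r : 0 < 1 - t * t := by rw [hrr]; linarith
    have hdd : Lo d1 (W * (1 - t * t)) := lo_mulD hW1 (lo_sub lo_one hr2 (by linarith))
    have harg1 : Up (divU th2 d1) (thw t W / (W * (1 - t * t))) :=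
      up_divU hth2 hdd hd1 hθ.le
    have hlog1 : Up (logUp (divU th2 d1)) (log (thw t W / (W * (1 - t * t)))) :=
      up_log harg1 (by positivity)
    have harg2 : Up (divU sa1 th1) ((1 - aw t W) / thw t W) :=
      up_divU hsa1 hth1 hth1p h1a.le
    have hlog2 : Up (logUp (divU sa1 th1)) (log ((1 - aw t W) / thw t W)) :=
      up_log harg2 (by positivity)
    have hM1 : Up (m1F th1 th2 d1 sa1) (M1w t W) := by
      refine (up_add (up_div hlog1 (by norm_num)) (up_div (up_nmul hlog2) (by norm_num))).congr ?_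
      unfold M1w
      rw [hrr]
      push_cast
      ring
    have := final_check hVup hV hM1 hSup hlogZ hchk
    rw [hDw]
    exact this

/-- The recursive check implies the inequality on the whole box. -/
theorem chk_sound : ∀ (n t1 t2 W1 W2 : ℕ), chk n t1 t2 W1 W2 = true →
    ∀ t W : ℝ, Lo t1 t → Up t2 t → Lo W1 W → Up W2 W → 0 < t → t < 1 → 0 < W → W < 1 →
      1 / 16 < thw t W → 0 < Vw t W →
      Vw t W * M1w t W ≤ Dw t W ∨ Vw t W * M2w t W ≤ Dw t W := by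
  have hcorner : ∀ (t1 W1 : ℕ) (t W : ℝ), Lo t1 t → Lo W1 W → 1 / 16 < thw t W → 0 < t → t < 1 → 0 < W → W < 1 →
      Nat.ble (Nat.sub SS (mulD (mulD t1 t1) W1)) 1152921504606846976 = true → False := by
    intro t1 W1 t W h1 h2 h3 h4 h5 h6 h7 h8
    have h9 := Nat.le_of_ble_eq_true h8
    have hU : Up (Nat.sub SS (mulD (mulD t1 t1) W1)) (thw t W) :=
      (up_sub up_one (lo_mulD (lo_mulD h1 h1) h2)).congr (by unfold thw; ring)
    have hS := SS_posR
    have h10 : ((Nat.sub SS (mulD (mulD t1 t1) W1) : ℕ) : ℝ) ≤ (1152921504606846976 : ℝ) := by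
      exact_mod_cast h9
    have h11 : (1152921504606846976 : ℝ) / SS = 1 / 16 := by
      rw [SS_eq]; norm_num
    have h12 := div_le_div_of_nonneg_right h10 hS.le
    rw [h11] at h12
    have h13 : thw t W ≤ _ := hU
    linarith
  intro n
  induction n with
  | zero =>
    intro t1 t2 W1 W2 hc t W h1 h2 h3 h4 h5 h6 h7 h8 h9 h10
    rw [chk, Bool.or_eq_true] at hc
    rcases hc with hc | hc
    · exact (hcorner t1 W1 t W h1 h3 h9 h5 h6 h7 h8 hc).elim
    · exact boxOK_sound hc h1 h2 h3 h4 h5 h6 h7 h8 h10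
  | succ n ih =>
    intro t1 t2 W1 W2 hc t W h1 h2 h3 h4 h5 h6 h7 h8 h9 h10
    rw [chk, Bool.or_eq_true, Bool.or_eq_true] at hc
    rcases hc with (hc | hc) | hc
    · exact (hcorner t1 W1 t W h1 h3 h9 h5 h6 h7 h8 hc).elim
    · exact boxOK_sound hc h1 h2 h3 h4 h5 h6 h7 h8 h10
    · cases hs : Nat.ble (Nat.add (Nat.mul (Nat.sub W2 W1) SS) 1) (Nat.mul (Nat.mul 4 (Nat.sub t2 t1)) W1) with
      | true =>
        rw [hs, cond_true, Bool.and_eq_true] at hc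
        rcases le_total t ((Nat.div (Nat.add t1 t2) 2 : ℕ) / (SS:ℝ)) with hm | hm
        · exact ih _ _ _ _ hc.1 t W h1 hm h3 h4 h5 h6 h7 h8 h9 h10
        · exact ih _ _ _ _ hc.2 t W hm h2 h3 h4 h5 h6 h7 h8 h9 h10
      | false =>
        rw [hs, cond_false, Bool.and_eq_true] at hc
        rcases le_total W ((Nat.div (Nat.add W1 W2) 2 : ℕ) / (SS:ℝ)) with hm | hm
        · exact ih _ _ _ _ hc.1 t W h1 h2 h3 hm h5 h6 h7 h8 h9 h10
        · exact ih _ _ _ _ hc.2 t W h1 h2 hm h4 h5 h6 h7 h8 h9 h10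

/-- The inequality on a box. -/
def Sound (t1 t2 W1 W2 : ℕ) : Prop :=
  ∀ t W : ℝ, Lo t1 t → Up t2 t → Lo W1 W → Up W2 W → 0 < t → t < 1 → 0 < W → W < 1 →
    1 / 16 < thw t W → 0 < Vw t W →
    Vw t W * M1w t W ≤ Dw t W ∨ Vw t W * M2w t W ≤ Dw t W

lemma Sound.of_chk {n t1 t2 W1 W2 : ℕ} (h : chk n t1 t2 W1 W2 = true) : Sound t1 t2 W1 W2 :=
  chk_sound n t1 t2 W1 W2 h

lemma Sound.split_t {t1 t2 W1 W2 : ℕ} (m : ℕ) (h1 : Sound t1 m W1 W2) (h2 : Sound m t2 W1 W2) :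
    Sound t1 t2 W1 W2 := by
  intro t W a1 a2 a3 a4 a5 a6 a7 a8 a9 a10
  rcases le_total t ((m : ℕ) / (SS:ℝ)) with hm | hm
  · exact h1 t W a1 hm a3 a4 a5 a6 a7 a8 a9 a10
  · exact h2 t W hm a2 a3 a4 a5 a6 a7 a8 a9 a10

lemma Sound.split_W {t1 t2 W1 W2 : ℕ} (m : ℕ) (h1 : Sound t1 t2 W1 m) (h2 : Sound t1 t2 m W2) :
    Sound t1 t2 W1 W2 := by
  intro t W a1 a2 a3 a4 a5 a6 a7 a8 a9 a10
  rcases le_total W ((m : ℕ) / (SS:ℝ)) with hm | hm
  · exact h1 t W a1 a2 a3 hm a5 a6 a7 a8 a9 a10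
  · exact h2 t W a1 a2 hm a4 a5 a6 a7 a8 a9 a10

end Vale.Agent.Lib.P322B.Grid
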