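import Vale.Agent.Lib.P322B.GridArith

/-!
Validity of the logarithm table and of the bounds `logUp`, `logLo`.
-/

namespace Vale.Agent.Lib.P322B.Grid

open Vale.Agent.Lib.P322B Real

theorem tabAll_true : tabAll 1024 = true := by decide +kernel
lemma tabLo_zero : tabLo 0 = 0 := by decide +kernel
lemma tabUp_zero : tabUp 0 = 0 := by decide +kernel
lemma L2lo_eq : L2lo = tabLo 1024 := by decide +kernel
lemma L2up_eq : L2up = tabUp 1024 := by decide +kernel

lemma tabAll_spec : ∀ n, tabAll n = true → ∀ j, j < n → tabStep j = true := by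
  intro n
  induction n with
  | zero => intro _ j hj; omega
  | succ n ih =>
    intro h j hj
    have h' : tabStep n = true ∧ tabAll n = true := by
      simpa [tabAll] using h
    rcases Nat.lt_succ_iff_lt_or_eq.mp hj with hlt | heq
    · exact ih h'.2 j hlt
    · rw [heq]; exact h'.1

lemma y_ratio' {a b : ℝ} (ha : 0 < a) (hb : 0 < b) : y ((a - b) / (a + b)) = (log a - log b) / 2 := by
  unfold y
  have e1 : 1 + (a - b) / (a + b) = 2 * a / (a + b) := by field_simp; ring
  have e2 : 1 - (a - b) / (a + b) = 2 * b / (a + b) := by field_simp; ring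
  rw [e1, e2, log_div (by positivity) (by positivity), log_div (by positivity) (by positivity),
    log_mul (by norm_num) ha.ne', log_mul (by norm_num) hb.ne']
  ring

/-- `log (1 + j / 1024)`. -/
noncomputable def lg (j : ℕ) : ℝ := log (1 + (j:ℝ) / 1024)

lemma step_bounds (j : ℕ) :
    2 / ((2 * 1024 + 2 * j + 1 : ℕ) : ℝ) + 2 / (3 * ((2 * 1024 + 2 * j + 1 : ℕ) : ℝ) ^ 3) ≤
        lg (j + 1) - lg j ∧
    lg (j + 1) - lg j ≤ 2 / ((2 * 1024 + 2 * j + 1 : ℕ) : ℝ) +
      2 / (3 * ((2 * 1024 + 2 * j + 1 : ℕ) : ℝ) * (((2 * 1024 + 2 * j + 1 : ℕ) : ℝ) ^ 2 - 1)) := by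
  have hj : (0:ℝ) ≤ (j:ℝ) := Nat.cast_nonneg j
  set D : ℝ := ((2 * 1024 + 2 * j + 1 : ℕ) : ℝ) with hD
  have hD' : D = 2 * 1024 + 2 * (j:ℝ) + 1 := by rw [hD]; push_cast; ring
  have hDpos : 2049 ≤ D := by rw [hD']; linarith
  have hD0 : 0 < D := by linarith
  have ha : 0 < 1 + ((j:ℝ) + 1) / 1024 := by positivity
  have hb : 0 < 1 + (j:ℝ) / 1024 := by positivity
  have e : (1 + ((j:ℝ) + 1) / 1024 - (1 + (j:ℝ) / 1024)) / (1 + ((j:ℝ) + 1) / 1024 + (1 + (j:ℝ) / 1024)) = 1 / D := by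
    rw [hD']; field_simp; ring
  have hy := y_ratio' ha hb
  rw [e] at hy
  have hu0 : (0:ℝ) ≤ 1 / D := by positivity
  have hu1 : 1 / D < 1 := by
    rw [div_lt_one hD0]; linarith
  have h1 := y_ge3 hu0 hu1
  have h2 := y_le3 hu0 hu1
  have e2 : lg (j + 1) - lg j = 2 * y (1 / D) := by
    unfold lg
    rw [hy]
    push_cast
    ring
  rw [e2]
  constructor
  · have e3 : 2 / D + 2 / (3 * D ^ 3) = 2 * (1 / D + (1 / D) ^ 3 / 3) := by
      field_simp
    rw [e3]; linarith
  · have hD2 : 0 < D ^ 2 - 1 := by nlinarith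
    have e3 : 2 / D + 2 / (3 * D * (D ^ 2 - 1)) =
        2 * (1 / D + (1 / D) ^ 3 / (3 * (1 - (1 / D) ^ 2))) := by
      have e4 : 1 - (1 / D) ^ 2 = (D ^ 2 - 1) / D ^ 2 := by field_simp
      rw [e4]
      field_simp
    rw [e3]; linarith

theorem tab_bounds : ∀ j : ℕ, j ≤ 1024 → Lo (tabLo j) (lg j) ∧ Up (tabUp j) (lg j) := by
  have hS := SS_posR
  intro j
  induction j with
  | zero =>
    intro _
    have e : lg 0 = 0 := by simp [lg]
    rw [e, tabLo_zero, tabUp_zero]
    simp [Lo, Up]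
  | succ j ih =>
    intro hj
    obtain ⟨h1, h2⟩ := ih (by omega)
    have hst := tabAll_spec 1024 tabAll_true j (by omega)
    unfold tabStep at hst
    rw [Bool.and_eq_true] at hst
    obtain ⟨hs1, hs2⟩ := hst
    have hs1' : tabLo (j + 1) ≤ tabLo j + stepLo j := Nat.le_of_ble_eq_true hs1
    have hs2' : tabUp j + stepUp j ≤ tabUp (j + 1) := Nat.le_of_ble_eq_true hs2
    have hb := step_bounds j
    set Dn : ℕ := 2 * 1024 + 2 * j + 1 with hDn
    have hDnpos : 0 < Dn := by omega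
    have hDge : (2049:ℝ) ≤ (Dn:ℝ) := by
      have : 2049 ≤ Dn := by omega
      exact_mod_cast this
    have e1 : stepLo j = 2 * SS / Dn + 2 * SS / (3 * Dn ^ 3) := rfl
    have e2 : stepUp j = 2 * SS / Dn + 1 + 2 * SS / (3 * Dn * (Dn ^ 2 - 1)) + 1 := rfl
    have hDR : (0:ℝ) < (Dn:ℝ) := by linarith
    constructor
    · have h3 : (stepLo j : ℝ) / SS ≤ 2 / (Dn:ℝ) + 2 / (3 * (Dn:ℝ) ^ 3) := by
        rw [e1]
        have c1 : ((2 * SS / Dn : ℕ) : ℝ) ≤ ((2 * SS : ℕ) : ℝ) / (Dn:ℝ) := Nat.cast_div_le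
        have c2 : ((2 * SS / (3 * Dn ^ 3) : ℕ) : ℝ) ≤ ((2 * SS : ℕ) : ℝ) / ((3 * Dn ^ 3 : ℕ) : ℝ) :=
          Nat.cast_div_le
        push_cast at c1 c2 ⊢
        rw [add_div]
        have c3 := div_le_div_of_nonneg_right c1 hS.le
        have c4 := div_le_div_of_nonneg_right c2 hS.le
        have e5 : 2 * (SS:ℝ) / (Dn:ℝ) / SS = 2 / (Dn:ℝ) := by field_simp
        have e6 : 2 * (SS:ℝ) / (3 * (Dn:ℝ) ^ 3) / SS = 2 / (3 * (Dn:ℝ) ^ 3) := by field_simp
        rw [e5] at c3
        rw [e6] at c4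
        linarith
      unfold Lo at *
      have h4 : ((tabLo (j + 1) : ℕ) : ℝ) ≤ (tabLo j : ℝ) + (stepLo j : ℝ) := by exact_mod_cast hs1'
      have h5 := div_le_div_of_nonneg_right h4 hS.le
      rw [add_div] at h5
      push_cast
      linarith [hb.1]
    · have h3 : 2 / (Dn:ℝ) + 2 / (3 * (Dn:ℝ) * ((Dn:ℝ) ^ 2 - 1)) ≤ (stepUp j : ℝ) / SS := by
        rw [e2]
        have hpos2 : 0 < 3 * Dn * (Dn ^ 2 - 1) := by
          have : 0 < Dn ^ 2 - 1 := by
            have : 1 < Dn ^ 2 := by nlinarith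
            omega
          positivity
        have c1 := le_cast_div_succ (2 * SS) hDnpos
        have c2 := le_cast_div_succ (2 * SS) hpos2
        have c1' : ((2 * SS : ℕ) : ℝ) / (Dn:ℝ) ≤ ((2 * SS / Dn : ℕ) : ℝ) + 1 := c1
        have c2' : ((2 * SS : ℕ) : ℝ) / ((3 * Dn * (Dn ^ 2 - 1) : ℕ) : ℝ) ≤
            ((2 * SS / (3 * Dn * (Dn ^ 2 - 1)) : ℕ) : ℝ) + 1 := c2
        have e7 : ((3 * Dn * (Dn ^ 2 - 1) : ℕ) : ℝ) = 3 * (Dn:ℝ) * ((Dn:ℝ) ^ 2 - 1) := by
          rw [Nat.cast_mul, Nat.cast_sub (by nlinarith)]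
          push_cast
          ring
        rw [e7] at c2'
        push_cast at c1' c2'
        have hpr : 0 < (Dn:ℝ) ^ 2 - 1 := by nlinarith
        have c3 := div_le_div_of_nonneg_right c1' hS.le
        have c4 := div_le_div_of_nonneg_right c2' hS.le
        have e5 : 2 * (SS:ℝ) / (Dn:ℝ) / SS = 2 / (Dn:ℝ) := by field_simp
        have e6 : 2 * (SS:ℝ) / (3 * (Dn:ℝ) * ((Dn:ℝ) ^ 2 - 1)) / SS =
            2 / (3 * (Dn:ℝ) * ((Dn:ℝ) ^ 2 - 1)) := by field_simp
        rw [e5] at c3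
        rw [e6] at c4
        have e8 : ((2 * SS / Dn + 1 + 2 * SS / (3 * Dn * (Dn ^ 2 - 1)) + 1 : ℕ) : ℝ) =
            (((2 * SS / Dn : ℕ) : ℝ) + 1) + (((2 * SS / (3 * Dn * (Dn ^ 2 - 1)) : ℕ) : ℝ) + 1) := by
          push_cast
          ring
        rw [e8, add_div]
        push_cast at c3 c4 ⊢
        linarith
      unfold Up at *
      have h4 : (tabUp j : ℝ) + (stepUp j : ℝ) ≤ ((tabUp (j + 1) : ℕ) : ℝ) := by exact_mod_cast hs2'
      have h5 := div_le_div_of_nonneg_right h4 hS.le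
      rw [add_div] at h5
      push_cast
      linarith [hb.2]

lemma lg_1024 : lg 1024 = log 2 := by
  unfold lg; norm_num

lemma up_L2 : Up L2up (log 2) := by
  rw [L2up_eq, ← lg_1024]
  exact (tab_bounds 1024 le_rfl).2

lemma lo_L2 : Lo L2lo (log 2) := by
  rw [L2lo_eq, ← lg_1024]
  exact (tab_bounds 1024 le_rfl).1

lemma sr_pow (n k : ℕ) : Nat.shiftRight n k = n / 2 ^ k := by
  show n >>> k = _
  rw [Nat.shiftRight_eq_div_pow]

lemma sl_pow (n k : ℕ) : Nat.shiftLeft n k = n * 2 ^ k := by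
  show n <<< k = _
  rw [Nat.shiftLeft_eq]

lemma log_split {x k : ℕ} (hx : 0 < x) :
    log ((x:ℝ) / SS) = (k:ℝ) * log 2 + log (((x:ℝ) / 2 ^ k) / SS) := by
  have hS := SS_posR
  have hx' : (0:ℝ) < (x:ℝ) := by exact_mod_cast hx
  have e : (x:ℝ) / SS = 2 ^ k * (((x:ℝ) / 2 ^ k) / SS) := by
    field_simp
  rw [e, log_mul (by positivity) (by positivity), log_pow]

/-- The facts on the table index. -/
lemma mj_facts {m : ℕ} (hm : SS ≤ m) :
    SS + (m - SS) / 2 ^ 54 * 2 ^ 54 ≤ m := by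
  have h := Nat.div_mul_le_self (m - SS) (2 ^ 54)
  omega

lemma mj_real (j : ℕ) : (((SS + j * 2 ^ 54 : ℕ) : ℝ)) / SS = 1 + (j:ℝ) / 1024 := by
  have hS : (SS:ℝ) = 2 ^ 64 := by
    rw [SS_eq]; norm_num
  push_cast
  rw [hS]
  field_simp
  ring

theorem up_logUp {x : ℕ} (hx : 0 < x) : Up (logUp x) (log ((x:ℝ) / SS)) := by
  have hS := SS_posR
  have hx' : (0:ℝ) < (x:ℝ) := by exact_mod_cast hx
  unfold logUp
  cases hb : Nat.ble x SS with
  | true =>
    rw [cond_true]
    have h1 : x ≤ SS := Nat.le_of_ble_eq_true hb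
    have h2 : (x:ℝ) / SS ≤ 1 := by
      rw [div_le_one hS]; exact_mod_cast h1
    have h3 : log ((x:ℝ) / SS) ≤ 0 := log_nonpos (by positivity) h2
    simpa [Up] using h3
  | false =>
    rw [cond_false]
    extract_lets k m j mj d
    have hjdef : j = (m - SS) / 2 ^ 54 := sr_pow _ _
    have hmdef : m = x / 2 ^ k := sr_pow _ _
    have hmjdef : mj = SS + j * 2 ^ 54 := by
      show SS + Nat.shiftLeft j 54 = _
      rw [sl_pow]
    have hddef : d = (m + 1 - mj) * SS / mj + 1 := by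
      show Nat.add (Nat.div (Nat.shiftLeft (Nat.sub (Nat.add m 1) mj) 64) mj) 1 = _
      rw [sl_eq]
      rfl
    clear_value d mj j m k
    cases hg : (Nat.ble SS m && Nat.ble (Nat.add j 1) 1024) with
    | false =>
      rw [cond_false]
      have h1 : SS < x := by
        by_contra hc
        have : Nat.ble x SS = true := Nat.ble_eq_true_of_le (not_lt.mp hc)
        rw [this] at hb
        exact Bool.noConfusion hb
      have e : ((Nat.sub x SS : ℕ) : ℝ) = (x:ℝ) - SS := cast_sub_eq h1.le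
      unfold Up
      rw [e]
      have h2 := log_le_sub_one_of_pos (show 0 < (x:ℝ) / SS by positivity)
      have e2 : ((x:ℝ) - SS) / SS = (x:ℝ) / SS - 1 := by field_simp
      rw [e2]
      exact h2
    | true =>
      rw [cond_true]
      rw [Bool.and_eq_true] at hg
      have hg1 : SS ≤ m := Nat.le_of_ble_eq_true hg.1
      have hg2 : j + 1 ≤ 1024 := Nat.le_of_ble_eq_true hg.2
      have hmjm : mj ≤ m := by
        rw [hmjdef, hjdef]; exact mj_facts hg1
      have hSpos : 0 < SS := by norm_num [SS]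
      have hmjpos : 0 < mj := by
        rw [hmjdef]; exact lt_of_lt_of_le hSpos (Nat.le_add_right _ _)
      have hmjR : (0:ℝ) < (mj:ℝ) := by exact_mod_cast hmjpos
      -- the real numbers
      set z : ℝ := (d:ℝ) / SS with hz
      have hz0 : 0 ≤ z := by positivity
      have hUz : Up d z := le_of_eq rfl
      have hLz : Lo d z := le_of_eq rfl
      -- upper bound on `x / 2^k`
      have hpow : 0 < 2 ^ k := by positivity
      have h1 : (x:ℝ) / 2 ^ k ≤ (m:ℝ) + 1 := by
        have h0 := le_cast_div_succ x hpow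
        have e0 : Nat.div x (2 ^ k) = m := hmdef.symm
        rw [e0] at h0
        push_cast at h0
        exact h0
      have hmR : (mj:ℝ) ≤ (m:ℝ) := by exact_mod_cast hmjm
      have h2 : log (((x:ℝ) / 2 ^ k) / SS) ≤ log (((m:ℝ) + 1) / SS) := by
        apply log_le_log (by positivity)
        exact div_le_div_of_nonneg_right h1 hS.le
      have e3 : ((m:ℝ) + 1) / SS = ((mj:ℝ) / SS) * (1 + (((m + 1 - mj : ℕ) : ℝ) / (mj:ℝ))) := by
        have : ((m + 1 - mj : ℕ) : ℝ) = (m:ℝ) + 1 - (mj:ℝ) := by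
          rw [Nat.cast_sub (by omega)]; push_cast; ring
        rw [this]
        field_simp
        ring
      set e : ℝ := ((m + 1 - mj : ℕ) : ℝ) / (mj:ℝ) with he
      have he0 : 0 ≤ e := by positivity
      have hez : e ≤ z := by
        have := le_cast_div_succ ((m + 1 - mj) * SS) hmjpos
        rw [hz, hddef, he]
        push_cast at this ⊢
        rw [le_div_iff₀ hS]
        have e5 : ((m + 1 - mj : ℕ) : ℝ) / (mj:ℝ) * SS = ((m + 1 - mj : ℕ) : ℝ) * SS / (mj:ℝ) := by
          ring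
        rw [e5]
        exact this
      have h3 : log (((m:ℝ) + 1) / SS) = lg j + log (1 + e) := by
        rw [e3, log_mul (by positivity) (by positivity)]
        congr 1
        unfold lg
        rw [hmjdef, mj_real]
      have h4 : log (1 + e) ≤ z - z ^ 2 / 2 + z ^ 3 / 3 :=
        (log_le_log (by positivity) (by linarith)).trans (log_one_add_le hz0)
      have hsplit := log_split (k := k) hx
      -- assemble
      have hUk : Up (Nat.mul k L2up) ((k:ℝ) * log 2) := up_nmul up_L2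
      have hUt : Up (tabUp j) (lg j) := (tab_bounds j (by omega)).2
      have hLd2 : Lo (Nat.div (mulD d d) 2) (z * z / ((2:ℕ):ℝ)) := lo_div (lo_mulD hLz hLz) (by norm_num)
      have hUd3 : Up (Nat.add (Nat.div (mulU d (mulU d d)) 3) 1) (z * (z * z) / ((3:ℕ):ℝ)) :=
        up_div (up_mulU hUz (up_mulU hUz hUz hz0 hz0) hz0 (by positivity)) (by norm_num)
      have hfinal := up_add (up_add (up_add hUk hUt) (up_sub hUz hLd2)) hUd3
      refine up_mono hfinal ?_
      push_cast
      rw [hsplit]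
      nlinarith [h2, h3, h4]

theorem lo_logLo {x : ℕ} (hx : SS ≤ x) : Lo (logLo x) (log ((x:ℝ) / SS)) := by
  have hS := SS_posR
  have hSpos : 0 < SS := by norm_num [SS]
  have hx0 : 0 < x := lt_of_lt_of_le hSpos hx
  have hx' : (0:ℝ) < (x:ℝ) := by exact_mod_cast hx0
  have hlog0 : 0 ≤ log ((x:ℝ) / SS) := by
    apply log_nonneg
    rw [one_le_div hS]
    exact_mod_cast hx
  unfold logLo
  cases hb : Nat.ble x SS with
  | true =>
    rw [cond_true]
    simpa [Lo] using hlog0
  | false =>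
    rw [cond_false]
    extract_lets k m j mj d
    have hjdef : j = (m - SS) / 2 ^ 54 := sr_pow _ _
    have hmdef : m = x / 2 ^ k := sr_pow _ _
    have hmjdef : mj = SS + j * 2 ^ 54 := by
      show SS + Nat.shiftLeft j 54 = _
      rw [sl_pow]
    have hddef : d = (m - mj) * SS / mj := by
      show Nat.div (Nat.shiftLeft (Nat.sub m mj) 64) mj = _
      rw [sl_eq]
      rfl
    clear_value d mj j m k
    cases hg : (Nat.ble SS m && Nat.ble (Nat.add j 1) 1024) with
    | false =>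
      rw [cond_false]
      simpa [Lo] using hlog0
    | true =>
      rw [cond_true]
      rw [Bool.and_eq_true] at hg
      have hg1 : SS ≤ m := Nat.le_of_ble_eq_true hg.1
      have hg2 : j + 1 ≤ 1024 := Nat.le_of_ble_eq_true hg.2
      have hmjm : mj ≤ m := by
        rw [hmjdef, hjdef]; exact mj_facts hg1
      have hmjpos : 0 < mj := by
        rw [hmjdef]; exact lt_of_lt_of_le hSpos (Nat.le_add_right _ _)
      have hmjR : (0:ℝ) < (mj:ℝ) := by exact_mod_cast hmjpos
      have hmpos : 0 < m := lt_of_lt_of_le hmjpos hmjm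
      have hmR0 : (0:ℝ) < (m:ℝ) := by exact_mod_cast hmpos
      set z : ℝ := (d:ℝ) / SS with hz
      have hz0 : 0 ≤ z := by positivity
      have hUz : Up d z := le_of_eq rfl
      have hLz : Lo d z := le_of_eq rfl
      have h1 : (m:ℝ) ≤ (x:ℝ) / 2 ^ k := by
        rw [hmdef]
        have : ((x / 2 ^ k : ℕ) : ℝ) ≤ (x:ℝ) / ((2 ^ k : ℕ) : ℝ) := Nat.cast_div_le
        push_cast at this
        exact this
      have h2 : log ((m:ℝ) / SS) ≤ log (((x:ℝ) / 2 ^ k) / SS) := by
        apply log_le_log (by positivity)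
        exact div_le_div_of_nonneg_right h1 hS.le
      have hmR : (mj:ℝ) ≤ (m:ℝ) := by exact_mod_cast hmjm
      have e3 : (m:ℝ) / SS = ((mj:ℝ) / SS) * (1 + (((m - mj : ℕ) : ℝ) / (mj:ℝ))) := by
        have : ((m - mj : ℕ) : ℝ) = (m:ℝ) - (mj:ℝ) := by
          rw [Nat.cast_sub hmjm]
        rw [this]
        field_simp
        ring
      set e : ℝ := ((m - mj : ℕ) : ℝ) / (mj:ℝ) with he
      have he0 : 0 ≤ e := by positivity
      have hez : z ≤ e := by
        have : ((((m - mj) * SS / mj : ℕ)) : ℝ) ≤ (((m - mj) * SS : ℕ) : ℝ) / (mj:ℝ) := Nat.cast_div_le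
        rw [hz, hddef, he]
        push_cast at this
        rw [div_le_iff₀ hS]
        have e5 : ((m - mj : ℕ) : ℝ) / (mj:ℝ) * SS = ((m - mj : ℕ) : ℝ) * SS / (mj:ℝ) := by
          ring
        rw [e5]
        exact this
      have h3 : log ((m:ℝ) / SS) = lg j + log (1 + e) := by
        rw [e3, log_mul (by positivity) (by positivity)]
        congr 1
        unfold lg
        rw [hmjdef, mj_real]
      have h4 : z - z ^ 2 / 2 ≤ log (1 + e) :=
        (le_log_one_add hz0).trans (log_le_log (by positivity) (by linarith))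
      have hsplit := log_split (k := k) hx0
      have hLk : Lo (Nat.mul k L2lo) ((k:ℝ) * log 2) := lo_nmul lo_L2
      have hLt : Lo (tabLo j) (lg j) := (tab_bounds j (by omega)).1
      have hUd2 : Up (Nat.add (Nat.div (mulU d d) 2) 1) (z * z / ((2:ℕ):ℝ)) :=
        up_div (up_mulU hUz hUz hz0 hz0) (by norm_num)
      have hsum := lo_add (lo_add hLk hLt) hLz
      have hval : (k:ℝ) * log 2 + lg j + z - z * z / ((2:ℕ):ℝ) ≤ log ((x:ℝ) / SS) := by
        push_cast
        rw [hsplit]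
        nlinarith [h2, h3, h4]
      rcases le_total (Nat.add (Nat.div (mulU d d) 2) 1) (Nat.add (Nat.add (Nat.mul k L2lo) (tabLo j)) d) with hc | hc
      · exact lo_mono (lo_sub' hsum hUd2 hc) hval
      · have e0 : Nat.sub (Nat.add (Nat.add (Nat.mul k L2lo) (tabLo j)) d) (Nat.add (Nat.div (mulU d d) 2) 1) = 0 :=
          Nat.sub_eq_zero_of_le hc
        rw [e0]
        simpa [Lo] using hlog0

end Vale.Agent.Lib.P322B.Grid
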