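import Vale.Agent.Lib.P322B.Flow

/-!
An explicit closed form lower bound for the kernel `1 / (s^2 y(s))` and its antiderivative.
-/

namespace Vale.Agent.Lib.P322B

open Vale.Agent.Lib.P322 Real

/-- The polynomial approximation of `s / y(s)` in `s^2`. -/
noncomputable def LamJ (s : ℝ) : ℝ := 1 - s ^ 2 / 4 - s ^ 4 / 3

/-- The antiderivative of `LamJ^2 / s^4` vanishing at one. -/
noncomputable def Rb (s : ℝ) : ℝ :=
  -1 / (3 * s ^ 3) + 1 / (2 * s) - 29 / 48 * s + s ^ 3 / 18 + s ^ 5 / 45 + 259 / 720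

/-- The polynomial cofactor of `Rb`. -/
noncomputable def Nb (s : ℝ) : ℝ :=
  -1 / 3 - s / 3 + s ^ 2 / 6 + 379 / 720 * s ^ 3 - 7 / 90 * s ^ 4 - 7 / 90 * s ^ 5 - s ^ 6 / 45
    - s ^ 7 / 45

lemma Rb_eq {s : ℝ} (hs : s ≠ 0) : Rb s = (1 - s) * (Nb s / s ^ 3) := by
  unfold Rb Nb
  field_simp
  ring

/-- The explicit primitive. -/
noncomputable def Jb (s : ℝ) : ℝ :=
  -109 / 90 + 259 / 720 * log 2 + 5 / (6 * s ^ 2) + 1 / 3 * log s + 67 / 180 * s ^ 2 + s ^ 4 / 180
    + Rb s * y s - 259 / 720 * log (1 + s)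

lemma Jb_one : Jb 1 = 0 := by
  have h : Rb 1 = 0 := by
    unfold Rb; norm_num
  unfold Jb
  rw [h]
  norm_num
  ring

lemma hasDerivAt_Rb {s : ℝ} (hs : s ≠ 0) : HasDerivAt Rb (LamJ s ^ 2 / s ^ 4) s := by
  have h1 : HasDerivAt (fun t : ℝ => t) 1 s := hasDerivAt_id' s
  have h3 : HasDerivAt (fun t : ℝ => t ^ 3) (3 * s ^ 2) s := by simpa using hasDerivAt_pow 3 s
  have h5 : HasDerivAt (fun t : ℝ => t ^ 5) (5 * s ^ 4) s := by simpa using hasDerivAt_pow 5 s
  have hs3 : (3 * s ^ 3) ≠ 0 := by positivity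
  have hs2 : (2 * s) ≠ 0 := by positivity
  have a1 := (hasDerivAt_const s (-1 : ℝ)).div (h3.const_mul 3) hs3
  have a2 := (hasDerivAt_const s (1 : ℝ)).div (h1.const_mul 2) hs2
  have a3 := h1.const_mul (29 / 48 : ℝ)
  have a4 := h3.div_const 18
  have a5 := h5.div_const 45
  have tot := ((((a1.add a2).sub a3).add a4).add a5).add_const (259 / 720 : ℝ)
  refine HasDerivAt.congr_deriv (f := Rb) tot ?_
  unfold LamJ
  field_simp
  ring

/-- The derivative of the explicit primitive. -/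
lemma hasDerivAt_Jb {s : ℝ} (h0 : 0 < s) (h1 : s < 1) :
    HasDerivAt Jb (- (2 * LamJ s / s ^ 3 - LamJ s ^ 2 * y s / s ^ 4)) s := by
  have hs : s ≠ 0 := h0.ne'
  have hab : |s| < 1 := by rw [abs_of_pos h0]; exact h1
  have hid : HasDerivAt (fun t : ℝ => t) 1 s := hasDerivAt_id' s
  have h2 : HasDerivAt (fun t : ℝ => t ^ 2) (2 * s) s := by simpa using hasDerivAt_pow 2 s
  have h4 : HasDerivAt (fun t : ℝ => t ^ 4) (4 * s ^ 3) s := by simpa using hasDerivAt_pow 4 s
  have hs6 : (6 * s ^ 2) ≠ 0 := by positivity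
  have a1 := (hasDerivAt_const s (5 : ℝ)).div (h2.const_mul 6) hs6
  have a2 := (Real.hasDerivAt_log hs).const_mul (1 / 3 : ℝ)
  have a3 := h2.const_mul (67 / 180 : ℝ)
  have a4 := h4.div_const 180
  have a5 := (hasDerivAt_Rb hs).mul (hasDerivAt_y hab)
  have hp : (1 + s) ≠ 0 := by positivity
  have a6 := ((hid.const_add (1 : ℝ)).log hp).const_mul (259 / 720 : ℝ)
  have tot := ((((a1.const_add (-109 / 90 + 259 / 720 * log 2)).add a2).add a3).add a4)
  have tot2 := (tot.add a5).sub a6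
  refine HasDerivAt.congr_deriv (f := Jb) tot2 ?_
  have h1s : (1 - s ^ 2) ≠ 0 := (one_sub_sq_pos_of_abs hab).ne'
  have h1s2 : (1 - s) ≠ 0 := by linarith
  have e3 : (1 - s ^ 2) = (1 - s) * (1 + s) := by ring
  rw [e3]
  unfold LamJ Rb
  field_simp
  ring

/-- The explicit primitive has derivative at least minus the kernel. -/
lemma Jb_deriv_ge {s : ℝ} (h0 : 0 < s) (h1 : s < 1) :
    - (1 / (s ^ 2 * y s)) ≤ - (2 * LamJ s / s ^ 3 - LamJ s ^ 2 * y s / s ^ 4) := by
  have hy := y_pos h0 h1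
  have e : 1 / (s ^ 2 * y s) - (2 * LamJ s / s ^ 3 - LamJ s ^ 2 * y s / s ^ 4)
      = (s - LamJ s * y s) ^ 2 / (s ^ 4 * y s) := by
    field_simp
    ring
  have : 0 ≤ (s - LamJ s * y s) ^ 2 / (s ^ 4 * y s) := by positivity
  linarith

/-- Continuity of the explicit primitive up to one. -/
lemma continuousOn_Jb {a : ℝ} (ha : 0 < a) : ContinuousOn Jb (Set.Icc a 1) := by
  have hne : ∀ s ∈ Set.Icc a 1, s ≠ 0 := fun s hs => (ha.trans_le hs.1).ne'
  have hlog1 : ContinuousOn (fun s : ℝ => log (1 + s)) (Set.Icc a 1) := by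
    apply ContinuousOn.log (by fun_prop)
    intro s hs
    have := ha.trans_le hs.1
    positivity
  have hlog2 : Continuous (fun s : ℝ => (1 - s) * log (1 - s)) :=
    Real.continuous_mul_log.comp (continuous_const.sub continuous_id)
  have hyterm : ContinuousOn (fun s => Rb s * y s) (Set.Icc a 1) := by
    have e : Set.EqOn (fun s => (Nb s / s ^ 3) * (((1 - s) * log (1 + s) - (1 - s) * log (1 - s)) / 2))
        (fun s => Rb s * y s) (Set.Icc a 1) := by
      intro s hs
      simp only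
      rw [Rb_eq (hne s hs)]
      unfold y
      ring
    apply ContinuousOn.congr _ e.symm
    apply ContinuousOn.mul
    · apply ContinuousOn.div (by unfold Nb; fun_prop) (by fun_prop)
      intro s hs
      exact pow_ne_zero 3 (hne s hs)
    · apply ContinuousOn.div_const
      apply ContinuousOn.sub
      · exact (continuous_const.sub continuous_id).continuousOn.mul hlog1
      · exact hlog2.continuousOn
  unfold Jb
  have h5 : ContinuousOn (fun s : ℝ => 5 / (6 * s ^ 2)) (Set.Icc a 1) := by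
    apply ContinuousOn.div (by fun_prop) (by fun_prop)
    intro s hs
    have := hne s hs
    positivity
  have hl : ContinuousOn (fun s : ℝ => 1 / 3 * log s) (Set.Icc a 1) :=
    continuousOn_const.mul (Real.continuousOn_log.mono (fun s hs => hne s hs))
  have hp1 : ContinuousOn (fun s : ℝ => 67 / 180 * s ^ 2) (Set.Icc a 1) := by fun_prop
  have hp2 : ContinuousOn (fun s : ℝ => s ^ 4 / 180) (Set.Icc a 1) := by fun_prop
  exact (((((continuousOn_const.add h5).add hl).add hp1).add hp2).add hyterm).sub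
    (continuousOn_const.mul hlog1)

end Vale.Agent.Lib.P322B
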