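import Vale.Agent.Lib.P322B.EEfacts

/-!
The function `K`: properties of `rho`, `KK`, `Et`, `Pit`, and the perspective `QQ`.
-/

namespace Vale.Agent.Lib.P322B

open Vale.Agent.Lib.P322 Real Set Filter Topology

lemma log_two_pos' : 0 < log 2 := log_pos (by norm_num)

lemma exists_hh_eq {w : ℝ} (h0 : 0 < w) (h1 : w < log 2) : ∃ u, 0 < u ∧ u < 1 ∧ hh u = w := by
  have h : w ∈ Icc (hh 1) (hh 0) := by
    rw [hh_one, hh_zero]; exact ⟨h0.le, h1.le⟩
  obtain ⟨u, hu, e⟩ := intermediate_value_Icc' (by norm_num : (0:ℝ) ≤ 1)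
    continuous_hh.continuousOn h
  refine ⟨u, ?_, ?_, e⟩
  · rcases hu.1.eq_or_lt with h2 | h2
    · subst h2; rw [hh_zero] at e; linarith
    · exact h2
  · rcases hu.2.eq_or_lt with h2 | h2
    · subst h2; rw [hh_one] at e; linarith
    · exact h2

lemma rho_spec {w : ℝ} (h0 : 0 < w) (h1 : w < log 2) :
    0 < rho w ∧ rho w < 1 ∧ hh (rho w) = w := by
  have h := exists_hh_eq h0 h1
  unfold rho
  rw [dif_pos h]
  exact Classical.choose_spec h

lemma rho_eq_of_hh {u : ℝ} (h0 : 0 < u) (h1 : u < 1) : rho (hh u) = u := by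
  have hp := hh_pos h0.le h1
  have hl := hh_lt_log_two h0 h1
  obtain ⟨a, b, c⟩ := rho_spec hp hl
  exact strictAntiOn_hh.injOn ⟨a.le, b⟩ ⟨h0.le, h1⟩ c

lemma rho_of_ge {w : ℝ} (h1 : log 2 ≤ w) : rho w = 0 := by
  unfold rho
  rw [dif_neg]
  rintro ⟨u, a, b, c⟩
  have := hh_lt_log_two a b
  linarith

lemma rho_of_nonpos {w : ℝ} (h1 : w ≤ 0) : rho w = 0 := by
  unfold rho
  rw [dif_neg]
  rintro ⟨u, a, b, c⟩
  have := hh_pos a.le b
  linarith

lemma rho_nonneg (w : ℝ) : 0 ≤ rho w := by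
  by_cases h : 0 < w ∧ w < log 2
  · exact (rho_spec h.1 h.2).1.le
  · rw [not_and_or] at h
    rcases h with h | h
    · rw [rho_of_nonpos (not_lt.mp h)]
    · rw [rho_of_ge (not_lt.mp h)]

lemma rho_lt_one (w : ℝ) : rho w < 1 := by
  by_cases h : 0 < w ∧ w < log 2
  · exact (rho_spec h.1 h.2).2.1
  · rw [not_and_or] at h
    rcases h with h | h
    · rw [rho_of_nonpos (not_lt.mp h)]; norm_num
    · rw [rho_of_ge (not_lt.mp h)]; norm_num

lemma rho_mem (w : ℝ) : rho w ∈ Ico (0:ℝ) 1 := ⟨rho_nonneg w, rho_lt_one w⟩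

/-- `hh (rho w) = min w (log 2)` on `w > 0`, in two forms. -/
lemma hh_rho_of_lt {w : ℝ} (h0 : 0 < w) (h1 : w < log 2) : hh (rho w) = w :=
  (rho_spec h0 h1).2.2

lemma hh_rho_le {w : ℝ} (h0 : 0 < w) : hh (rho w) ≤ w := by
  by_cases h : w < log 2
  · rw [hh_rho_of_lt h0 h]
  · rw [rho_of_ge (not_lt.mp h), hh_zero]; linarith

lemma rho_lt_of_lt {v w : ℝ} (h0 : 0 < v) (h1 : v < 1) (h : hh v < w) : rho w < v := by
  by_cases hw : w < log 2
  · have hpos : 0 < w := lt_trans (hh_pos h0.le h1) h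
    have e := hh_rho_of_lt hpos hw
    by_contra hc
    have h2 : v ≤ rho w := not_lt.mp hc
    have := strictAntiOn_hh.antitoneOn ⟨h0.le, h1⟩ (rho_mem w) h2
    linarith
  · rw [rho_of_ge (not_lt.mp hw)]; exact h0

lemma lt_rho_of_lt {v w : ℝ} (h0 : 0 ≤ v) (h1 : v < 1) (hw0 : 0 < w) (h : w < hh v) :
    v < rho w := by
  have hl := hh_le_log_two h0 h1
  have e := hh_rho_of_lt hw0 (lt_of_lt_of_le h hl)
  by_contra hc
  have h2 : rho w ≤ v := not_lt.mp hc
  have := strictAntiOn_hh.antitoneOn (rho_mem w) ⟨h0, h1⟩ h2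
  linarith

lemma rho_anti {w₁ w₂ : ℝ} (h0 : 0 < w₁) (h : w₁ ≤ w₂) : rho w₂ ≤ rho w₁ := by
  by_contra hc
  have hc' : rho w₁ < rho w₂ := not_le.mp hc
  have h0' : 0 < rho w₂ := lt_of_le_of_lt (rho_nonneg _) hc'
  have h5 : w₂ < log 2 := by
    by_contra h6
    rw [rho_of_ge (not_lt.mp h6)] at h0'
    exact lt_irrefl _ h0'
  have h7 : w₁ < log 2 := lt_of_le_of_lt h h5
  have e1 := hh_rho_of_lt h0 h7
  have e2 := hh_rho_of_lt (lt_of_lt_of_le h0 h) h5
  have := strictAntiOn_hh (rho_mem w₁) (rho_mem w₂) hc'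
  linarith

lemma continuousAt_rho {w : ℝ} (h0 : 0 < w) : ContinuousAt rho w := by
  rw [ContinuousAt, tendsto_order]
  constructor
  · intro a ha
    by_cases ha0 : a < 0
    · exact Eventually.of_forall fun v => lt_of_lt_of_le ha0 (rho_nonneg v)
    · have ha0' : 0 ≤ a := not_lt.mp ha0
      have hr : 0 < rho w := lt_of_le_of_lt ha0' ha
      have hw : w < log 2 := by
        by_contra h6
        rw [rho_of_ge (not_lt.mp h6)] at hr
        exact lt_irrefl _ hr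
      have e := hh_rho_of_lt h0 hw
      have ha1 : a < 1 := ha.trans (rho_lt_one w)
      have h2 : w < hh a := by
        rw [← e]
        exact strictAntiOn_hh ⟨ha0', ha1⟩ (rho_mem w) ha
      filter_upwards [lt_mem_nhds h0, gt_mem_nhds h2] with v hv1 hv2
      exact lt_rho_of_lt ha0' ha1 hv1 hv2
  · intro b hb
    by_cases hb1 : 1 ≤ b
    · exact Eventually.of_forall fun v => lt_of_lt_of_le (rho_lt_one v) hb1
    · have hb1' : b < 1 := not_le.mp hb1
      have hb0 : 0 < b := lt_of_le_of_lt (rho_nonneg w) hb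
      have h2 : hh b < w := by
        have h3 := strictAntiOn_hh (rho_mem w) ⟨hb0.le, hb1'⟩ hb
        exact lt_of_lt_of_le h3 (hh_rho_le h0)
      filter_upwards [lt_mem_nhds h2] with v hv
      exact rho_lt_of_lt hb0 hb1' hv

/-! ### `KK`, `Et` -/

lemma KK_nonneg (w : ℝ) : 0 ≤ KK w := kap_nonneg (rho_nonneg w) (rho_lt_one w)
lemma Et_nonneg (w : ℝ) : 0 ≤ Et w := EE_nonneg (rho_nonneg w) (rho_lt_one w)

lemma KK_of_ge {w : ℝ} (h : log 2 ≤ w) : KK w = 0 := by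
  unfold KK; rw [rho_of_ge h, kap_zero]

lemma Et_of_ge {w : ℝ} (h : log 2 ≤ w) : Et w = 0 := by
  unfold Et; rw [rho_of_ge h, EE_zero]

lemma KK_hh {u : ℝ} (h0 : 0 ≤ u) (h1 : u < 1) : KK (hh u) = kap u := by
  rcases h0.eq_or_lt with rfl | h0'
  · rw [hh_zero, KK_of_ge le_rfl, kap_zero]
  · unfold KK; rw [rho_eq_of_hh h0' h1]

lemma Et_hh {u : ℝ} (h0 : 0 ≤ u) (h1 : u < 1) : Et (hh u) = EE u := by
  rcases h0.eq_or_lt with rfl | h0'
  · rw [hh_zero, Et_of_ge le_rfl, EE_zero]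
  · unfold Et; rw [rho_eq_of_hh h0' h1]

lemma Pit_hh {u : ℝ} (h0 : 0 ≤ u) (h1 : u < 1) : Pit (hh u) = PiR u := by
  unfold Pit PiR; rw [KK_hh h0 h1, Et_hh h0 h1]

/-- The tangent inequality for `K`. -/
lemma KK_tangent {w w' : ℝ} (h0 : 0 < w) (h0' : 0 < w') :
    KK w - Et w * (w' - w) ≤ KK w' := by
  have t := tangent_u (rho_nonneg w) (rho_lt_one w) (rho_nonneg w') (rho_lt_one w')
  have hE := Et_nonneg w
  unfold KK Et at *
  by_cases hw : w < log 2
  · have e := hh_rho_of_lt h0 hw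
    have h1 := hh_rho_le h0'
    rw [e] at t
    nlinarith
  · rw [rho_of_ge (not_lt.mp hw), EE_zero, kap_zero] at *
    simpa using kap_nonneg (rho_nonneg w') (rho_lt_one w')

/-- The tangent inequality at `w = hh τ`. -/
lemma KK_ge_tangent {τ w : ℝ} (h0 : 0 ≤ τ) (h1 : τ < 1) (hw : 0 < w) :
    kap τ - EE τ * (w - hh τ) ≤ KK w := by
  have := KK_tangent (hh_pos h0 h1) hw
  rwa [KK_hh h0 h1, Et_hh h0 h1] at this

lemma Et_anti {w₁ w₂ : ℝ} (h0 : 0 < w₁) (h : w₁ ≤ w₂) : Et w₂ ≤ Et w₁ :=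
  monotoneOn_EE (rho_mem w₂) (rho_mem w₁) (rho_anti h0 h)

lemma continuousAt_Et {w : ℝ} (h0 : 0 < w) : ContinuousAt Et w := by
  have h1 : ContinuousWithinAt EE (Ico 0 1) (rho w) := continuousOn_EE _ (rho_mem w)
  have h2 : ContinuousWithinAt rho univ w := (continuousAt_rho h0).continuousWithinAt
  have := h1.comp h2 (fun v _ => rho_mem v)
  exact this.continuousAt Filter.univ_mem

lemma hasDerivAt_KK {w : ℝ} (h0 : 0 < w) : HasDerivAt KK (- Et w) w := by
  rw [hasDerivAt_iff_isLittleO, Asymptotics.isLittleO_iff]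
  intro c hc
  have hcont := continuousAt_Et h0
  have hev : ∀ᶠ v in 𝓝 w, |Et v - Et w| < c := by
    have := (hcont.tendsto.sub_const (Et w))
    rw [sub_self] at this
    have h2 := this.abs
    simp only [abs_zero] at h2
    exact h2.eventually (gt_mem_nhds hc)
  filter_upwards [hev, lt_mem_nhds h0] with v hv hv0
  have t1 := KK_tangent h0 hv0
  have t2 := KK_tangent hv0 h0
  simp only [smul_eq_mul, Real.norm_eq_abs]
  have ha : 0 ≤ |v - w| := abs_nonneg _
  have key1 : 0 ≤ KK v - KK w - (v - w) * (- Et w) := by nlinarith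
  have key2 : KK v - KK w - (v - w) * (- Et w) ≤ (Et w - Et v) * (v - w) := by nlinarith
  rw [abs_of_nonneg key1]
  calc _ ≤ (Et w - Et v) * (v - w) := key2
    _ ≤ |Et w - Et v| * |v - w| := by
        rw [← abs_mul]; exact le_abs_self _
    _ ≤ c * |v - w| := by
        apply mul_le_mul_of_nonneg_right _ ha
        rw [abs_sub_comm]; exact hv.le

lemma Pit_of_ge {w : ℝ} (h : log 2 ≤ w) : Pit w = 0 := by
  unfold Pit; rw [KK_of_ge h, Et_of_ge h]; ring

lemma Pit_nonneg {w : ℝ} (h0 : 0 < w) : 0 ≤ Pit w := by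
  unfold Pit
  have := KK_nonneg w
  have := Et_nonneg w
  positivity

lemma Pit_anti {w₁ w₂ : ℝ} (h0 : 0 < w₁) (h : w₁ ≤ w₂) : Pit w₂ ≤ Pit w₁ := by
  unfold Pit
  have h2 : 0 < w₂ := lt_of_lt_of_le h0 h
  have t := KK_tangent h2 h0
  have := Et_anti h0 h
  nlinarith

/-- `K` is decreasing. -/
lemma KK_anti {w₁ w₂ : ℝ} (h0 : 0 < w₁) (h : w₁ ≤ w₂) : KK w₂ ≤ KK w₁ := by
  have h2 : 0 < w₂ := lt_of_lt_of_le h0 h
  have t := KK_tangent h2 h0
  have := Et_nonneg w₂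
  nlinarith

/-! ### Perspective function -/

/-- The perspective `Q(z) = z K(h / z)`. -/
noncomputable def QQ (h z : ℝ) : ℝ := z * KK (h / z)

lemma hasDerivAt_QQ {h z : ℝ} (hh0 : 0 < h) (hz : 0 < z) :
    HasDerivAt (QQ h) (Pit (h / z)) z := by
  have hw : 0 < h / z := by positivity
  have d1 : HasDerivAt (fun v : ℝ => h / v) (- h / z ^ 2) z := by
    have := (hasDerivAt_inv hz.ne').const_mul h
    refine (this.congr_deriv (by field_simp)).congr_of_eventuallyEq ?_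
    filter_upwards with v
    simp [div_eq_mul_inv]
  have d2 : HasDerivAt (fun v : ℝ => KK (h / v)) (- Et (h / z) * (- h / z ^ 2)) z :=
    HasDerivAt.comp (h₂ := KK) z (hasDerivAt_KK hw) d1
  have d3 := (hasDerivAt_id' z).mul d2
  refine HasDerivAt.congr_deriv (f := QQ h) d3 ?_
  unfold Pit
  field_simp

lemma QQ_mono {h z₁ z₂ : ℝ} (hh0 : 0 < h) (hz : 0 < z₁) (hz' : z₁ ≤ z₂) : QQ h z₁ ≤ QQ h z₂ := by
  have hm : MonotoneOn (QQ h) (Ioi 0) := by
    apply monotoneOn_of_deriv_nonneg (convex_Ioi 0)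
    · intro v hv
      exact (hasDerivAt_QQ hh0 hv).continuousAt.continuousWithinAt
    · intro v hv
      rw [interior_Ioi] at hv
      exact (hasDerivAt_QQ hh0 hv).differentiableAt.differentiableWithinAt
    · intro v hv
      rw [interior_Ioi] at hv
      rw [(hasDerivAt_QQ hh0 hv).deriv]
      exact Pit_nonneg (by have : (0:ℝ) < v := hv; positivity)
  exact hm hz (lt_of_lt_of_le hz hz') hz'

/-- Perspective Jensen for two points. -/
lemma persp_jensen {H₁ H₂ w₁ w₂ : ℝ} (hH₁ : 0 < H₁) (hH₂ : 0 < H₂) (hw₁ : 0 < w₁) (hw₂ : 0 < w₂) :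
    ((w₁ + w₂) / 2) * KK (((H₁ + H₂) / 2) / ((w₁ + w₂) / 2)) ≤
      (w₁ * KK (H₁ / w₁) + w₂ * KK (H₂ / w₂)) / 2 := by
  set W := (w₁ + w₂) / 2 with hW
  set H := (H₁ + H₂) / 2 with hH
  have hW0 : 0 < W := by positivity
  have hH0 : 0 < H := by positivity
  have hr : 0 < H / W := by positivity
  have t1 := KK_tangent hr (show 0 < H₁ / w₁ by positivity)
  have t2 := KK_tangent hr (show 0 < H₂ / w₂ by positivity)
  have m1 := mul_le_mul_of_nonneg_left t1 hw₁.le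
  have m2 := mul_le_mul_of_nonneg_left t2 hw₂.le
  have e1 : w₁ * (KK (H / W) - Et (H / W) * (H₁ / w₁ - H / W)) =
      w₁ * KK (H / W) - Et (H / W) * (H₁ - w₁ * (H / W)) := by
    field_simp
  have e2 : w₂ * (KK (H / W) - Et (H / W) * (H₂ / w₂ - H / W)) =
      w₂ * KK (H / W) - Et (H / W) * (H₂ - w₂ * (H / W)) := by
    field_simp
  rw [e1] at m1
  rw [e2] at m2
  have e3 : (H₁ - w₁ * (H / W)) + (H₂ - w₂ * (H / W)) = 0 := by
    have : (H₁ + H₂) - (w₁ + w₂) * (H / W) = 2 * H - 2 * W * (H / W) := by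
      rw [hH, hW]; ring
    have e4 : 2 * W * (H / W) = 2 * H := by field_simp
    linarith
  have e5 : W * KK (H / W) = (w₁ * KK (H / W) + w₂ * KK (H / W)) / 2 := by rw [hW]; ring
  rw [e5]
  have e6 : Et (H / W) * (H₁ - w₁ * (H / W)) + Et (H / W) * (H₂ - w₂ * (H / W)) = 0 := by
    rw [← mul_add, e3, mul_zero]
  linarith

/-! ### Bounds on `Pit` -/

lemma PiR_zero : PiR 0 = 0 := by
  unfold PiR; rw [kap_zero, EE_zero]; ring

lemma continuousOn_PiR : ContinuousOn PiR (Ico 0 1) := by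
  have h1 : ContinuousOn kap (Ico 0 1) := fun s hs =>
    (hasDerivAt_kap (abs_lt_one_of_Ico hs.1 hs.2)).continuousAt.continuousWithinAt
  exact h1.add (continuous_hh.continuousOn.mul continuousOn_EE)

lemma hasDerivAt_PiR {u : ℝ} (h0 : 0 < u) (h1 : u < 1) :
    HasDerivAt PiR (hh u * (((1 + u ^ 2) * y u - u) / ((1 - u ^ 2) ^ 2 * y u ^ 2))) u := by
  have hu := abs_lt_one_of_Ico h0.le h1
  have d := (hasDerivAt_kap hu).add ((hasDerivAt_hh hu).mul (hasDerivAt_EE h0 h1))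
  refine HasDerivAt.congr_deriv (f := PiR) d ?_
  rw [kap_deriv_eq h0.le h1]
  ring

/-- `PiR(u) + (2/3) log h(u)` is antitone on `[0,1)`. -/
lemma antitoneOn_PiR_log : AntitoneOn (fun u => PiR u + 2 / 3 * log (hh u)) (Ico 0 1) := by
  have hc : ContinuousOn (fun u => PiR u + 2 / 3 * log (hh u)) (Ico 0 1) := by
    apply continuousOn_PiR.add
    apply ContinuousOn.mul continuousOn_const
    apply ContinuousOn.log continuous_hh.continuousOn
    intro s hs
    exact (hh_pos hs.1 hs.2).ne'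
  have key : ∀ u ∈ Ioo (0:ℝ) 1, HasDerivAt (fun u => PiR u + 2 / 3 * log (hh u))
      (hh u * (((1 + u ^ 2) * y u - u) / ((1 - u ^ 2) ^ 2 * y u ^ 2)) +
        2 / 3 * (- y u / hh u)) u := by
    intro u hu
    have hu' := abs_lt_one_of_Ico hu.1.le hu.2
    have hp := hh_pos hu.1.le hu.2
    exact (hasDerivAt_PiR hu.1 hu.2).add (((hasDerivAt_hh hu').log hp.ne').const_mul _)
  apply antitoneOn_of_deriv_nonpos (convex_Ico 0 1) hc
  · intro v hv
    rw [interior_Ico] at hv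
    exact (key v hv).differentiableAt.differentiableWithinAt
  · intro u hu
    rw [interior_Ico] at hu
    rw [(key u hu).deriv]
    have hp := hh_pos hu.1.le hu.2
    have hu' := abs_lt_one_of_Ico hu.1.le hu.2
    have h3 := one_sub_sq_pos_of_abs hu'
    have hy := y_pos hu.1 hu.2
    have f2 := F2 hu.1 hu.2
    have e : hh u * (((1 + u ^ 2) * y u - u) / ((1 - u ^ 2) ^ 2 * y u ^ 2)) +
        2 / 3 * (- y u / hh u) =
        (3 * hh u ^ 2 * ((1 + u ^ 2) * y u - u) - 2 * (1 - u ^ 2) ^ 2 * y u ^ 3) /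
          (3 * hh u * ((1 - u ^ 2) ^ 2 * y u ^ 2)) := by
      field_simp
      ring
    rw [e]
    apply div_nonpos_of_nonpos_of_nonneg (by linarith) (by positivity)

/-- (G1) -/
lemma Pit_log_lip {w₁ w₂ : ℝ} (h0 : 0 < w₁) (h : w₁ ≤ w₂) :
    Pit w₁ - Pit w₂ ≤ 2 / 3 * log (w₂ / w₁) := by
  have h2 : 0 < w₂ := lt_of_lt_of_le h0 h
  have hl : log (w₂ / w₁) = log w₂ - log w₁ := log_div h2.ne' h0.ne'
  have hmono : log w₁ ≤ log w₂ := log_le_log h0 h
  by_cases hw1 : w₁ < log 2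
  · have e1 := hh_rho_of_lt h0 hw1
    have p1 : Pit w₁ = PiR (rho w₁) := by
      conv_lhs => rw [← e1]
      exact Pit_hh (rho_nonneg _) (rho_lt_one _)
    by_cases hw2 : w₂ < log 2
    · have e2 := hh_rho_of_lt h2 hw2
      have p2 : Pit w₂ = PiR (rho w₂) := by
        conv_lhs => rw [← e2]
        exact Pit_hh (rho_nonneg _) (rho_lt_one _)
      have a := antitoneOn_PiR_log (rho_mem w₂) (rho_mem w₁) (rho_anti h0 h)
      simp only [e1, e2] at a
      rw [p1, p2, hl]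
      linarith
    · have hz : w₂ ≥ log 2 := not_lt.mp hw2
      have a := antitoneOn_PiR_log (left_mem_Ico.mpr (by norm_num)) (rho_mem w₁) (rho_nonneg w₁)
      simp only [e1, PiR_zero, hh_zero] at a
      have hll : log (log 2) ≤ log w₂ := log_le_log log_two_pos' hz
      rw [p1, Pit_of_ge hz, hl]
      linarith
  · have hz : w₁ ≥ log 2 := not_lt.mp hw1
    rw [Pit_of_ge hz, Pit_of_ge (hz.trans h), hl]
    linarith

/-- `PiR(u) ≤ -(1/2) log(1-u^2)` from `F3`. -/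
lemma PiR_le {u : ℝ} (h0 : 0 ≤ u) (h1 : u < 1) : PiR u ≤ - (1 / 2) * log (1 - u ^ 2) := by
  rcases h0.eq_or_lt with rfl | h0'
  · rw [PiR_zero]; norm_num
  have hu := abs_lt_one_of_Ico h0 h1
  have h3 := one_sub_sq_pos_of_abs hu
  have hy := y_pos h0' h1
  have f3 := F3 h0 h1
  have hphi := phi_eq hu
  have e : hh u * (u / ((1 - u ^ 2) * y u)) ≤ log 2 := by
    have : hh u * (u / ((1 - u ^ 2) * y u)) = u * hh u / ((1 - u ^ 2) * y u) := by ring
    rw [this, div_le_iff₀ (by positivity)]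
    linarith
  unfold PiR
  rw [EE_eq h0'.ne']
  unfold kap
  have e2 : hh u = log 2 - phi u := rfl
  rw [mul_sub, mul_one]
  rw [e2] at e ⊢
  nlinarith

lemma Pit_le_of_hh {u w : ℝ} (h0 : 0 ≤ u) (h1 : u < 1) (hwu : hh u ≤ w) :
    Pit w ≤ - (1 / 2) * log (1 - u ^ 2) := by
  have := Pit_anti (hh_pos h0 h1) hwu
  rw [Pit_hh h0 h1] at this
  exact this.trans (PiR_le h0 h1)

end Vale.Agent.Lib.P322B
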