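import Vale.Agent.Lib.P322B.Kfun

/-!
Hyperbolic coordinates, the two pointwise lower bounds for the two-point energy `jj`.
-/

namespace Vale.Agent.Lib.P322B

open Vale.Agent.Lib.P322 Real Set Filter Topology

lemma abs_tadd {a b : ℝ} (ha : |a| < 1) (hb : |b| < 1) : |(a + b) / (1 + a * b)| < 1 := by
  have h1 := abs_lt.mp ha
  have h2 := abs_lt.mp hb
  have h3 : 0 < 1 + a * b := by nlinarith
  rw [abs_lt]
  constructor
  · rw [lt_div_iff₀ h3]; nlinarith
  · rw [div_lt_iff₀ h3]; nlinarith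

lemma tadd_pos {a b : ℝ} (ha : |a| < 1) (hb : |b| < 1) : 0 < 1 + a * b := by
  have h1 := abs_lt.mp ha
  have h2 := abs_lt.mp hb
  nlinarith

lemma tsub_pos {a b : ℝ} (ha : |a| < 1) (hb : |b| < 1) : 0 < 1 - a * b := by
  have h1 := abs_lt.mp ha
  have h2 := abs_lt.mp hb
  nlinarith

lemma y_add {a b : ℝ} (ha : |a| < 1) (hb : |b| < 1) :
    y ((a + b) / (1 + a * b)) = y a + y b := by
  have h0 := tadd_pos ha hb
  have ha1 := one_add_pos_of_abs ha
  have ha2 := one_sub_pos_of_abs ha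
  have hb1 := one_add_pos_of_abs hb
  have hb2 := one_sub_pos_of_abs hb
  have e1 : 1 + (a + b) / (1 + a * b) = (1 + a) * (1 + b) / (1 + a * b) := by
    field_simp; ring
  have e2 : 1 - (a + b) / (1 + a * b) = (1 - a) * (1 - b) / (1 + a * b) := by
    field_simp; ring
  unfold y
  rw [e1, e2, log_div (by positivity) h0.ne', log_div (by positivity) h0.ne',
    log_mul ha1.ne' hb1.ne', log_mul ha2.ne' hb2.ne']
  ring

lemma abs_neg_lt {a : ℝ} (ha : |a| < 1) : |-a| < 1 := by rwa [abs_neg]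

lemma y_sub' {a b : ℝ} (ha : |a| < 1) (hb : |b| < 1) :
    y ((a - b) / (1 - a * b)) = y a - y b := by
  have := y_add ha (abs_neg_lt hb)
  rw [y_neg] at this
  rw [show (a - b) / (1 - a * b) = (a + -b) / (1 + a * -b) by ring_nf]
  rw [this]; ring

lemma abs_tsub {a b : ℝ} (ha : |a| < 1) (hb : |b| < 1) : |(a - b) / (1 - a * b)| < 1 := by
  have := abs_tadd ha (abs_neg_lt hb)
  rwa [show (a - b) / (1 - a * b) = (a + -b) / (1 + a * -b) by ring_nf]

lemma strictMonoOn_y : StrictMonoOn y (Ioo (-1) 1) := by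
  have key : ∀ s ∈ Ioo (-1:ℝ) 1, |s| < 1 := fun s hs => abs_lt.mpr hs
  apply strictMonoOn_of_deriv_pos (convex_Ioo _ _)
  · intro s hs
    exact (hasDerivAt_y (key s hs)).continuousAt.continuousWithinAt
  · intro s hs
    rw [interior_Ioo] at hs
    rw [(hasDerivAt_y (key s hs)).deriv]
    have := one_sub_sq_pos_of_abs (key s hs)
    positivity

lemma y_inj {a b : ℝ} (ha : |a| < 1) (hb : |b| < 1) (h : y a = y b) : a = b :=
  strictMonoOn_y.injOn (abs_lt.mp ha) (abs_lt.mp hb) h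

lemma y_lt_iff {a b : ℝ} (ha : |a| < 1) (hb : |b| < 1) : y a < y b ↔ a < b :=
  strictMonoOn_y.lt_iff_lt (abs_lt.mp ha) (abs_lt.mp hb)

/-- The inverse of `y`. -/
noncomputable def yi (z : ℝ) : ℝ := (exp (2 * z) - 1) / (exp (2 * z) + 1)

lemma abs_yi (z : ℝ) : |yi z| < 1 := by
  have h := exp_pos (2 * z)
  unfold yi
  rw [abs_lt]
  constructor
  · rw [lt_div_iff₀ (by positivity)]; linarith
  · rw [div_lt_iff₀ (by positivity)]; linarith

lemma y_yi (z : ℝ) : y (yi z) = z := by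
  have h := exp_pos (2 * z)
  have e1 : 1 + yi z = 2 * exp (2 * z) / (exp (2 * z) + 1) := by
    unfold yi; field_simp; ring
  have e2 : 1 - yi z = 2 / (exp (2 * z) + 1) := by
    unfold yi; field_simp; ring
  unfold y
  rw [e1, e2, log_div (by positivity) (by positivity), log_div (by positivity) (by positivity),
    log_mul (by norm_num) (by positivity), log_exp]
  ring

/-- Hyperbolic coordinates of a pair. -/
lemma exists_coords {p q : ℝ} (hp : |p| < 1) (hq : |q| < 1) :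
    ∃ t τ : ℝ, |t| < 1 ∧ |τ| < 1 ∧ p = (t + τ) / (1 + t * τ) ∧ q = (t - τ) / (1 - t * τ) := by
  have ht := abs_yi ((y p + y q) / 2)
  have hτ := abs_yi ((y p - y q) / 2)
  set t := yi ((y p + y q) / 2) with htdef
  set τ := yi ((y p - y q) / 2) with hτdef
  refine ⟨t, τ, ht, hτ, ?_, ?_⟩
  · apply y_inj hp (abs_tadd ht hτ)
    rw [y_add ht hτ, htdef, hτdef, y_yi, y_yi]; ring
  · apply y_inj hq (abs_tsub ht hτ)
    rw [y_sub' ht hτ, htdef, hτdef, y_yi, y_yi]; ring

lemma y_pos_iff {a : ℝ} (ha : |a| < 1) : 0 < y a ↔ 0 < a := by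
  have := y_lt_iff (a := 0) (b := a) (by simp) ha
  rwa [y_zero] at this

/-- Formula for `1 - p^2` at `p = (t + τ) / (1 + t τ)`. -/
lemma one_sub_tadd_sq {t τ : ℝ} (ht : |t| < 1) (hτ : |τ| < 1) :
    1 - ((t + τ) / (1 + t * τ)) ^ 2 = (1 - t ^ 2) * (1 - τ ^ 2) / (1 + t * τ) ^ 2 := by
  have h0 := tadd_pos ht hτ
  field_simp
  ring

lemma one_sub_tsub_sq {t τ : ℝ} (ht : |t| < 1) (hτ : |τ| < 1) :
    1 - ((t - τ) / (1 - t * τ)) ^ 2 = (1 - t ^ 2) * (1 - τ ^ 2) / (1 - t * τ) ^ 2 := by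
  have h0 := tsub_pos ht hτ
  field_simp
  ring

/-- Sum of `phi` at the two points. -/
lemma phi_pair {t τ : ℝ} (ht : |t| < 1) (hτ : |τ| < 1) :
    phi ((t + τ) / (1 + t * τ)) + phi ((t - τ) / (1 - t * τ)) =
      ((t + τ) / (1 + t * τ) + (t - τ) / (1 - t * τ)) * y t +
      ((t + τ) / (1 + t * τ) - (t - τ) / (1 - t * τ)) * y τ +
      log (1 - t ^ 2) + log (1 - τ ^ 2) - log (1 - (t * τ) ^ 2) := by
  have hp := abs_tadd ht hτ
  have hq := abs_tsub ht hτ
  have h1 := tadd_pos ht hτ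
  have h2 := tsub_pos ht hτ
  have h3 := one_sub_sq_pos_of_abs ht
  have h4 := one_sub_sq_pos_of_abs hτ
  rw [phi_eq hp, phi_eq hq, y_add ht hτ, y_sub' ht hτ, one_sub_tadd_sq ht hτ, one_sub_tsub_sq ht hτ,
    log_div (by positivity) (by positivity), log_div (by positivity) (by positivity),
    log_mul h3.ne' h4.ne', log_pow, log_pow,
    show 1 - (t * τ) ^ 2 = (1 + t * τ) * (1 - t * τ) by ring, log_mul h1.ne' h2.ne']
  push_cast
  ring

/-- The function from the first part of the ray lemma. -/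
noncomputable def PsiR (r C a : ℝ) : ℝ := r * (log 2 - log a / 2) - C + (1 / a + r) * log (1 + r * a) / 2

lemma PsiR_antitone {r C : ℝ} (hr : 0 ≤ r) : AntitoneOn (PsiR r C) (Ioi 0) := by
  have key : ∀ a ∈ Ioi (0:ℝ), HasDerivAt (PsiR r C) (- log (1 + r * a) / (2 * a ^ 2)) a := by
    intro a ha
    have ha' : (0:ℝ) < a := ha
    have h1 : 0 < 1 + r * a := by positivity
    have d1 : HasDerivAt (fun v : ℝ => log v) (1 / a) a := by
      simpa using hasDerivAt_log ha'.ne'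
    have d2 : HasDerivAt (fun v : ℝ => 1 / v) (- 1 / a ^ 2) a := by
      have := hasDerivAt_inv ha'.ne'
      simp only [one_div]
      exact this.congr_deriv (by field_simp)
    have d3 : HasDerivAt (fun v : ℝ => 1 + r * v) r a := by
      simpa using ((hasDerivAt_id' a).const_mul r).const_add 1
    have d4 : HasDerivAt (fun v : ℝ => log (1 + r * v)) (r / (1 + r * a)) a := d3.log h1.ne'
    have d5 : HasDerivAt (fun v : ℝ => 1 / v + r) (- 1 / a ^ 2) a := by
      simpa using d2.add_const r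
    have d6 := ((d1.div_const 2).const_sub (log 2)).const_mul r
    have d7 := (d5.mul d4).div_const 2
    have d8 := (d6.sub_const C).add d7
    refine HasDerivAt.congr_deriv (f := PsiR r C) d8 ?_
    field_simp
    ring
  apply antitoneOn_of_deriv_nonpos (convex_Ioi 0)
  · intro v hv
    exact (key v hv).continuousAt.continuousWithinAt
  · intro v hv
    rw [interior_Ioi] at hv
    exact (key v hv).differentiableAt.differentiableWithinAt
  · intro v hv
    rw [interior_Ioi] at hv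
    rw [(key v hv).deriv]
    have hv' : (0:ℝ) < v := hv
    have : 0 ≤ log (1 + r * v) := log_nonneg (by nlinarith [mul_nonneg hr hv'.le])
    apply div_nonpos_of_nonpos_of_nonneg (by linarith) (by positivity)

/-- (R1): `θ h(τ) ≤ (h p + h q)/2` in hyperbolic coordinates. -/
lemma R1 {t τ : ℝ} (ht : |t| < 1) (hτ : |τ| < 1) :
    (1 - t ^ 2) / (1 - (t * τ) ^ 2) * hh τ ≤
      (hh ((t + τ) / (1 + t * τ)) + hh ((t - τ) / (1 - t * τ))) / 2 := by
  have h3 := one_sub_sq_pos_of_abs ht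
  have h4 := one_sub_sq_pos_of_abs hτ
  have h5 : 0 < 1 - (t * τ) ^ 2 := by
    have h1 := tadd_pos ht hτ
    have h2 := tsub_pos ht hτ
    have : 1 - (t * τ) ^ 2 = (1 + t * τ) * (1 - t * τ) := by ring
    rw [this]; positivity
  set a := 1 - τ ^ 2 with ha
  have ha1 : a ≤ 1 := by rw [ha]; nlinarith [sq_nonneg τ]
  set r := t ^ 2 / (1 - t ^ 2) with hr
  have hr0 : 0 ≤ r := by positivity
  have e1 : 1 + r * a = (1 - (t * τ) ^ 2) / (1 - t ^ 2) := by
    rw [hr, ha]; field_simp; ring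
  have h6 : 0 < 1 + r * a := by rw [e1]; positivity
  set C := y t * t / (1 - t ^ 2) with hC
  -- the lower bound at `a = 1`
  have hPsi : 0 ≤ PsiR r C 1 := by
    have hF4 : log 2 * (1 - |t| ^ 2) ≤ hh |t| := F4 (abs_nonneg t) ht
    rw [sq_abs] at hF4
    have hh_abs : hh |t| = hh t := by unfold hh; rw [phi_abs]
    rw [hh_abs] at hF4
    have hp := phi_eq ht
    have e2 : PsiR r C 1 = (log 2 * t ^ 2 - phi t) / (1 - t ^ 2) := by
      unfold PsiR
      have e3 : 1 + r * 1 = 1 / (1 - t ^ 2) := by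
        rw [hr]; field_simp; ring
      rw [e3, hp, log_div (by norm_num) h3.ne', log_one, hC, hr]
      field_simp
      ring
    rw [e2]
    apply div_nonneg _ h3.le
    have : hh t = log 2 - phi t := rfl
    nlinarith
  have hPsi2 : 0 ≤ PsiR r C a := by
    have := PsiR_antitone (C := C) hr0 (show a ∈ Ioi (0:ℝ) from h4)
      (show (1:ℝ) ∈ Ioi (0:ℝ) by norm_num) ha1
    linarith
  -- identity
  have hpair := phi_pair ht hτ
  have hphiτ := phi_eq hτ
  have hlog : log (1 - (t * τ) ^ 2) = log (1 - t ^ 2) + log (1 + r * a) := by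
    rw [e1, log_div h5.ne' h3.ne']; ring
  have h1 := tadd_pos ht hτ
  have h2 := tsub_pos ht hτ
  have e4 : (t + τ) / (1 + t * τ) + (t - τ) / (1 - t * τ) =
      2 * t * a / (1 - (t * τ) ^ 2) := by
    rw [ha, show 1 - (t * τ) ^ 2 = (1 + t * τ) * (1 - t * τ) by ring]
    field_simp
    ring
  have e5 : (t + τ) / (1 + t * τ) - (t - τ) / (1 - t * τ) =
      2 * τ * (1 - t ^ 2) / (1 - (t * τ) ^ 2) := by
    rw [show 1 - (t * τ) ^ 2 = (1 + t * τ) * (1 - t * τ) by ring]
    field_simp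
    ring
  rw [e4, e5] at hpair
  have e6 : (hh ((t + τ) / (1 + t * τ)) + hh ((t - τ) / (1 - t * τ))) / 2 -
      (1 - t ^ 2) / (1 - (t * τ) ^ 2) * hh τ =
      (a * (1 - t ^ 2) / (1 - (t * τ) ^ 2)) * PsiR r C a := by
    have e7 : (hh ((t + τ) / (1 + t * τ)) + hh ((t - τ) / (1 - t * τ))) / 2 = log 2 -
        (phi ((t + τ) / (1 + t * τ)) + phi ((t - τ) / (1 - t * τ))) / 2 := by
      unfold hh; ring
    have e8 : hh τ = log 2 - phi τ := rfl
    have hD : 1 - (t * τ) ^ 2 = 1 - t ^ 2 + t ^ 2 * a := by rw [ha]; ring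
    rw [e7, e8, hpair, hphiτ, hlog]
    unfold PsiR
    rw [hr, hC, hD]
    rw [hD] at h5
    have hane : a ≠ 0 := h4.ne'
    generalize log (1 - t ^ 2) = L1
    generalize log (1 + t ^ 2 / (1 - t ^ 2) * a) = L2
    generalize log a = L3
    generalize y t = Y
    generalize y τ = D
    field_simp
    ring
  have : 0 ≤ (a * (1 - t ^ 2) / (1 - (t * τ) ^ 2)) * PsiR r C a := by positivity
  linarith

/-- `sigma(τ)`. -/
noncomputable def sig (τ : ℝ) : ℝ := τ ^ 2 / (1 - τ ^ 2) / (hh τ + τ * y τ)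

/-- `ell(τ)`. -/
noncomputable def ell (τ : ℝ) : ℝ := y τ + sig τ * hh τ / τ

lemma sig_nonneg {τ : ℝ} (h0 : 0 < τ) (h1 : τ < 1) : 0 ≤ sig τ := by
  have hu := abs_lt_one_of_Ico h0.le h1
  have h3 := one_sub_sq_pos_of_abs hu
  have hy := y_pos h0 h1
  have hp := hh_pos h0.le h1
  unfold sig
  positivity

lemma ell_nonneg {τ : ℝ} (h0 : 0 < τ) (h1 : τ < 1) : 0 ≤ ell τ := by
  have hs := sig_nonneg h0 h1
  have hy := y_pos h0 h1
  have hp := hh_pos h0.le h1
  unfold ell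
  positivity

lemma ell_eq {τ : ℝ} (h0 : 0 < τ) (h1 : τ < 1) :
    ell τ = (1 - sig τ) * y τ + τ / (1 - τ ^ 2) := by
  have hu := abs_lt_one_of_Ico h0.le h1
  have h3 := one_sub_sq_pos_of_abs hu
  have hy := y_pos h0 h1
  have hp := hh_pos h0.le h1
  have hpos : 0 < hh τ + τ * y τ := by positivity
  unfold ell sig
  field_simp
  ring

lemma ell_mul {τ : ℝ} (h0 : 0 < τ) :
    ell τ * τ = τ * y τ + sig τ * hh τ := by
  unfold ell
  field_simp

/-- `σ ≤ 1 + E(τ)`. -/
lemma sig_le {τ : ℝ} (h0 : 0 < τ) (h1 : τ < 1) : sig τ ≤ 1 + EE τ := by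
  have hu := abs_lt_one_of_Ico h0.le h1
  have h3 := one_sub_sq_pos_of_abs hu
  have hy := y_pos h0 h1
  have hp := hh_pos h0.le h1
  have hpos : 0 < hh τ + τ * y τ := by positivity
  rw [EE_eq h0.ne']
  unfold sig
  rw [add_sub_cancel, div_le_div_iff₀ hpos (by positivity), div_mul_eq_mul_div,
    div_le_iff₀ h3]
  have h6 : 0 < τ * hh τ * (1 - τ ^ 2) := by positivity
  nlinarith

/-- (R2): the tangent bound for `B + σ h` at `τ`. -/
lemma R2 {τ s : ℝ} (h0 : 0 < τ) (h1 : τ < 1) (hs0 : 0 ≤ s) (hs1 : s < 1) :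
    ell τ * s ≤ s * y s + sig τ * hh s := by
  set σ := sig τ with hσ
  have key : ∀ v ∈ Ico (0:ℝ) 1, HasDerivAt (fun w => w * y w + σ * hh w - ell τ * w)
      ((1 - σ) * (y v - y τ) + (v / (1 - v ^ 2) - τ / (1 - τ ^ 2))) v := by
    intro v hv
    have hv' := abs_lt_one_of_Ico hv.1 hv.2
    have d := (((hasDerivAt_id' v).mul (hasDerivAt_y hv')).add
      ((hasDerivAt_hh hv').const_mul σ)).sub ((hasDerivAt_id' v).const_mul (ell τ))
    refine d.congr_deriv ?_
    rw [ell_eq h0 h1]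
    ring
  have hc : ContinuousOn (fun w => w * y w + σ * hh w - ell τ * w) (Ico 0 1) := fun v hv =>
    (key v hv).continuousAt.continuousWithinAt
  have hσE := sig_le h0 h1
  have hEs := EE_nonneg h0.le h1
  have hform : ∀ v ∈ Ico (0:ℝ) 1, v / (1 - v ^ 2) = (1 + EE v) * y v := by
    intro v hv
    have := kap_deriv_eq hv.1 hv.2
    have e : v * (1 / (1 - v ^ 2)) = v / (1 - v ^ 2) := by ring
    rw [e] at this
    linarith
  have hτm : τ ∈ Ico (0:ℝ) 1 := ⟨h0.le, h1⟩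
  have hval : τ * y τ + σ * hh τ - ell τ * τ = 0 := by
    rw [ell_mul h0]; ring
  rcases le_total τ s with h | h
  · have hm : MonotoneOn (fun w => w * y w + σ * hh w - ell τ * w) (Ico τ 1) := by
      apply monotoneOn_of_deriv_nonneg (convex_Ico τ 1)
      · exact hc.mono (Ico_subset_Ico_left h0.le)
      · intro v hv
        rw [interior_Ico] at hv
        exact (key v ⟨h0.le.trans hv.1.le, hv.2⟩).differentiableAt.differentiableWithinAt
      · intro v hv
        rw [interior_Ico] at hv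
        have hv0 : 0 ≤ v := h0.le.trans hv.1.le
        rw [(key v ⟨hv0, hv.2⟩).deriv, hform v ⟨hv0, hv.2⟩, hform τ hτm]
        have h5 := monotoneOn_EE hτm ⟨hv0, hv.2⟩ hv.1.le
        have h6 : y τ ≤ y v := by
          have := (y_lt_iff (abs_lt_one_of_Ico h0.le h1) (abs_lt_one_of_Ico hv0 hv.2)).mpr hv.1
          exact this.le
        have h7 := y_nonneg hv0 hv.2
        nlinarith [mul_nonneg (sub_nonneg.mpr h5) h7, mul_nonneg (sub_nonneg.mpr hσE) (sub_nonneg.mpr h6)]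
    have := hm (left_mem_Ico.mpr h1) ⟨h, hs1⟩ h
    simp only at this
    linarith
  · have hm : AntitoneOn (fun w => w * y w + σ * hh w - ell τ * w) (Icc 0 τ) := by
      apply antitoneOn_of_deriv_nonpos (convex_Icc 0 τ)
      · exact hc.mono (fun v hv => ⟨hv.1, lt_of_le_of_lt hv.2 h1⟩)
      · intro v hv
        rw [interior_Icc] at hv
        exact (key v ⟨hv.1.le, hv.2.trans h1⟩).differentiableAt.differentiableWithinAt
      · intro v hv
        rw [interior_Icc] at hv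
        have hv1 : v < 1 := hv.2.trans h1
        rw [(key v ⟨hv.1.le, hv1⟩).deriv, hform v ⟨hv.1.le, hv1⟩, hform τ hτm]
        have h5 := monotoneOn_EE ⟨hv.1.le, hv1⟩ hτm hv.2.le
        have h6 : y v ≤ y τ := by
          have := (y_lt_iff (abs_lt_one_of_Ico hv.1.le hv1) (abs_lt_one_of_Ico h0.le h1)).mpr hv.2
          exact this.le
        have h7 := y_nonneg hv.1.le hv1
        nlinarith [mul_nonneg (sub_nonneg.mpr h5) h7, mul_nonneg (sub_nonneg.mpr hσE) (sub_nonneg.mpr h6)]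
    have := hm ⟨hs0, h⟩ (right_mem_Icc.mpr h0.le) h
    simp only at this
    linarith

lemma jj_comm (p q : ℝ) : jj p q = jj q p := by
  unfold jj; ring

lemma jj_self (p : ℝ) : jj p p = 0 := by
  unfold jj; ring

/-- Pairs in hyperbolic coordinates. -/
lemma pair_diff {t τ : ℝ} (ht : |t| < 1) (hτ : |τ| < 1) :
    (t + τ) / (1 + t * τ) - (t - τ) / (1 - t * τ) =
      2 * τ * ((1 - t ^ 2) / (1 - (t * τ) ^ 2)) := by
  have h1 := tadd_pos ht hτ
  have h2 := tsub_pos ht hτ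
  rw [show 1 - (t * τ) ^ 2 = (1 + t * τ) * (1 - t * τ) by ring]
  field_simp
  ring

lemma pair_sum {t τ : ℝ} (ht : |t| < 1) (hτ : |τ| < 1) :
    (t + τ) / (1 + t * τ) + (t - τ) / (1 - t * τ) =
      2 * t * ((1 - τ ^ 2) / (1 - (t * τ) ^ 2)) := by
  have h1 := tadd_pos ht hτ
  have h2 := tsub_pos ht hτ
  rw [show 1 - (t * τ) ^ 2 = (1 + t * τ) * (1 - t * τ) by ring]
  field_simp
  ring

lemma thetaC_pos {t τ : ℝ} (ht : |t| < 1) (hτ : |τ| < 1) :
    0 < (1 - t ^ 2) / (1 - (t * τ) ^ 2) := by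
  have h1 := tadd_pos ht hτ
  have h2 := tsub_pos ht hτ
  have h3 := one_sub_sq_pos_of_abs ht
  rw [show 1 - (t * τ) ^ 2 = (1 + t * τ) * (1 - t * τ) by ring]
  positivity

/-- `jj` in hyperbolic coordinates. -/
lemma jj_coords {t τ : ℝ} (ht : |t| < 1) (hτ : |τ| < 1) :
    jj ((t + τ) / (1 + t * τ)) ((t - τ) / (1 - t * τ)) =
      (1 - t ^ 2) / (1 - (t * τ) ^ 2) * (τ * y τ) := by
  unfold jj
  rw [pair_diff ht hτ, y_add ht hτ, y_sub' ht hτ]
  ring

lemma L1_aux {τ p q : ℝ} (h0 : 0 < τ) (h1 : τ < 1) (hp : |p| < 1) (hq : |q| < 1) (hpq : q < p) :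
    ell τ * ((p - q) / 2) - sig τ * ((hh p + hh q) / 2) ≤ jj p q := by
  obtain ⟨t, s, ht, hs, e1, e2⟩ := exists_coords hp hq
  have hs0 : 0 < s := by
    have h3 : y q < y p := (y_lt_iff hq hp).mpr hpq
    rw [e1, e2, y_add ht hs, y_sub' ht hs] at h3
    exact (y_pos_iff hs).mp (by linarith)
  have hs1 : s < 1 := (abs_lt.mp hs).2
  subst e1 e2
  have hθ := thetaC_pos ht hs
  have hR1 := R1 ht hs
  have hR2 := R2 h0 h1 hs0.le hs1
  have hσ := sig_nonneg h0 h1
  rw [jj_coords ht hs, pair_diff ht hs]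
  set θ := (1 - t ^ 2) / (1 - (t * s) ^ 2) with hθdef
  have m1 := mul_le_mul_of_nonneg_left hR1 hσ
  have m2 := mul_le_mul_of_nonneg_left hR2 hθ.le
  nlinarith

/-- The ray lemma (L1). -/
lemma L1 {τ p q : ℝ} (h0 : 0 < τ) (h1 : τ < 1) (hp : |p| < 1) (hq : |q| < 1) :
    ell τ * (|p - q| / 2) - sig τ * ((hh p + hh q) / 2) ≤ jj p q := by
  rcases lt_trichotomy q p with h | h | h
  · rw [abs_of_pos (by linarith)]
    exact L1_aux h0 h1 hp hq h
  · subst h
    rw [jj_self, sub_self, abs_zero]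
    have hσ := sig_nonneg h0 h1
    have h2 : 0 < hh q := by
      have := hh_pos (abs_nonneg q) hq
      have e : hh |q| = hh q := by unfold hh; rw [phi_abs]
      rwa [e] at this
    have : 0 ≤ sig τ * ((hh q + hh q) / 2) := by positivity
    linarith
  · rw [abs_sub_comm, abs_of_pos (by linarith), jj_comm, add_comm (hh p)]
    exact L1_aux h0 h1 hq hp h

/-! ### Joint convexity of `jj` -/

/-- Tangent bound for `F(a,b) = (a - b) (log a - log b)`. -/
lemma F_tangent {a b a₀ b₀ : ℝ} (ha : 0 < a) (hb : 0 < b) (ha₀ : 0 < a₀) (hb₀ : 0 < b₀) :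
    a * (log a₀ - log b₀ + 1 - b₀ / a₀) + b * (- log a₀ + log b₀ + 1 - a₀ / b₀) ≤
      (a - b) * (log a - log b) := by
  have e1 : log (a₀ * b / (b₀ * a)) ≤ a₀ * b / (b₀ * a) - 1 :=
    log_le_sub_one_of_pos (by positivity)
  have e2 : log (b₀ * a / (a₀ * b)) ≤ b₀ * a / (a₀ * b) - 1 :=
    log_le_sub_one_of_pos (by positivity)
  rw [log_div (by positivity) (by positivity), log_mul ha₀.ne' hb.ne', log_mul hb₀.ne' ha.ne'] at e1 e2
  have m1 := mul_le_mul_of_nonneg_left e1 ha.le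
  have m2 := mul_le_mul_of_nonneg_left e2 hb.le
  have e3 : a * (a₀ * b / (b₀ * a) - 1) = a₀ * b / b₀ - a := by field_simp
  have e4 : b * (b₀ * a / (a₀ * b) - 1) = b₀ * a / a₀ - b := by field_simp
  rw [e3] at m1
  rw [e4] at m2
  have e5 : a * (log a₀ - log b₀ + 1 - b₀ / a₀) = a * (log a₀ - log b₀) + a - b₀ * a / a₀ := by
    ring
  have e6 : b * (- log a₀ + log b₀ + 1 - a₀ / b₀) = b * (- log a₀ + log b₀) + b - a₀ * b / b₀ := by
    ring
  rw [e5, e6]
  linarith

/-- The affine minorant of `8 jj` at `(p,q)`. -/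
noncomputable def jjAff (p q a b : ℝ) : ℝ :=
  (1 + a) * (log (1 + p) - log (1 + q) + 1 - (1 + q) / (1 + p)) +
  (1 + b) * (- log (1 + p) + log (1 + q) + 1 - (1 + p) / (1 + q)) +
  (1 - a) * (log (1 - p) - log (1 - q) + 1 - (1 - q) / (1 - p)) +
  (1 - b) * (- log (1 - p) + log (1 - q) + 1 - (1 - p) / (1 - q))

lemma jjAff_le {p q a b : ℝ} (hp : |p| < 1) (hq : |q| < 1) (ha : |a| < 1) (hb : |b| < 1) :
    jjAff p q a b ≤ 8 * jj a b := by
  have t1 := F_tangent (one_add_pos_of_abs ha) (one_add_pos_of_abs hb)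
    (one_add_pos_of_abs hp) (one_add_pos_of_abs hq)
  have t2 := F_tangent (one_sub_pos_of_abs ha) (one_sub_pos_of_abs hb)
    (one_sub_pos_of_abs hp) (one_sub_pos_of_abs hq)
  unfold jjAff jj y
  nlinarith

lemma jjAff_self {p q : ℝ} (hp : |p| < 1) (hq : |q| < 1) :
    jjAff p q p q = 8 * jj p q := by
  have h1 := one_add_pos_of_abs hp
  have h2 := one_add_pos_of_abs hq
  have h3 := one_sub_pos_of_abs hp
  have h4 := one_sub_pos_of_abs hq
  unfold jjAff jj y
  field_simp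
  ring

lemma avg_lt_avg {n : ℕ} {f g : Cube n → ℝ} (h : ∀ x, f x < g x) : avg f < avg g := by
  unfold avg
  apply div_lt_div_of_pos_right _ (by positivity)
  exact Finset.sum_lt_sum_of_nonempty Finset.univ_nonempty (fun x _ => h x)

lemma abs_avg_lt {n : ℕ} {f : Cube n → ℝ} (hf : ∀ x, |f x| < 1) : |avg f| < 1 := by
  rw [abs_lt]
  constructor
  · have := avg_lt_avg (f := fun _ => (-1:ℝ)) (g := f) (fun x => (abs_lt.mp (hf x)).1)
    rwa [avg_const] at this
  · have := avg_lt_avg (f := f) (g := fun _ => (1:ℝ)) (fun x => (abs_lt.mp (hf x)).2)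
    rwa [avg_const] at this

lemma avg_pos' {n : ℕ} {f : Cube n → ℝ} (hf : ∀ x, 0 < f x) : 0 < avg f := by
  have := avg_lt_avg (f := fun _ => (0:ℝ)) (g := f) hf
  rwa [avg_const] at this

/-- (L5): Jensen for `jj`. -/
lemma jj_avg_le {n : ℕ} {f g : Cube n → ℝ} (hf : ∀ x, |f x| < 1) (hg : ∀ x, |g x| < 1) :
    jj (avg f) (avg g) ≤ avg (fun x => jj (f x) (g x)) := by
  have hp : |avg f| < 1 := abs_avg_lt hf
  have hq : |avg g| < 1 := abs_avg_lt hg
  set p := avg f with hpdef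
  set q := avg g with hqdef
  have haff : ∀ a b, jjAff p q a b =
      jjAff p q 0 0 + (jjAff p q 1 0 - jjAff p q 0 0) * a + (jjAff p q 0 1 - jjAff p q 0 0) * b := by
    intro a b
    unfold jjAff
    ring
  have h1 : 8 * avg (fun x => jj (f x) (g x)) ≥ jjAff p q p q := by
    rw [← avg_mul_left]
    have h2 : avg (fun x => jjAff p q (f x) (g x)) ≤ avg (fun x => 8 * jj (f x) (g x)) :=
      avg_mono (fun x => jjAff_le hp hq (hf x) (hg x))
    have h3 : avg (fun x => jjAff p q (f x) (g x)) = jjAff p q p q := by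
      rw [haff p q]
      simp only [haff (f _) (g _)]
      rw [avg_add, avg_add, avg_const, avg_mul_left, avg_mul_left]
    linarith
  rw [jjAff_self hp hq] at h1
  linarith

end Vale.Agent.Lib.P322B
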