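import Vale.Agent.Lib.P322B.CubeStep

/-!
Polynomial facts on the weights `om`, `WW`, generic in `0 ≤ cc ≤ 1/5`.
-/

namespace Vale.Agent.Lib.P322B

open Vale.Agent.Lib.P322 Real Set Filter Topology

lemma cc_nonneg : 0 ≤ cc := by unfold cc; norm_num
lemma cc_le : cc ≤ 1 / 5 := by unfold cc; norm_num

lemma WW_eq (x d : ℝ) : WW x d =
    1 - (1 + cc) * (x ^ 2 + d ^ 2) + cc * (x ^ 4 + 6 * x ^ 2 * d ^ 2 + d ^ 4) := by
  unfold WW om
  ring

lemma om_eq (x : ℝ) : om x = 1 - (1 + cc) * x ^ 2 + cc * x ^ 4 := by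
  unfold om; ring

/-- `a + b ≤ 1` gives the sign of the key polynomial. -/
lemma poly_pos1 {a b : ℝ} (hb : 0 ≤ b) (hab : a + b ≤ 1) :
    0 ≤ 1 + cc - 6 * cc * a - 3 * cc * b := by
  have h1 := cc_nonneg
  have h2 := cc_le
  have h3 : cc * (6 * a + 3 * b) ≤ cc * 6 := by
    apply mul_le_mul_of_nonneg_left _ h1
    linarith
  nlinarith

lemma om_sub_WW (x d : ℝ) :
    om x - WW x d = d ^ 2 * (1 + cc - 6 * cc * x ^ 2 - cc * d ^ 2) := by
  rw [WW_eq, om_eq]; ring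

lemma sum_sq_le_of_abs {x d : ℝ} (hx : |x| + |d| ≤ 1) : x ^ 2 + d ^ 2 ≤ 1 := by
  have h1 : x ^ 2 = |x| ^ 2 := (sq_abs x).symm
  have h2 : d ^ 2 = |d| ^ 2 := (sq_abs d).symm
  rw [h1, h2]
  have h3 := abs_nonneg x
  have h4 := abs_nonneg d
  nlinarith

lemma WW_le_om {x d : ℝ} (h : x ^ 2 + d ^ 2 ≤ 1) : WW x d ≤ om x := by
  have h0 := poly_pos1 (sq_nonneg d) h
  have h1 := om_sub_WW x d
  have h2 : 0 ≤ 1 + cc - 6 * cc * x ^ 2 - cc * d ^ 2 := by
    have := mul_nonneg cc_nonneg (sq_nonneg d)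
    nlinarith
  have h3 := mul_nonneg (sq_nonneg d) h2
  linarith

lemma WW_pos {x d : ℝ} (hp : |x + d| < 1) (hq : |x - d| < 1) : 0 < WW x d := by
  have h1 := om_pos hp
  have h2 := om_pos hq
  unfold WW
  positivity

/-- The derivative in `d` of `WW`. -/
noncomputable def WWd (x d : ℝ) : ℝ := 2 * d * (-(1 + cc) + cc * (6 * x ^ 2 + 2 * d ^ 2))

lemma hasDerivAt_WW_right (x d : ℝ) : HasDerivAt (fun v => WW x v) (WWd x d) d := by
  have d2 : HasDerivAt (fun v : ℝ => v ^ 2) (2 * d) d := by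
    simpa using hasDerivAt_pow 2 d
  have d4 : HasDerivAt (fun v : ℝ => v ^ 4) (4 * d ^ 3) d := by
    simpa using hasDerivAt_pow 4 d
  have d5 := ((d2.const_add (x ^ 2)).const_mul (1 + cc)).const_sub 1
  have d6 := ((d2.const_mul (6 * x ^ 2)).add d4).const_add (x ^ 4)
  have d7 := d5.add (d6.const_mul cc)
  refine (HasDerivAt.congr_deriv (f := fun v =>
    1 - (1 + cc) * (x ^ 2 + v ^ 2) + cc * (x ^ 4 + (6 * x ^ 2 * v ^ 2 + v ^ 4))) d7 ?_).congr_of_eventuallyEq ?_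
  · unfold WWd; ring
  · filter_upwards with v
    rw [WW_eq]; ring

/-- `W - d W' - om = Ξ`. -/
lemma WW_sub_dWd (x d : ℝ) :
    WW x d - d * WWd x d - om x = d ^ 2 * (1 + cc - 6 * cc * x ^ 2 - 3 * cc * d ^ 2) := by
  rw [WW_eq, om_eq]; unfold WWd; ring

lemma Xi_nonneg {x d : ℝ} (h : x ^ 2 + d ^ 2 ≤ 1) :
    0 ≤ WW x d - d * WWd x d - om x := by
  rw [WW_sub_dWd]
  have h0 := poly_pos1 (sq_nonneg d) h
  exact mul_nonneg (sq_nonneg d) h0

/-- Lower bound (i) for `W / om`. -/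
lemma WW_lower1 {a b : ℝ} (ha : 0 ≤ a) (hb : 0 ≤ b) :
    (1 - a) * (1 - cc * a) - (1 + cc) * (1 - cc * a) * b ≤
      1 - (1 + cc) * (a + b) + cc * (a ^ 2 + 6 * a * b + b ^ 2) := by
  have h1 := cc_nonneg
  have h2 := cc_le
  have key : 0 ≤ b * (cc * (5 * a + b - cc * a)) := by
    apply mul_nonneg hb
    apply mul_nonneg h1
    have := mul_nonneg h1 ha
    nlinarith
  nlinarith

/-- Lower bound (ii) for `W / om`. -/
lemma WW_lower2 {a b : ℝ} (ha : 0 ≤ a) (hb : 0 ≤ b) (hab : a + b ≤ 1) :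
    (1 - cc) * (1 - a - b) * (1 - cc * a) ≤
      1 - (1 + cc) * (a + b) + cc * (a ^ 2 + 6 * a * b + b ^ 2) := by
  have h1 := cc_nonneg
  have h2 := cc_le
  set s := 1 - a - b with hs
  have hs0 : 0 ≤ s := by rw [hs]; linarith
  have hb1 : 0 ≤ 1 - b := by linarith
  have hE : 0 ≤ 4 * b * (1 - b) + s * (1 - 5 * b - cc * a) := by
    have hca : cc * a ≤ a := by nlinarith
    by_cases h : 0 ≤ 1 - 5 * b - cc * a
    · positivity
    · have h3 : s ≤ 1 - b := by rw [hs]; linarith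
      have h4 : s * (1 - 5 * b - cc * a) ≥ (1 - b) * (1 - 5 * b - cc * a) :=
        mul_le_mul_of_nonpos_right h3 (le_of_not_ge h)
      have h5 : 0 ≤ (1 - b) * (1 - b - cc * a) := by
        apply mul_nonneg hb1
        linarith
      nlinarith
  have e : (1 - (1 + cc) * (a + b) + cc * (a ^ 2 + 6 * a * b + b ^ 2)) -
      (1 - cc) * s * (1 - cc * a) = cc * (4 * b * (1 - b) + s * (1 - 5 * b - cc * a)) := by
    rw [hs]; ring
  have := mul_nonneg h1 hE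
  linarith

/-- The key algebraic step for (ST2): `r^2 ≥ r0^3` in the form without division. -/
lemma ST2_alg {a b : ℝ} (ha : 0 ≤ a) (hb : 0 ≤ b) (hab : a + b < 1) :
    ((1 - a - b) / (1 - a)) ^ 3 ≤
      ((1 - (1 + cc) * (a + b) + cc * (a ^ 2 + 6 * a * b + b ^ 2)) /
        ((1 - a) * (1 - cc * a))) ^ 2 := by
  have h1 := cc_nonneg
  have h2 := cc_le
  have ha1 : 0 < 1 - a := by linarith
  have hca : 0 < 1 - cc * a := by nlinarith
  set W := 1 - (1 + cc) * (a + b) + cc * (a ^ 2 + 6 * a * b + b ^ 2) with hW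
  have hL1 := WW_lower1 ha hb
  have hL2 := WW_lower2 ha hb hab.le
  rw [← hW] at hL1 hL2
  set r := W / ((1 - a) * (1 - cc * a)) with hr
  set r0 := (1 - a - b) / (1 - a) with hr0
  have hom : 0 < (1 - a) * (1 - cc * a) := by positivity
  have hr0pos : 0 ≤ r0 := by
    rw [hr0]; apply div_nonneg <;> linarith
  have hr0le : r0 ≤ 1 := by
    rw [hr0, div_le_one ha1]; linarith
  set ζ := b / (1 - a) with hζ
  have hζr : r0 = 1 - ζ := by
    rw [hr0, hζ]; field_simp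
  have hζ0 : 0 ≤ ζ := by rw [hζ]; positivity
  have r1 : 1 - (1 + cc) * ζ ≤ r := by
    rw [hr, le_div_iff₀ hom, hζ]
    have e : (1 - (1 + cc) * (b / (1 - a))) * ((1 - a) * (1 - cc * a)) =
        (1 - a) * (1 - cc * a) - (1 + cc) * (1 - cc * a) * b := by
      field_simp
    rw [e]; exact hL1
  have r2 : (1 - cc) * r0 ≤ r := by
    rw [hr, le_div_iff₀ hom, hr0]
    have e : (1 - cc) * ((1 - a - b) / (1 - a)) * ((1 - a) * (1 - cc * a)) =
        (1 - cc) * (1 - a - b) * (1 - cc * a) := by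
      field_simp
    rw [e]; exact hL2
  have hr0c : (4 / 5) * r0 ≤ (1 - cc) * r0 := by
    apply mul_le_mul_of_nonneg_right _ hr0pos
    linarith
  by_cases hz : ζ ≤ 1 / 2
  · have h3 : 1 - 6 / 5 * ζ ≤ r := by
      have : (1 + cc) * ζ ≤ 6 / 5 * ζ := by
        apply mul_le_mul_of_nonneg_right _ hζ0
        linarith
      linarith
    have h4 : 0 ≤ 1 - 6 / 5 * ζ := by linarith
    rw [hζr]
    have h5 : (1 - ζ) ^ 3 ≤ (1 - 6 / 5 * ζ) ^ 2 := by
      nlinarith [mul_nonneg hζ0 (mul_nonneg hζ0 hζ0), mul_nonneg hζ0 hζ0,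
        mul_nonneg hζ0 (sub_nonneg.mpr hz), mul_nonneg (mul_nonneg hζ0 hζ0) (sub_nonneg.mpr hz)]
    calc (1 - ζ) ^ 3 ≤ (1 - 6 / 5 * ζ) ^ 2 := h5
      _ ≤ r ^ 2 := by
        apply pow_le_pow_left₀ h4 h3
  · have hz' : 1 / 2 < ζ := not_le.mp hz
    have h3 : r0 ≤ 1 / 2 := by rw [hζr]; linarith
    have h4 : 4 / 5 * r0 ≤ r := hr0c.trans r2
    calc r0 ^ 3 = r0 * r0 ^ 2 := by ring
      _ ≤ (16 / 25) * r0 ^ 2 := by
          apply mul_le_mul_of_nonneg_right _ (sq_nonneg _)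
          linarith
      _ = (4 / 5 * r0) ^ 2 := by ring
      _ ≤ r ^ 2 := by
          apply pow_le_pow_left₀ (by positivity) h4

end Vale.Agent.Lib.P322B
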