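import Vale.Agent.Lib.P322B.Basic
import Vale.Agent.Lib.P322.LowNoise

/-!
Three one-variable inequalities for `hh` and `y`:

* `F4`: `log 2 * (1 - u^2) ≤ hh u` on `[0,1)`;
* `F3`: `u * hh u ≤ log 2 * (1 - u^2) * y u` on `[0,1)`;
* `F2`: `3 * hh u^2 * ((1 + u^2) * y u - u) ≤ 2 * (1 - u^2)^2 * y u^3` on `(0,1)`.
-/

namespace Vale.Agent.Lib.P322B

open Vale.Agent.Lib.P322 Real

/-- Monotonicity from a nonnegative derivative on `[a,b)`. -/
lemma le_of_deriv_nonneg_Ico {f f' : ℝ → ℝ} {a b : ℝ}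
    (hd : ∀ v ∈ Set.Ico a b, HasDerivAt f (f' v) v) (hn : ∀ v ∈ Set.Ico a b, 0 ≤ f' v)
    {x z : ℝ} (hx : x ∈ Set.Ico a b) (hz : z ∈ Set.Ico a b) (hxz : x ≤ z) : f x ≤ f z := by
  have hm : MonotoneOn f (Set.Ico a b) := by
    apply monotoneOn_of_deriv_nonneg (convex_Ico a b)
    · intro v hv
      exact (hd v hv).continuousAt.continuousWithinAt
    · intro v hv
      rw [interior_Ico] at hv
      exact (hd v ⟨hv.1.le, hv.2⟩).differentiableAt.differentiableWithinAt
    · intro v hv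
      rw [interior_Ico] at hv
      rw [(hd v ⟨hv.1.le, hv.2⟩).deriv]
      exact hn v ⟨hv.1.le, hv.2⟩
  exact hm hx hz hxz

/-- Monotonicity on a closed interval. -/
lemma le_of_deriv_nonneg_Icc {f f' : ℝ → ℝ} {a b : ℝ} (hab : a ≤ b)
    (hd : ∀ v ∈ Set.Icc a b, HasDerivAt f (f' v) v) (hn : ∀ v ∈ Set.Ioo a b, 0 ≤ f' v) :
    f a ≤ f b := by
  have hm : MonotoneOn f (Set.Icc a b) := by
    apply monotoneOn_of_deriv_nonneg (convex_Icc a b)
    · intro v hv
      exact (hd v hv).continuousAt.continuousWithinAt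
    · intro v hv
      rw [interior_Icc] at hv
      exact (hd v ⟨hv.1.le, hv.2.le⟩).differentiableAt.differentiableWithinAt
    · intro v hv
      rw [interior_Icc] at hv
      rw [(hd v ⟨hv.1.le, hv.2.le⟩).deriv]
      exact hn v hv
  exact hm (Set.left_mem_Icc.mpr hab) (Set.right_mem_Icc.mpr hab) hab

/-- `F4`. -/
theorem F4 {u : ℝ} (h0 : 0 ≤ u) (h1 : u < 1) : log 2 * (1 - u ^ 2) ≤ hh u := by
  have hu : |u| ≤ 1 := by rw [abs_of_nonneg h0]; exact h1.le
  have h := phi_scale (r := u) (t := 1) hu (by norm_num)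
  rw [mul_one, phi_one] at h
  unfold hh
  nlinarith

lemma hh_nonneg {u : ℝ} (h0 : 0 ≤ u) (h1 : u < 1) : 0 ≤ hh u := by
  have h := F4 h0 h1
  have hL := Real.log_pos (by norm_num : (1 : ℝ) < 2)
  have : 0 ≤ log 2 * (1 - u ^ 2) := by
    apply mul_nonneg hL.le
    nlinarith
  linarith

/-! ### The inequality `F3` -/

/-- The function behind `F3`, written so as to be continuous everywhere. -/
noncomputable def G3 (u : ℝ) : ℝ :=
  (log 2 + (1 - log 2) * u) * ((1 + u) * log (1 + u)) / 2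
    - (log 2 - (1 - log 2) * u) * ((1 - u) * log (1 - u)) / 2 - u * log 2

lemma continuous_G3 : Continuous G3 := by
  unfold G3
  have h1 : Continuous (fun t : ℝ => (1 + t) * log (1 + t)) :=
    Real.continuous_mul_log.comp (continuous_const.add continuous_id)
  have h2 : Continuous (fun t : ℝ => (1 - t) * log (1 - t)) :=
    Real.continuous_mul_log.comp (continuous_const.sub continuous_id)
  fun_prop

lemma G3_zero : G3 0 = 0 := by
  unfold G3; simp

lemma G3_one : G3 1 = 0 := by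
  unfold G3
  norm_num

lemma G3_eq {u : ℝ} (hu : |u| < 1) : G3 u = log 2 * (1 - u ^ 2) * y u - u * hh u := by
  have h1 := one_add_pos_of_abs hu
  have h2 := one_sub_pos_of_abs hu
  unfold G3 hh y phi
  ring

/-- The derivative of `G3`. -/
noncomputable def G3d (u : ℝ) : ℝ := (2 - 2 * log 2) * (u * y u) + log (1 - u ^ 2) / 2

lemma hasDerivAt_G3 {u : ℝ} (hu : |u| < 1) : HasDerivAt G3 (G3d u) u := by
  have h1 := one_add_pos_of_abs hu
  have h2 := one_sub_pos_of_abs hu
  have d1 : HasDerivAt (fun v : ℝ => log (1 + v)) (1 / (1 + u)) u := by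
    have := ((hasDerivAt_id u).const_add 1).log (by simpa using h1.ne')
    simpa using this
  have d2 : HasDerivAt (fun v : ℝ => log (1 - v)) (-1 / (1 - u)) u := by
    have := ((hasDerivAt_id u).const_sub 1).log (by simpa using h2.ne')
    simpa using this
  have e1 : HasDerivAt (fun v : ℝ => 1 + v) 1 u := by
    simpa using (hasDerivAt_id u).const_add 1
  have e2 : HasDerivAt (fun v : ℝ => 1 - v) (-1) u := by
    simpa using (hasDerivAt_id u).const_sub 1
  have a1 : HasDerivAt (fun v : ℝ => log 2 + (1 - log 2) * v) (1 - log 2) u := by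
    simpa using ((hasDerivAt_id u).const_mul (1 - log 2)).const_add (log 2)
  have a2 : HasDerivAt (fun v : ℝ => log 2 - (1 - log 2) * v) (-(1 - log 2)) u := by
    simpa using ((hasDerivAt_id u).const_mul (1 - log 2)).const_sub (log 2)
  have b1 := a1.mul (e1.mul d1)
  have b2 := a2.mul (e2.mul d2)
  have b3 : HasDerivAt (fun v : ℝ => v * log 2) (log 2) u := by
    simpa using (hasDerivAt_id u).mul_const (log 2)
  have d := ((b1.div_const 2).sub (b2.div_const 2)).sub b3
  refine HasDerivAt.congr_deriv (f := G3) d ?_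
  have h3 : 1 - u ^ 2 = (1 + u) * (1 - u) := by ring
  unfold G3d y
  rw [h3, log_mul h1.ne' h2.ne']
  simp only [Pi.mul_apply]
  field_simp
  ring

lemma G3d_zero : G3d 0 = 0 := by
  unfold G3d; simp

/-- The second derivative of `G3`. -/
noncomputable def G3dd (u : ℝ) : ℝ := (2 - 2 * log 2) * y u - (2 * log 2 - 1) * (u / (1 - u ^ 2))

lemma hasDerivAt_G3d {u : ℝ} (hu : |u| < 1) : HasDerivAt G3d (G3dd u) u := by
  have h3 := one_sub_sq_pos_of_abs hu
  have d0 : HasDerivAt (fun v : ℝ => 1 - v ^ 2) (-(2 * u)) u := by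
    have := ((hasDerivAt_id u).pow 2).const_sub 1
    simpa using this
  have d1 := d0.log h3.ne'
  have d2 := ((hasDerivAt_id u).mul (hasDerivAt_y hu)).const_mul (2 - 2 * log 2)
  have d := d2.add (d1.div_const 2)
  refine HasDerivAt.congr_deriv (f := G3d) d ?_
  unfold G3dd
  simp only [id]
  field_simp
  ring

/-- The sign of the second derivative is governed by `GLfun`. -/
lemma G3dd_eq {u : ℝ} (h0 : 0 < u) (h1 : u < 1) :
    G3dd u = (u / (1 - u ^ 2)) * ((1 - log 2) * GLfun u - (2 * log 2 - 1)) := by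
  have hu : |u| < 1 := by rw [abs_of_pos h0]; exact h1
  have h3 := one_sub_sq_pos_of_abs hu
  unfold G3dd y GLfun
  field_simp

lemma one_sub_log_two_pos : 0 < 1 - log 2 := by
  have := Real.log_two_lt_d9
  norm_num at this ⊢
  linarith

lemma G3dd_nonneg_of_le {s v : ℝ} (hs : 0 ≤ G3dd s) (hs0 : 0 < s) (hs1 : s < 1) (hv0 : 0 < v)
    (hvs : v ≤ s) : 0 ≤ G3dd v := by
  have hv1 : v < 1 := lt_of_le_of_lt hvs hs1
  have hus : |s| < 1 := by rw [abs_of_pos hs0]; exact hs1
  have huv : |v| < 1 := by rw [abs_of_pos hv0]; exact hv1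
  have h3 := one_sub_sq_pos_of_abs hus
  have h4 := one_sub_sq_pos_of_abs huv
  rw [G3dd_eq hs0 hs1] at hs
  have hs2 : 0 ≤ (1 - log 2) * GLfun s - (2 * log 2 - 1) := by
    by_contra hn
    push Not at hn
    have : (s / (1 - s ^ 2)) * ((1 - log 2) * GLfun s - (2 * log 2 - 1)) < 0 :=
      mul_neg_of_pos_of_neg (by positivity) hn
    linarith
  have hmono := GLfun_antitone ⟨hv0, hv1⟩ ⟨hs0, hs1⟩ hvs
  rw [G3dd_eq hv0 hv1]
  apply mul_nonneg (by positivity)
  have := mul_le_mul_of_nonneg_left hmono one_sub_log_two_pos.le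
  linarith

lemma G3dd_neg_of_ge {s v : ℝ} (hs : G3dd s < 0) (hs0 : 0 < s) (hsv : s ≤ v) (hv1 : v < 1) :
    G3dd v < 0 := by
  by_contra hn
  push Not at hn
  have := G3dd_nonneg_of_le hn (lt_of_lt_of_le hs0 hsv) hv1 hs0 hsv
  linarith

/-- `G3` is nonnegative on `[0,1]`. -/
theorem G3_nonneg {u : ℝ} (h0 : 0 ≤ u) (h1 : u < 1) : 0 ≤ G3 u := by
  rcases h0.eq_or_lt with rfl | h0'
  · rw [G3_zero]
  by_contra hneg
  push Not at hneg
  -- a point where the derivative is negative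
  have habs : ∀ v ∈ Set.Ico (0 : ℝ) 1, |v| < 1 := fun v hv => by
    rw [abs_of_nonneg hv.1]; exact hv.2
  have hcont : ContinuousOn G3 (Set.Icc 0 u) := continuous_G3.continuousOn
  have hderiv : ∀ v ∈ Set.Ioo 0 u, HasDerivAt G3 (G3d v) v := fun v hv =>
    hasDerivAt_G3 (habs v ⟨hv.1.le, hv.2.trans h1⟩)
  obtain ⟨s, hs, hs'⟩ := exists_hasDerivAt_eq_slope G3 G3d h0' hcont hderiv
  have hs0 : 0 < s := hs.1
  have hsu : s < u := hs.2
  have hs1 : s < 1 := hsu.trans h1
  have hneg' : G3d s < 0 := by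
    rw [hs', G3_zero]
    apply div_neg_of_neg_of_pos <;> linarith
  by_cases hc : 0 ≤ G3dd s
  · -- `G3d` increases on `[0,s]`
    have hmono : G3d 0 ≤ G3d s := by
      apply le_of_deriv_nonneg_Icc (f := G3d) (f' := G3dd) hs0.le
      · intro v hv
        exact hasDerivAt_G3d (habs v ⟨hv.1, lt_of_le_of_lt hv.2 hs1⟩)
      · intro v hv
        exact G3dd_nonneg_of_le hc hs0 hs1 hv.1 hv.2.le
    rw [G3d_zero] at hmono
    linarith
  · -- `G3d` stays negative on `[s,1)`, hence `G3` decreases on `[u,1)`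
    push Not at hc
    have hdneg : ∀ v, s ≤ v → v < 1 → G3d v < 0 := by
      intro v hsv hv1
      have hmono : (fun w => - G3d w) s ≤ (fun w => - G3d w) v := by
        apply le_of_deriv_nonneg_Icc (f := fun w => - G3d w) (f' := fun w => - G3dd w) hsv
        · intro w hw
          exact (hasDerivAt_G3d (habs w ⟨hs0.le.trans hw.1, lt_of_le_of_lt hw.2 hv1⟩)).neg
        · intro w hw
          have := G3dd_neg_of_ge hc hs0 hw.1.le (hw.2.trans hv1)
          show 0 ≤ - G3dd w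
          linarith
      have h9 : - G3d s ≤ - G3d v := hmono
      linarith
    have hdec : ∀ t, u ≤ t → t < 1 → G3 t ≤ G3 u := by
      intro t hut ht1
      have hmono : (fun w => - G3 w) u ≤ (fun w => - G3 w) t := by
        apply le_of_deriv_nonneg_Icc (f := fun w => - G3 w) (f' := fun w => - G3d w) hut
        · intro w hw
          exact (hasDerivAt_G3 (habs w ⟨h0.trans hw.1, lt_of_le_of_lt hw.2 ht1⟩)).neg
        · intro w hw
          have := hdneg w (hsu.le.trans hw.1.le) (hw.2.trans ht1)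
          show 0 ≤ - G3d w
          linarith
      have h9 : - G3 u ≤ - G3 t := hmono
      linarith
    have hlim : Filter.Tendsto G3 (nhdsWithin 1 (Set.Iio 1)) (nhds (G3 1)) :=
      (continuous_G3.tendsto 1).mono_left nhdsWithin_le_nhds
    have hev : ∀ᶠ t in nhdsWithin (1 : ℝ) (Set.Iio 1), G3 t ≤ G3 u := by
      have h3 : Set.Ioo u 1 ∈ nhdsWithin (1 : ℝ) (Set.Iio 1) := Ioo_mem_nhdsLT h1
      filter_upwards [h3] with t ht
      exact hdec t ht.1.le ht.2
    have := le_of_tendsto hlim hev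
    rw [G3_one] at this
    linarith

/-- `F3`. -/
theorem F3 {u : ℝ} (h0 : 0 ≤ u) (h1 : u < 1) : u * hh u ≤ log 2 * (1 - u ^ 2) * y u := by
  have hu : |u| < 1 := by rw [abs_of_nonneg h0]; exact h1
  have h := G3_nonneg h0 h1
  rw [G3_eq hu] at h
  linarith

/-! ### The inequality `F2` -/

/-- The exact form of `hh`. -/
lemma hh_eq (u : ℝ) : hh u = (1 - u) * y u + (log 2 - log (1 + u)) := by
  unfold hh phi y
  ring

/-- A Pade bound for the logarithm. -/
lemma log_one_add_le_pade {q : ℝ} (hq : 0 ≤ q) : log (1 + q) ≤ q * (6 + q) / (6 + 4 * q) := by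
  have hd : ∀ v ∈ Set.Icc (0 : ℝ) q, HasDerivAt (fun w => w * (6 + w) / (6 + 4 * w) - log (1 + w))
      (v ^ 3 / ((3 + 2 * v) ^ 2 * (1 + v))) v := by
    intro v hv
    have hv0 : 0 ≤ v := hv.1
    have h1 : (1 + v) ≠ 0 := by positivity
    have h2 : (6 + 4 * v) ≠ 0 := by positivity
    have h3 : (3 + 2 * v) ≠ 0 := by positivity
    have d1 : HasDerivAt (fun w : ℝ => 1 + w) 1 v := by
      simpa using (hasDerivAt_id v).const_add 1
    have d2 : HasDerivAt (fun w : ℝ => 6 + w) 1 v := by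
      simpa using (hasDerivAt_id v).const_add 6
    have d3 : HasDerivAt (fun w : ℝ => 6 + 4 * w) 4 v := by
      simpa using ((hasDerivAt_id v).const_mul 4).const_add 6
    have d4 := ((hasDerivAt_id v).mul d2).div d3 h2
    have d5 := d4.sub (d1.log h1)
    refine HasDerivAt.congr_deriv d5 ?_
    have e : (6 + 4 * v) = 2 * (3 + 2 * v) := by ring
    rw [e]
    simp only [id, Pi.mul_apply]
    field_simp
    ring
  have := le_of_deriv_nonneg_Icc hq hd (fun v hv => by
    have hv0 : 0 < v := hv.1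
    positivity)
  simp only [mul_zero, zero_mul, zero_div, add_zero, log_one, sub_zero] at this
  linarith

/-- The rational correction term. -/
noncomputable def cPade (u : ℝ) : ℝ := (7 + 5 * u) / ((1 + u) * (10 + 2 * u))

lemma hh_le_pade {u : ℝ} (h0 : 0 ≤ u) (h1 : u < 1) : hh u ≤ (1 - u) * (y u + cPade u) := by
  have hp : 0 < 1 + u := by linarith
  have hq : 0 ≤ (1 - u) / (1 + u) := div_nonneg (by linarith) hp.le
  have h := log_one_add_le_pade hq
  have e1 : 1 + (1 - u) / (1 + u) = 2 / (1 + u) := by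
    field_simp
    ring
  rw [e1, log_div (by norm_num) hp.ne'] at h
  have e2 : (1 - u) / (1 + u) * (6 + (1 - u) / (1 + u)) / (6 + 4 * ((1 - u) / (1 + u)))
      = (1 - u) * cPade u := by
    unfold cPade
    have h10 : (10 + 2 * u) ≠ 0 := by positivity
    have e3 : 6 + 4 * ((1 - u) / (1 + u)) = (10 + 2 * u) / (1 + u) := by
      field_simp
      ring
    have e4 : 6 + (1 - u) / (1 + u) = (7 + 5 * u) / (1 + u) := by
      field_simp
      ring
    rw [e3, e4]
    field_simp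
  rw [e2] at h
  rw [hh_eq u]
  nlinarith

/-- Lower bound for `y` by a truncated series. -/
lemma y_ge_three {u : ℝ} (h0 : 0 ≤ u) (h1 : u < 1) : u + u ^ 3 / 3 ≤ y u := by
  have hd : ∀ v ∈ Set.Ico (0 : ℝ) 1, HasDerivAt (fun w => y w - (w + w ^ 3 / 3))
      (1 / (1 - v ^ 2) - (1 + v ^ 2)) v := by
    intro v hv
    have hv' : |v| < 1 := by rw [abs_of_nonneg hv.1]; exact hv.2
    have d1 := (hasDerivAt_id v).add ((hasDerivAt_pow 3 v).div_const 3)
    have d2 := (hasDerivAt_y hv').sub d1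
    refine HasDerivAt.congr_deriv d2 ?_
    norm_num
  have := le_of_deriv_nonneg_Ico hd (fun v hv => by
    have hv' : |v| < 1 := by rw [abs_of_nonneg hv.1]; exact hv.2
    have h3 := one_sub_sq_pos_of_abs hv'
    have : 1 + v ^ 2 ≤ 1 / (1 - v ^ 2) := by
      rw [le_div_iff₀ h3]
      nlinarith [sq_nonneg (v ^ 2)]
    linarith) (x := 0) (z := u) ⟨le_rfl, by norm_num⟩ ⟨h0, h1⟩ h0
  simp only [y_zero] at this
  norm_num at this
  linarith

/-- The truncated series. -/
noncomputable def ySer (u : ℝ) : ℝ := u + u ^ 3 / 3 + u ^ 5 / 5 + u ^ 7 / 7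

lemma y_ge_ser {u : ℝ} (h0 : 0 ≤ u) (h1 : u < 1) : ySer u ≤ y u := by
  have hd : ∀ v ∈ Set.Ico (0 : ℝ) 1, HasDerivAt (fun w => y w - ySer w)
      (1 / (1 - v ^ 2) - (1 + v ^ 2 + v ^ 4 + v ^ 6)) v := by
    intro v hv
    have hv' : |v| < 1 := by rw [abs_of_nonneg hv.1]; exact hv.2
    have d1 := (((hasDerivAt_id v).add ((hasDerivAt_pow 3 v).div_const 3)).add
      ((hasDerivAt_pow 5 v).div_const 5)).add ((hasDerivAt_pow 7 v).div_const 7)
    have d2 := (hasDerivAt_y hv').sub d1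
    refine HasDerivAt.congr_deriv d2 ?_
    norm_num
  have := le_of_deriv_nonneg_Ico hd (fun v hv => by
    have hv' : |v| < 1 := by rw [abs_of_nonneg hv.1]; exact hv.2
    have h3 := one_sub_sq_pos_of_abs hv'
    have : 1 + v ^ 2 + v ^ 4 + v ^ 6 ≤ 1 / (1 - v ^ 2) := by
      rw [le_div_iff₀ h3]
      nlinarith [sq_nonneg (v ^ 4)]
    linarith) (x := 0) (z := u) ⟨le_rfl, by norm_num⟩ ⟨h0, h1⟩ h0
  simp only [y_zero, ySer] at this
  norm_num at this
  unfold ySer
  linarith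

lemma y_le_ser {u : ℝ} (h0 : 0 ≤ u) (h1 : u ≤ 19 / 25) : y u ≤ ySer u + 27 / 100 * u ^ 9 := by
  have hd : ∀ v ∈ Set.Icc (0 : ℝ) u, HasDerivAt (fun w => ySer w + 27 / 100 * w ^ 9 - y w)
      ((1 + v ^ 2 + v ^ 4 + v ^ 6) + 243 / 100 * v ^ 8 - 1 / (1 - v ^ 2)) v := by
    intro v hv
    have hv' : |v| < 1 := by
      rw [abs_of_nonneg hv.1]
      linarith [hv.2]
    have d1 := (((hasDerivAt_id v).add ((hasDerivAt_pow 3 v).div_const 3)).add
      ((hasDerivAt_pow 5 v).div_const 5)).add ((hasDerivAt_pow 7 v).div_const 7)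
    have d2 := (d1.add ((hasDerivAt_pow 9 v).const_mul (27 / 100))).sub (hasDerivAt_y hv')
    refine HasDerivAt.congr_deriv d2 ?_
    norm_num
    ring
  have := le_of_deriv_nonneg_Icc h0 hd (fun v hv => by
    have hv0 : 0 < v := hv.1
    have hv1 : v ≤ 19 / 25 := hv.2.le.trans h1
    have hT : v ^ 2 ≤ (19 / 25) ^ 2 := pow_le_pow_left₀ hv0.le hv1 2
    have h3 : 0 < 1 - v ^ 2 := by
      norm_num at hT
      linarith
    have h8 : 0 ≤ v ^ 8 := by positivity
    have : 1 / (1 - v ^ 2) ≤ (1 + v ^ 2 + v ^ 4 + v ^ 6) + 243 / 100 * v ^ 8 := by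
      rw [div_le_iff₀ h3]
      have e : ((1 + v ^ 2 + v ^ 4 + v ^ 6) + 243 / 100 * v ^ 8) * (1 - v ^ 2)
          = 1 + v ^ 8 * (143 / 100 - 243 / 100 * v ^ 2) := by ring
      rw [e]
      have : 0 ≤ v ^ 8 * (143 / 100 - 243 / 100 * v ^ 2) := by
        apply mul_nonneg h8
        norm_num at hT
        linarith
      linarith
    linarith)
  simp only [y_zero, ySer] at this
  norm_num at this
  unfold ySer
  linarith

/-- The polynomial form of the main inequality. -/
def FF (u y : ℝ) : ℝ :=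
  2 * (1 + u) ^ 4 * (10 + 2 * u) ^ 2 * y ^ 3
    - 3 * ((1 + u) * (10 + 2 * u) * y + 7 + 5 * u) ^ 2 * ((1 + u ^ 2) * y - u)

/-- The certificate for small `u`. -/
lemma FF_small_cert {u : ℝ} (h0 : 0 ≤ u) (h1 : u ≤ 19 / 25) :
    0 ≤ 2 * (1 + u) ^ 4 * (10 + 2 * u) ^ 2 * ySer u ^ 3
      - 3 * ((1 + u) * (10 + 2 * u) * (ySer u + 27 / 100 * u ^ 9) + 7 + 5 * u) ^ 2
        * ((1 + u ^ 2) * (ySer u + 27 / 100 * u ^ 9) - u) := by
  have e : 2 * (1 + u) ^ 4 * (10 + 2 * u) ^ 2 * ySer u ^ 3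
      - 3 * ((1 + u) * (10 + 2 * u) * (ySer u + 27 / 100 * u ^ 9) + 7 + 5 * u) ^ 2
        * ((1 + u ^ 2) * (ySer u + 27 / 100 * u ^ 9) - u)
      = u ^ 3 * (((4/1)*u^0 + (3101176625739170839754093980838360759657056883942/185940672581264010432278155349195003509521484375)*u^1) + (19 / 25 - u) * ((228234225132178398817738538585759967406515920582/7437626903250560417291126213967800140380859375)*u^1 + (42389161727601151957869996462613750436845821478/297505076130022416691645048558712005615234375)*u^2 + (12204698525293228765740476130553046173005261286/35700609135602690002997405827045440673828125)*u^3 + (316501019274732429676557638650539313599187698/476008121808035866706632077693939208984375)*u^4 + (64444492051606252928390716001454590942470426/57120974616964304004795849323272705078125)*u^5 + (141820244016608347790475356158577013993278669/82254203448428597766906023025512695312500)*u^6 + (295289903037108417605696893685205268162763/121858079182857181876897811889648437500)*u^7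 + (411665051271795433426558029114932039173729/131606725517485756427049636840820312500)*u^8 + (18833146384495303975531095551802935244341/5264269020699430257081985473632812500)*u^9 + (61513857074978662871744262751057752922/17547563402331434190273284912109375)*u^10 + (6515594547486456341402472253867671514/2105707608279772102832794189453125)*u^11 + (25156716415413847309204228418314234/9358700481243431568145751953125)*u^12 + (889519294220817232437943559845486/374348019249737262725830078125)*u^13 + (10493801399540171712253789838298/4991306923329830169677734375)*u^14 + (4402815626063246908698772591129/2395827323198318481445312500)*u^15 + (24519718187296245730012962011/15972182154655456542968750)*u^16 + (779301354092665630270007869/638887286186218261718750)*u^17 + (23172705257268752847270151/25555491447448730468750)*u^18 + (181135633749651224603569/292062759399414062500)*u^19 + (8332034670211390161883/20444393157958984375)*u^20 + (231153146159100715757/817775726318359375)*u^21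 + (6487992125407027803/32711029052734375)*u^22 + (183384820179728437/1308441162109375)*u^23 + (11364251902275249/119628906250000)*u^24 + (284284320925671/4785156250000)*u^25 + (54632377557/1708984375)*u^26 + (1882160631/136718750)*u^27 + (18836631/6250000)*u^28 + (59049/250000)*u^29)) := by
    unfold ySer
    ring
  rw [e]
  have h2 : 0 ≤ 19 / 25 - u := by linarith
  positivity

lemma FF_small {u : ℝ} (h0 : 0 ≤ u) (h1 : u ≤ 19 / 25) : 0 ≤ FF u (y u) := by
  have hu1 : u < 1 := by linarith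
  have hl := y_ge_ser h0 hu1
  have hh' := y_le_ser h0 h1
  have hyu := le_y h0 hu1
  have hc := FF_small_cert h0 h1
  have hl0 : 0 ≤ ySer u := by
    unfold ySer
    positivity
  have hP : 0 ≤ (1 + u ^ 2) * y u - u := by
    nlinarith [sq_nonneg u, mul_nonneg (sq_nonneg u) (h0.trans hyu)]
  have hy0 : 0 ≤ y u := h0.trans hyu
  set Y := y u with hY
  set S := ySer u + 27 / 100 * u ^ 9 with hS
  have a1 : ySer u ^ 3 ≤ Y ^ 3 := pow_le_pow_left₀ hl0 hl 3
  have a2 : 2 * (1 + u) ^ 4 * (10 + 2 * u) ^ 2 * ySer u ^ 3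
      ≤ 2 * (1 + u) ^ 4 * (10 + 2 * u) ^ 2 * Y ^ 3 :=
    mul_le_mul_of_nonneg_left a1 (by positivity)
  have a3 : (1 + u) * (10 + 2 * u) * Y + 7 + 5 * u ≤ (1 + u) * (10 + 2 * u) * S + 7 + 5 * u := by
    have : (1 + u) * (10 + 2 * u) * Y ≤ (1 + u) * (10 + 2 * u) * S :=
      mul_le_mul_of_nonneg_left hh' (by positivity)
    linarith
  have a4 : ((1 + u) * (10 + 2 * u) * Y + 7 + 5 * u) ^ 2 ≤ ((1 + u) * (10 + 2 * u) * S + 7 + 5 * u) ^ 2 :=
    pow_le_pow_left₀ (by positivity) a3 2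
  have a5 : (1 + u ^ 2) * Y - u ≤ (1 + u ^ 2) * S - u := by
    have : (1 + u ^ 2) * Y ≤ (1 + u ^ 2) * S := mul_le_mul_of_nonneg_left hh' (by positivity)
    linarith
  have a6 : 3 * ((1 + u) * (10 + 2 * u) * Y + 7 + 5 * u) ^ 2 * ((1 + u ^ 2) * Y - u)
      ≤ 3 * ((1 + u) * (10 + 2 * u) * S + 7 + 5 * u) ^ 2 * ((1 + u ^ 2) * S - u) := by
    apply mul_le_mul _ a5 hP (by positivity)
    linarith
  unfold FF
  linarith

/-- The coefficient polynomials of `FF` in its second variable. -/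
def c3 (u : ℝ) : ℝ := (1 + u) ^ 2 * (10 + 2 * u) ^ 2 * (4 * u - 1 - u ^ 2)
def c2 (u : ℝ) : ℝ :=
  3 * (1 + u) ^ 2 * (10 + 2 * u) ^ 2 * u - 6 * ((1 + u) * (10 + 2 * u) * (7 + 5 * u)) * (1 + u ^ 2)
def c1 (u : ℝ) : ℝ :=
  6 * ((1 + u) * (10 + 2 * u) * (7 + 5 * u)) * u - 3 * (7 + 5 * u) ^ 2 * (1 + u ^ 2)
def c0 (u : ℝ) : ℝ := 3 * (7 + 5 * u) ^ 2 * u

lemma FF_eq (u y : ℝ) : FF u y = c3 u * y ^ 3 + c2 u * y ^ 2 + c1 u * y + c0 u := by
  unfold FF c3 c2 c1 c0
  ring

/-- The shift used for large `u`. -/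
noncomputable def rr (u : ℝ) : ℝ := 1 + 13 / 12 * (1 - u)

lemma H2_nonneg {u : ℝ} (h0 : 19 / 25 ≤ u) (h1 : u ≤ 1) : 0 ≤ 3 / 2 * c3 u * rr u + c2 u := by
  have e : 3 / 2 * c3 u * rr u + c2 u = (25 / 6) ^ 7 * ((4743484416/6103515625)*(u-19/25)^0*(1-u)^7 + (9233315712/48828125)*(u-19/25)^1*(1-u)^6 + (9637707456/9765625)*(u-19/25)^2*(1-u)^5 + (810905472/390625)*(u-19/25)^3*(1-u)^4 + (1365984/625)*(u-19/25)^4*(1-u)^3 + (718848/625)*(u-19/25)^5*(1-u)^2 + (6048/25)*(u-19/25)^6*(1-u)^1) := by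
    unfold c3 c2 rr
    ring
  rw [e]
  have h2 : 0 ≤ u - 19 / 25 := by linarith
  have h3 : 0 ≤ 1 - u := by linarith
  positivity

lemma G2_nonneg {u : ℝ} (h0 : 19 / 25 ≤ u) (h1 : u ≤ 1) :
    0 ≤ c1 u * (u + u ^ 3 / 3) + c0 u - 1 / 2 * c3 u * rr u ^ 3 := by
  have e : c1 u * (u + u ^ 3 / 3) + c0 u - 1 / 2 * c3 u * rr u ^ 3 = (25 / 6) ^ 9 * ((264407303251908/3814697265625)*(u-19/25)^0*(1-u)^9 + (178515717473844/152587890625)*(u-19/25)^1*(1-u)^8 + (44024142911652/6103515625)*(u-19/25)^2*(1-u)^7 + (5761157163876/244140625)*(u-19/25)^3*(1-u)^6 + (457983852084/9765625)*(u-19/25)^4*(1-u)^5 + (23364732636/390625)*(u-19/25)^5*(1-u)^4 + (773042292/15625)*(u-19/25)^6*(1-u)^3 + (16100316/625)*(u-19/25)^7*(1-u)^2 + (192384/25)*(u-19/25)^8*(1-u)^1 + (1008/1)*(u-19/25)^9*(1-u)^0) := by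
    unfold c3 c1 c0 rr
    ring
  rw [e]
  have h2 : 0 ≤ u - 19 / 25 := by linarith
  have h3 : 0 ≤ 1 - u := by linarith
  positivity

lemma FF_large {u : ℝ} (h0 : 19 / 25 ≤ u) (h1 : u < 1) : 0 ≤ FF u (y u) := by
  have hu0 : 0 ≤ u := by linarith
  have hy := y_ge_three hu0 h1
  have hy0 : 0 ≤ y u := by
    have : 0 ≤ u + u ^ 3 / 3 := by positivity
    linarith
  have hr : 0 ≤ rr u := by
    unfold rr
    nlinarith
  have hc3 : 0 ≤ c3 u := by
    unfold c3
    apply mul_nonneg (by positivity)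
    nlinarith
  have hc1 : 0 ≤ c1 u := by
    have e : c1 u = 3 * (7 + 5 * u) * (-7 + 15 * u + 17 * u ^ 2 - u ^ 3) := by
      unfold c1
      ring
    rw [e]
    apply mul_nonneg (by positivity)
    nlinarith [sq_nonneg u, mul_nonneg hu0 (sub_nonneg.mpr h1.le), mul_nonneg (mul_nonneg hu0 hu0) (sub_nonneg.mpr h1.le)]
  have hH := H2_nonneg h0 h1.le
  have hG := G2_nonneg h0 h1.le
  set Y := y u with hY
  set r := rr u with hrdef
  have hcube : 3 / 2 * r * Y ^ 2 - 1 / 2 * r ^ 3 ≤ Y ^ 3 := by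
    have : 0 ≤ (Y - r) ^ 2 * (Y + r / 2) := by positivity
    nlinarith
  have h5 := mul_le_mul_of_nonneg_left hcube hc3
  have h6 := mul_nonneg hH (sq_nonneg Y)
  have h7 : c1 u * (u + u ^ 3 / 3) ≤ c1 u * Y := mul_le_mul_of_nonneg_left hy hc1
  rw [FF_eq]
  nlinarith

theorem FF_nonneg {u : ℝ} (h0 : 0 ≤ u) (h1 : u < 1) : 0 ≤ FF u (y u) := by
  rcases le_total u (19 / 25) with h | h
  · exact FF_small h0 h
  · exact FF_large h h1

/-- `F2`. -/
theorem F2 {u : ℝ} (h0 : 0 < u) (h1 : u < 1) :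
    3 * hh u ^ 2 * ((1 + u ^ 2) * y u - u) ≤ 2 * (1 - u ^ 2) ^ 2 * y u ^ 3 := by
  have hF := FF_nonneg h0.le h1
  have hh0 := hh_nonneg h0.le h1
  have hle := hh_le_pade h0.le h1
  have hyu := le_y h0.le h1
  have hy0 : 0 ≤ y u := h0.le.trans hyu
  have hP : 0 ≤ (1 + u ^ 2) * y u - u := by
    nlinarith [sq_nonneg u, mul_nonneg (sq_nonneg u) hy0]
  have hsq : hh u ^ 2 ≤ ((1 - u) * (y u + cPade u)) ^ 2 := pow_le_pow_left₀ hh0 hle 2
  have h10 : (10 + 2 * u) ≠ 0 := by positivity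
  have h11 : (1 + u) ≠ 0 := by positivity
  have e : ((1 - u) * (y u + cPade u)) ^ 2 * ((1 + u) ^ 2 * (10 + 2 * u) ^ 2)
      = (1 - u) ^ 2 * ((1 + u) * (10 + 2 * u) * y u + 7 + 5 * u) ^ 2 := by
    unfold cPade
    field_simp
    ring
  have hF' : 3 * ((1 + u) * (10 + 2 * u) * y u + 7 + 5 * u) ^ 2 * ((1 + u ^ 2) * y u - u)
      ≤ 2 * (1 + u) ^ 4 * (10 + 2 * u) ^ 2 * y u ^ 3 := by
    unfold FF at hF
    linarith
  have hpos : 0 < (1 + u) ^ 2 * (10 + 2 * u) ^ 2 := by positivity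
  have key : 3 * ((1 - u) * (y u + cPade u)) ^ 2 * ((1 + u ^ 2) * y u - u)
      ≤ 2 * (1 - u ^ 2) ^ 2 * y u ^ 3 := by
    have h2 : (3 * ((1 - u) * (y u + cPade u)) ^ 2 * ((1 + u ^ 2) * y u - u))
        * ((1 + u) ^ 2 * (10 + 2 * u) ^ 2)
        ≤ (2 * (1 - u ^ 2) ^ 2 * y u ^ 3) * ((1 + u) ^ 2 * (10 + 2 * u) ^ 2) := by
      have e2 : (3 * ((1 - u) * (y u + cPade u)) ^ 2 * ((1 + u ^ 2) * y u - u))
          * ((1 + u) ^ 2 * (10 + 2 * u) ^ 2)
          = (1 - u) ^ 2 * (3 * ((1 + u) * (10 + 2 * u) * y u + 7 + 5 * u) ^ 2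
            * ((1 + u ^ 2) * y u - u)) := by
        calc (3 * ((1 - u) * (y u + cPade u)) ^ 2 * ((1 + u ^ 2) * y u - u))
              * ((1 + u) ^ 2 * (10 + 2 * u) ^ 2)
            = 3 * (((1 - u) * (y u + cPade u)) ^ 2 * ((1 + u) ^ 2 * (10 + 2 * u) ^ 2))
              * ((1 + u ^ 2) * y u - u) := by ring
          _ = 3 * ((1 - u) ^ 2 * ((1 + u) * (10 + 2 * u) * y u + 7 + 5 * u) ^ 2)
              * ((1 + u ^ 2) * y u - u) := by rw [e]
          _ = _ := by ring
      have e3 : (2 * (1 - u ^ 2) ^ 2 * y u ^ 3) * ((1 + u) ^ 2 * (10 + 2 * u) ^ 2)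
          = (1 - u) ^ 2 * (2 * (1 + u) ^ 4 * (10 + 2 * u) ^ 2 * y u ^ 3) := by
        ring
      rw [e2, e3]
      exact mul_le_mul_of_nonneg_left hF' (by positivity)
    exact le_of_mul_le_mul_right h2 hpos
  have h3 : 3 * hh u ^ 2 * ((1 + u ^ 2) * y u - u)
      ≤ 3 * ((1 - u) * (y u + cPade u)) ^ 2 * ((1 + u ^ 2) * y u - u) := by
    apply mul_le_mul_of_nonneg_right _ hP
    linarith
  exact h3.trans key

end Vale.Agent.Lib.P322B
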