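import Vale.Agent.Lib.P322B.Omega

/-!
The star-shape step: monotonicity along rays.
-/

namespace Vale.Agent.Lib.P322B

open Vale.Agent.Lib.P322 Real Set Filter Topology

/-- `Y1 = d (y p - y q) - Jsd`. -/
noncomputable def Y1 (x d : ℝ) : ℝ := d * (y (x + d) - y (x - d)) - Jsd x d

lemma hasDerivAt_add_right {f : ℝ → ℝ} {f' x d : ℝ} (h : HasDerivAt f f' (x + d)) :
    HasDerivAt (fun v => f (x + v)) f' d := by
  have := h.comp_const_add x d
  exact this

lemma hasDerivAt_sub_right {f : ℝ → ℝ} {f' x d : ℝ} (h : HasDerivAt f f' (x - d)) :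
    HasDerivAt (fun v => f (x - v)) (- f') d := by
  have := h.comp_const_sub x d
  exact this

lemma hasDerivAt_Jsd_right {x d : ℝ} (hp : |x + d| < 1) (hq : |x - d| < 1) :
    HasDerivAt (fun v => Jsd x v) (y (x + d) - y (x - d)) d := by
  have d1 := hasDerivAt_add_right (hasDerivAt_phi hp)
  have d2 := hasDerivAt_sub_right (hasDerivAt_phi hq)
  have d3 := (d1.add d2).sub_const (2 * phi x)
  refine HasDerivAt.congr_deriv (f := fun v => Jsd x v) d3 ?_
  ring

lemma hasDerivAt_Y1 {x d : ℝ} (hp : |x + d| < 1) (hq : |x - d| < 1) :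
    HasDerivAt (fun v => Y1 x v) (d * (1 / (1 - (x + d) ^ 2) + 1 / (1 - (x - d) ^ 2))) d := by
  have d1 := hasDerivAt_add_right (hasDerivAt_y hp)
  have d2 := hasDerivAt_sub_right (hasDerivAt_y hq)
  have d3 := ((hasDerivAt_id' d).mul (d1.sub d2)).sub (hasDerivAt_Jsd_right hp hq)
  refine HasDerivAt.congr_deriv (f := fun v => Y1 x v) d3 ?_
  simp only [Pi.sub_apply]
  ring

lemma abs_add_lt_of {x d : ℝ} (hd : 0 ≤ d) (h : |x| + d < 1) : |x + d| < 1 := by
  have h1 := abs_add_le x d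
  rw [abs_of_nonneg hd] at h1
  linarith

lemma abs_sub_lt_of {x d : ℝ} (hd : 0 ≤ d) (h : |x| + d < 1) : |x - d| < 1 := by
  have h1 := abs_sub x d
  rw [abs_of_nonneg hd] at h1
  linarith

lemma one_sub_sum_pos {x d : ℝ} (hd : 0 ≤ d) (h : |x| + d < 1) : 0 < 1 - x ^ 2 - d ^ 2 := by
  have h1 : x ^ 2 = |x| ^ 2 := (sq_abs x).symm
  rw [h1]
  have h3 := abs_nonneg x
  nlinarith

/-- (ST1) -/
lemma ST1 {x d : ℝ} (hd : 0 ≤ d) (h : |x| + d < 1) :
    log ((1 - x ^ 2) / (1 - x ^ 2 - d ^ 2)) ≤ Y1 x d := by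
  have hmem : ∀ v ∈ Icc (0:ℝ) d, |x| + v < 1 := fun v hv => by linarith [hv.2]
  have key : ∀ v ∈ Icc (0:ℝ) d, HasDerivAt (fun w => Y1 x w + log (1 - x ^ 2 - w ^ 2))
      (v * (1 / (1 - (x + v) ^ 2) + 1 / (1 - (x - v) ^ 2)) + (- (2 * v)) / (1 - x ^ 2 - v ^ 2)) v := by
    intro v hv
    have hv' := hmem v hv
    have hp := abs_add_lt_of hv.1 hv'
    have hq := abs_sub_lt_of hv.1 hv'
    have hpos := one_sub_sum_pos hv.1 hv'
    have d2 : HasDerivAt (fun w : ℝ => w ^ 2) (2 * v) v := by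
      simpa using hasDerivAt_pow 2 v
    have d3 : HasDerivAt (fun w : ℝ => 1 - x ^ 2 - w ^ 2) (- (2 * v)) v := by
      simpa using d2.const_sub (1 - x ^ 2)
    exact (hasDerivAt_Y1 hp hq).add (d3.log hpos.ne')
  have hm : MonotoneOn (fun w => Y1 x w + log (1 - x ^ 2 - w ^ 2)) (Icc 0 d) := by
    apply monotoneOn_of_deriv_nonneg (convex_Icc 0 d)
    · intro v hv
      exact (key v hv).continuousAt.continuousWithinAt
    · intro v hv
      rw [interior_Icc] at hv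
      exact (key v ⟨hv.1.le, hv.2.le⟩).differentiableAt.differentiableWithinAt
    · intro v hv
      rw [interior_Icc] at hv
      have hv2 : v ∈ Icc (0:ℝ) d := ⟨hv.1.le, hv.2.le⟩
      rw [(key v hv2).deriv]
      have hv' := hmem v hv2
      have hA := one_sub_sq_pos_of_abs (abs_add_lt_of hv2.1 hv')
      have hB := one_sub_sq_pos_of_abs (abs_sub_lt_of hv2.1 hv')
      have hpos := one_sub_sum_pos hv2.1 hv'
      have e : 1 - x ^ 2 - v ^ 2 = ((1 - (x + v) ^ 2) + (1 - (x - v) ^ 2)) / 2 := by ring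
      set A := 1 - (x + v) ^ 2 with hAdef
      set B := 1 - (x - v) ^ 2 with hBdef
      rw [e]
      have e2 : v * (1 / A + 1 / B) + - (2 * v) / ((A + B) / 2) =
          v * (A - B) ^ 2 / (A * B * (A + B)) := by
        field_simp
        ring
      rw [e2]
      have : 0 ≤ v := hv2.1
      positivity
  have h0 : (0:ℝ) ∈ Icc (0:ℝ) d := ⟨le_rfl, hd⟩
  have hdm : d ∈ Icc (0:ℝ) d := ⟨hd, le_rfl⟩
  have := hm h0 hdm hd
  simp only at this
  have e0 : Y1 x 0 = 0 := by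
    unfold Y1 Jsd; simp; ring
  rw [e0] at this
  have h5 : 0 < 1 - x ^ 2 := by
    have := one_sub_sum_pos hd h
    nlinarith [sq_nonneg d]
  have h6 := one_sub_sum_pos hd h
  rw [log_div h5.ne' h6.ne']
  simp only [ne_eq, OfNat.ofNat_ne_zero, not_false_eq_true, zero_pow, sub_zero] at this
  linarith

lemma om_le_one (x : ℝ) (hx : x ^ 2 ≤ 1) : om x ≤ 1 := by
  rw [om_eq]
  have h1 := cc_nonneg
  have h2 := sq_nonneg x
  have h3 : x ^ 4 ≤ x ^ 2 := by nlinarith
  nlinarith [mul_le_mul_of_nonneg_left h3 h1]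

/-- (ST2) -/
lemma ST2 {x d : ℝ} (hd : 0 ≤ d) (h : |x| + d < 1) :
    2 / 3 * (om x * log (om x / WW x d)) ≤ log ((1 - x ^ 2) / (1 - x ^ 2 - d ^ 2)) := by
  have hpos := one_sub_sum_pos hd h
  have ha := sq_nonneg x
  have hb := sq_nonneg d
  have hab : x ^ 2 + d ^ 2 < 1 := by linarith
  have halg := ST2_alg ha hb hab
  have hp := abs_add_lt_of hd h
  have hq := abs_sub_lt_of hd h
  have hW := WW_pos hp hq
  have hx1 : |x| < 1 := by linarith
  have hom := om_pos hx1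
  have hle := WW_le_om hab.le
  have e1 : 1 - (1 + cc) * (x ^ 2 + d ^ 2) + cc * ((x ^ 2) ^ 2 + 6 * x ^ 2 * d ^ 2 + (d ^ 2) ^ 2) =
      WW x d := by rw [WW_eq]; ring
  have e2 : (1 - x ^ 2) * (1 - cc * x ^ 2) = om x := rfl
  rw [e1, e2] at halg
  have h5 : 0 < 1 - x ^ 2 := by nlinarith
  set r := WW x d / om x with hr
  set r0 := (1 - x ^ 2 - d ^ 2) / (1 - x ^ 2) with hr0
  have hr0pos : 0 < r0 := by rw [hr0]; positivity
  have hrpos : 0 < r := by rw [hr]; positivity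
  have hlog := log_le_log (by positivity) halg
  rw [log_pow, log_pow] at hlog
  push_cast at hlog
  have e3 : log (om x / WW x d) = - log r := by
    rw [hr, log_div hW.ne' hom.ne', log_div hom.ne' hW.ne']; ring
  have e4 : log ((1 - x ^ 2) / (1 - x ^ 2 - d ^ 2)) = - log r0 := by
    rw [hr0, log_div hpos.ne' h5.ne', log_div h5.ne' hpos.ne']; ring
  rw [e3, e4]
  have h7 : log r ≤ 0 := by
    apply log_nonpos hrpos.le
    rw [hr, div_le_one hom]; exact hle
  have h8 := om_le_one x (by nlinarith)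
  nlinarith

/-- The ray function. -/
noncomputable def Tr (x τ h₀ l : ℝ) : ℝ :=
  Jsd x (l * τ) / l + QQ h₀ (om x / l) - QQ h₀ (WW x (l * τ) / l)

lemma Tr_eq {x τ h₀ l : ℝ} (hl : 0 < l) (hx : 0 < om x) (hW : 0 < WW x (l * τ)) :
    l * Tr x τ h₀ l = LHS x (l * τ) (l * h₀) := by
  unfold Tr LHS QQ
  have e1 : h₀ / (om x / l) = l * h₀ / om x := by field_simp
  have e2 : h₀ / (WW x (l * τ) / l) = l * h₀ / WW x (l * τ) := by field_simp
  rw [e1, e2]
  field_simp

lemma Tr_deriv {x τ h₀ l : ℝ} (hτ : 0 < τ) (hh₀ : 0 < h₀) (hl : 0 < l) (h : |x| + l * τ < 1) :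
    ∃ D : ℝ, HasDerivAt (Tr x τ h₀) D l ∧ 0 ≤ D := by
  set d := l * τ with hd
  have hd0 : 0 ≤ d := by positivity
  have hp := abs_add_lt_of hd0 h
  have hq := abs_sub_lt_of hd0 h
  have hx1 : |x| < 1 := by linarith
  have hom := om_pos hx1
  have hW := WW_pos hp hq
  have hpos := one_sub_sum_pos hd0 h
  have hsum : x ^ 2 + d ^ 2 ≤ 1 := by linarith
  -- the inner functions
  have di : HasDerivAt (fun v : ℝ => v * τ) τ l := by
    simpa using (hasDerivAt_id' l).mul_const τ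
  have dJ : HasDerivAt (fun v => Jsd x (v * τ)) ((y (x + d) - y (x - d)) * τ) l :=
    HasDerivAt.comp (h₂ := fun v => Jsd x v) l (hasDerivAt_Jsd_right hp hq) di
  have dW : HasDerivAt (fun v => WW x (v * τ)) (WWd x d * τ) l :=
    HasDerivAt.comp (h₂ := fun v => WW x v) l (hasDerivAt_WW_right x d) di
  have dJl := dJ.div (hasDerivAt_id' l) hl.ne'
  have dWl := dW.div (hasDerivAt_id' l) hl.ne'
  have dOl : HasDerivAt (fun v : ℝ => om x / v) (- om x / l ^ 2) l := by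
    have := (hasDerivAt_id' l).fun_inv hl.ne'
    have h2 := this.const_mul (om x)
    refine (h2.congr_deriv (by field_simp)).congr_of_eventuallyEq ?_
    filter_upwards with v
    rw [div_eq_mul_inv]
  have hzO : 0 < om x / l := by positivity
  have hzW : 0 < WW x d / l := by positivity
  have dQ1 : HasDerivAt (fun v => QQ h₀ (om x / v)) (Pit (h₀ / (om x / l)) * (- om x / l ^ 2)) l :=
    HasDerivAt.comp (h₂ := QQ h₀) l (hasDerivAt_QQ hh₀ hzO) dOl
  have dQ2 : HasDerivAt (fun v => QQ h₀ (WW x (v * τ) / v))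
      (Pit (h₀ / (WW x d / l)) * ((WWd x d * τ * l - WW x d * 1) / l ^ 2)) l :=
    HasDerivAt.comp (h₂ := QQ h₀) l (hasDerivAt_QQ hh₀ hzW) dWl
  have dT := (dJl.add dQ1).sub dQ2
  refine ⟨_, dT, ?_⟩
  set P1 := Pit (h₀ / (om x / l)) with hP1
  set P2 := Pit (h₀ / (WW x d / l)) with hP2
  have e : (y (x + d) - y (x - d)) * τ * l - Jsd x d * 1 = Y1 x d := by
    unfold Y1; rw [hd]; ring
  have hQ : (WWd x d * τ * l - WW x d * 1) = d * WWd x d - WW x d := by
    rw [hd]; ring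
  have hP2nn : 0 ≤ P2 := Pit_nonneg (by positivity)
  have hle := WW_le_om hsum
  -- the log-Lipschitz bound
  have hw1 : 0 < h₀ / (om x / l) := by positivity
  have hw12 : h₀ / (om x / l) ≤ h₀ / (WW x d / l) := by
    apply div_le_div_of_nonneg_left hh₀.le hzW
    exact div_le_div_of_nonneg_right hle hl.le
  have hG := Pit_log_lip hw1 hw12
  rw [← hP1, ← hP2] at hG
  have e3 : h₀ / (WW x d / l) / (h₀ / (om x / l)) = om x / WW x d := by
    field_simp
  rw [e3] at hG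
  have hS1 := ST1 hd0 h
  have hS2 := ST2 hd0 h
  have hXi := Xi_nonneg hsum
  have hnum : 0 ≤ Y1 x d - om x * P1 + (WW x d - d * WWd x d) * P2 := by
    have h1 := mul_le_mul_of_nonneg_left hG hom.le
    have h2 := mul_nonneg hXi hP2nn
    have e5 : (WW x d - d * WWd x d) * P2 = om x * P2 + (WW x d - d * WWd x d - om x) * P2 := by
      ring
    rw [e5]
    nlinarith
  have e6 : (y (x + d) - y (x - d)) * τ * l - Jsd x d * 1 = Y1 x d := e
  have hfinal : ((y (x + d) - y (x - d)) * τ * l - Jsd x d * 1) / l ^ 2 + P1 * (- om x / l ^ 2) -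
      P2 * ((WWd x d * τ * l - WW x d * 1) / l ^ 2) =
      (Y1 x d - om x * P1 + (WW x d - d * WWd x d) * P2) / l ^ 2 := by
    rw [e6, hQ]
    field_simp
    ring
  have hgoal : 0 ≤ (Y1 x d - om x * P1 + (WW x d - d * WWd x d) * P2) / l ^ 2 := by
    positivity
  rw [← hfinal] at hgoal
  exact hgoal

/-- Monotonicity along rays (ST). -/
lemma Tr_mono {x τ h₀ l₁ l₂ : ℝ} (hτ : 0 < τ) (hh₀ : 0 < h₀) (hl : 0 < l₁) (hl12 : l₁ ≤ l₂)
    (h : |x| + l₂ * τ < 1) : Tr x τ h₀ l₁ ≤ Tr x τ h₀ l₂ := by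
  have hmem : ∀ v ∈ Icc l₁ l₂, 0 < v ∧ |x| + v * τ < 1 := fun v hv => by
    refine ⟨lt_of_lt_of_le hl hv.1, ?_⟩
    have := mul_le_mul_of_nonneg_right hv.2 hτ.le
    linarith
  apply monotoneOn_of_deriv_nonneg (convex_Icc l₁ l₂) _ _ _ (left_mem_Icc.mpr hl12)
    (right_mem_Icc.mpr hl12) hl12
  · intro v hv
    obtain ⟨D, hD, _⟩ := Tr_deriv hτ hh₀ (hmem v hv).1 (hmem v hv).2
    exact hD.continuousAt.continuousWithinAt
  · intro v hv
    rw [interior_Icc] at hv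
    have hv2 : v ∈ Icc l₁ l₂ := ⟨hv.1.le, hv.2.le⟩
    obtain ⟨D, hD, _⟩ := Tr_deriv hτ hh₀ (hmem v hv2).1 (hmem v hv2).2
    exact hD.differentiableAt.differentiableWithinAt
  · intro v hv
    rw [interior_Icc] at hv
    have hv2 : v ∈ Icc l₁ l₂ := ⟨hv.1.le, hv.2.le⟩
    obtain ⟨D, hD, hD0⟩ := Tr_deriv hτ hh₀ (hmem v hv2).1 (hmem v hv2).2
    rw [hD.deriv]
    exact hD0

end Vale.Agent.Lib.P322B
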